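import Vale.Agent.P362.Ops

/-! Deterministic subroutines, products, amplitude amplification. -/

set_option linter.unusedSectionVars false

namespace Vale.Agent.P362

open Finset Matrix

section
variable {I : Type} {Y Z : Type} [Fintype Y] [Fintype Z]

/-- a function computed exactly with `T` queries -/
def Det [DecidableEq Y] (T : ℕ) (g : (I → Bool) → Y) : Prop :=
  Samp T (fun x y => if g x = y then 1 else 0)

lemma isDist_dirac [DecidableEq Y] (a : Y) : IsDist (fun y => if a = y then (1 : ℝ) else 0) :=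
  ⟨fun y => by split_ifs <;> norm_num, by simp⟩

lemma Det.const [DecidableEq Y] (a : Y) : Det (I := I) 0 (fun _ => a) :=
  Samp.pure (isDist_dirac a)

lemma Det.mono [DecidableEq Y] {S T : ℕ} {g : (I → Bool) → Y} (h : Det S g) (hST : S ≤ T) :
    Det T g := Samp.mono h hST

lemma Det.read (i : I) : Det 1 (fun x : I → Bool => x i) := by
  have h := Samp.test (Ops.query (I := I) (Ω := Unit) fun _ => some i) (v := fun _ => 1) (by simp)
  refine h.congr fun x b => ?_
  simp only [phq, dotProduct, mulVec_diagonal, univ_unique, sum_singleton, Option.elim]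
  by_cases h' : x i = true <;> cases b <;> simp [h']

lemma Det.bindS [DecidableEq Y] {S T : ℕ} {g : (I → Bool) → Y} {ν : Y → (I → Bool) → Z → ℝ}
    (h : Det S g) (hν : ∀ y, Samp T (ν y)) : Samp (S + T) (fun x z => ν (g x) x z) :=
  (Samp.bind h hν).congr fun x z => by simp

lemma Det.bind [DecidableEq Y] [DecidableEq Z] {S T : ℕ} {g : (I → Bool) → Y}
    {k : Y → (I → Bool) → Z} (h : Det S g) (hk : ∀ y, Det T (k y)) :
    Det (S + T) (fun x => k (g x) x) :=
  h.bindS (ν := fun y x z => if k y x = z then 1 else 0) hk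

lemma Det.map [DecidableEq Y] [DecidableEq Z] {S : ℕ} {g : (I → Bool) → Y} (h : Det S g)
    (φ : Y → Z) : Det S (fun x => φ (g x)) :=
  h.bind (k := fun y _ => φ y) fun y => Det.const (φ y)

lemma Det.congr [DecidableEq Y] {S : ℕ} {g g' : (I → Bool) → Y} (h : Det S g)
    (e : ∀ x, g' x = g x) : Det S g' := by
  rw [show g' = g from funext e]; exact h

lemma Det.prod [DecidableEq Y] [DecidableEq Z] {S T : ℕ} {g : (I → Bool) → Y}
    {k : (I → Bool) → Z} (h : Det S g) (hk : Det T k) : Det (S + T) (fun x => (g x, k x)) :=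
  h.bind (k := fun y x => (y, k x)) fun y => hk.map (fun z => (y, z))

lemma Samp.bindD [DecidableEq Z] {S T : ℕ} {μ : (I → Bool) → Y → ℝ} {k : Y → (I → Bool) → Z}
    (h : Samp S μ) (hk : ∀ y, Det T (k y)) :
    Samp (S + T) (fun x z => ∑ y, if k y x = z then μ x y else 0) :=
  (Samp.bind h hk).congr fun x z => by simp

lemma Samp.piFin {T : ℕ} : ∀ (n : ℕ) (μ : Fin n → (I → Bool) → Y → ℝ), (∀ j, Samp T (μ j)) →
    Samp (n * T) (fun x (f : Fin n → Y) => ∏ j, μ j x (f j))
  | 0, μ, _ => by
    classical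
    rw [Nat.zero_mul]
    exact Samp.congr (Det.const (I := I) (default : Fin 0 → Y)) fun x y => by
      simp [Subsingleton.elim default y]
  | n + 1, μ, h => by
    classical
    have ih := Samp.piFin n (fun j => μ j.succ) fun j => h j.succ
    have h2 := Samp.bind (h 0) fun y => ih.map (fun f => (y, f))
    refine (h2.map' (Fin.consEquiv fun _ => Y) fun x g => ?_).mono (by rw [Nat.succ_mul]; omega)
    rw [← (Fin.consEquiv fun _ => Y).sum_comp]
    refine sum_congr rfl fun p _ => ?_
    congr 1
    obtain ⟨a, f⟩ := p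
    rw [Fin.prod_univ_succ, sum_eq_single a]
    · simp [Fin.consEquiv]
    · intro b _ hb; simp [hb]
    · simp

lemma Samp.pi {κ : Type} [Fintype κ] [DecidableEq κ] {T : ℕ} (μ : κ → (I → Bool) → Y → ℝ)
    (h : ∀ j, Samp T (μ j)) :
    Samp (Fintype.card κ * T) (fun x (f : κ → Y) => ∏ j, μ j x (f j)) := by
  let e := Fintype.equivFin κ
  refine (Samp.piFin _ (fun j => μ (e.symm j)) fun j => h _).map' (fun f => f ∘ e) fun x g => ?_
  rw [← (e.arrowCongr (Equiv.refl Y)).symm.sum_comp]
  refine sum_congr rfl fun f _ => ?_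
  rw [← e.symm.prod_comp]
  simp [Equiv.arrowCongr]

lemma Det.pi {κ : Type} [Fintype κ] [DecidableEq κ] [DecidableEq Y] {T : ℕ}
    (g : κ → (I → Bool) → Y) (h : ∀ j, Det T (g j)) :
    Det (Fintype.card κ * T) (fun x j => g j x) := by
  refine (Samp.pi _ h).congr fun x f => ?_
  by_cases hf : (fun j => g j x) = f
  · subst hf; simp
  · rw [if_neg hf]
    obtain ⟨j, hj⟩ := Function.ne_iff.1 hf
    exact (prod_eq_zero (mem_univ j) (if_neg hj)).symm

lemma Det.readAll {κ : Type} [Fintype κ] [DecidableEq κ] (pos : κ → I) :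
    Det (Fintype.card κ) (fun (x : I → Bool) j => x (pos j)) := by
  simpa using Det.pi (fun j (x : I → Bool) => x (pos j)) fun j => Det.read (pos j)

/-- amplitudes of the good and bad parts under Grover iteration -/
noncomputable def amp (p : ℝ) : ℕ → ℝ × ℝ
  | 0 => (1, 1)
  | j + 1 => ((amp p j).1 * (1 - 2 * p) + 2 * (amp p j).2 * (1 - p),
      (amp p j).2 * (1 - 2 * p) - 2 * (amp p j).1 * p)

lemma amp_trig (θ : ℝ) (j : ℕ) :
    (amp (Real.sin θ ^ 2) j).1 * Real.sin θ = Real.sin ((2 * j + 1) * θ) ∧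
    (amp (Real.sin θ ^ 2) j).2 * Real.cos θ = Real.cos ((2 * j + 1) * θ) := by
  induction j with
  | zero => simp [amp]
  | succ j ih =>
    have e : (2 * ((j + 1 : ℕ) : ℝ) + 1) * θ = (2 * j + 1) * θ + 2 * θ := by push_cast; ring
    have h := Real.sin_sq_add_cos_sq θ
    rw [e, Real.sin_add, Real.cos_add, Real.sin_two_mul, Real.cos_two_mul, ← ih.1, ← ih.2]
    simp only [amp]
    constructor
    · linear_combination (-2 * (amp (Real.sin θ ^ 2) j).1 * Real.sin θ
        - 2 * (amp (Real.sin θ ^ 2) j).2 * Real.sin θ) * h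
    · linear_combination (-2 * (amp (Real.sin θ ^ 2) j).2 * Real.cos θ) * h

lemma sum_cos (θ : ℝ) (J : ℕ) :
    2 * Real.sin (2 * θ) * ∑ j ∈ range J, Real.cos (2 * ((2 * j + 1) * θ)) = Real.sin (4 * J * θ) := by
  induction J with
  | zero => simp
  | succ J ih =>
    rw [sum_range_succ, mul_add, ih]
    have e1 : 4 * ((J + 1 : ℕ) : ℝ) * θ = 2 * ((2 * J + 1) * θ) + 2 * θ := by push_cast; ring
    have e2 : 4 * (J : ℝ) * θ = 2 * ((2 * J + 1) * θ) - 2 * θ := by ring
    rw [e1, e2, Real.sin_add, Real.sin_sub]; ring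

lemma amp_avg {p : ℝ} (h0 : 0 ≤ p) (h1 : p ≤ 1 / 2) {J : ℕ} (hJ : 1 ≤ 2 * (J : ℝ) ^ 2 * p) :
    (J : ℝ) / 4 ≤ ∑ j ∈ range J, (amp p j).1 ^ 2 * p := by
  set θ := Real.arcsin (√p)
  have hs : Real.sin θ = √p := Real.sin_arcsin (by linarith [Real.sqrt_nonneg p])
    (Real.sqrt_le_one.2 (by linarith))
  have hp : p = Real.sin θ ^ 2 := by rw [hs, Real.sq_sqrt h0]
  have hc : 0 ≤ Real.cos θ := Real.cos_arcsin_nonneg _
  have hs0 : 0 ≤ Real.sin θ := by rw [hs]; exact Real.sqrt_nonneg _
  have e : ∀ j : ℕ, (amp p j).1 ^ 2 * p = 1 / 2 - Real.cos (2 * ((2 * j + 1) * θ)) / 2 := by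
    intro j
    have := (amp_trig θ j).1
    rw [← hp] at this
    rw [← Real.sin_sq_eq_half_sub, ← this, mul_pow, ← hp]
  simp only [e, sum_sub_distrib, sum_const, card_range, nsmul_eq_mul, ← sum_div]
  have h2 := sum_cos θ J
  set C := ∑ j ∈ range J, Real.cos (2 * ((2 * j + 1) * θ))
  set s := Real.sin (2 * θ)
  have hs2 : s = 2 * Real.sin θ * Real.cos θ := Real.sin_two_mul θ
  have hs3 : 0 ≤ s := by rw [hs2]; positivity
  have hs4 : 2 * p ≤ s ^ 2 := by
    have h := Real.sin_sq_add_cos_sq θ
    rw [hs2, mul_pow, mul_pow, ← hp, show Real.cos θ ^ 2 = 1 - p by linarith]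
    nlinarith
  have hJ0 : (0 : ℝ) ≤ J := Nat.cast_nonneg J
  have h5 : 1 ≤ J * s := by
    by_contra hc
    push Not at hc
    have : (J * s) ^ 2 < 1 := by nlinarith [mul_nonneg hJ0 hs3]
    nlinarith [sq_nonneg (J : ℝ)]
  have h6 := Real.sin_le_one (4 * J * θ)
  have hspos : 0 < s := by
    rcases hs3.eq_or_lt with h | h
    · rw [← h] at h5; linarith
    · exact h
  have : C ≤ J / 2 := by
    by_contra hc
    push Not at hc
    nlinarith
  linarith

lemma Samp.amp_core {T : ℕ} {μ : (I → Bool) → Y → ℝ} (h : Samp T μ) (good : Y → Prop)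
    [DecidablePred good] (j : ℕ) :
    Samp ((2 * j + 1) * T) (fun x y => (if good y then (amp (∑ y with good y, μ x y) j).1
      else (amp (∑ y with good y, μ x y) j).2) ^ 2 * μ x y) := by
  obtain ⟨Ω, _, _, A, v, out, hA, hv, h⟩ := h
  let S : Matrix Ω Ω ℝ := diagonal fun ω => if good (out ω) then 1 else -1
  have hS : Sᵀ * S = 1 := by
    simp only [S, diagonal_transpose, diagonal_mul_diagonal]
    rw [← diagonal_one]; congr 1; funext ω; split_ifs <;> norm_num
  have hR := refl_orth v 2 (by rw [hv]; norm_num)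
  let G : (I → Bool) → Matrix Ω Ω ℝ := fun x =>
    A x * ((1 - (2 : ℝ) • vecMulVec v v) * ((A x)ᵀ * S))
  have hG : Ops (T + T) G := hA.mul (Ops.mul_left hR (hA.transpose.mul (Ops.const hS)))
  have hM : ∀ j : ℕ, Ops ((2 * j + 1) * T) (fun x => G x ^ j * A x) := by
    intro j
    induction j with
    | zero => simpa using hA
    | succ j ih =>
      refine ((hG.mul ih).mono (by ring_nf; omega)).congr fun x => ?_
      rw [pow_succ', Matrix.mul_assoc]
  have hp : ∀ x, ∑ y with good y, μ x y =
      ∑ ω, (A x *ᵥ v) ω ^ 2 * if good (out ω) then 1 else 0 := by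
    intro x
    rw [← h x (fun y => if good y then 1 else 0), sum_filter]
    simp
  have key : ∀ x (j : ℕ) ω, ((G x ^ j * A x) *ᵥ v) ω =
      (if good (out ω) then (amp (∑ y with good y, μ x y) j).1
        else (amp (∑ y with good y, μ x y) j).2) * (A x *ᵥ v) ω := by
    intro x j
    set p := ∑ y with good y, μ x y with hpdef
    induction j with
    | zero => intro ω; simp [amp]
    | succ j ih =>
      intro ω
      have hφ := funext ih
      rw [pow_succ', Matrix.mul_assoc, ← mulVec_mulVec, hφ]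
      set ψ := A x *ᵥ v with hψ
      set φ : Ω → ℝ := S *ᵥ fun ω => (if good (out ω) then (amp p j).1 else (amp p j).2) * ψ ω
        with hφ'
      have e1 : G x *ᵥ (fun ω => (if good (out ω) then (amp p j).1 else (amp p j).2) * ψ ω) =
          φ - (2 * (ψ ⬝ᵥ φ)) • ψ := by
        simp only [G, ← mulVec_mulVec]
        rw [refl_mulVec, mulVec_sub, mulVec_smul, mulVec_mulVec, orth_symm (hA.orth x), one_mulVec,
          dotProduct_mulVec, vecMul_transpose]
      have e2 : ∀ ω, φ ω = (if good (out ω) then (amp p j).1 else -(amp p j).2) * ψ ω := by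
        intro ω
        simp only [hφ', S, mulVec_diagonal]
        split_ifs <;> ring
      have hn : ∑ ω, ψ ω ^ 2 = 1 := by
        rw [← hv, ← dot_orth (hA.orth x) v v]; simp [dotProduct, sq, hψ]
      have e3 : ψ ⬝ᵥ φ = (amp p j).1 * p - (amp p j).2 * (1 - p) := by
        have hp' := hp x
        rw [← hpdef, ← hψ] at hp'
        have : ∀ ω, ψ ω * φ ω = ((amp p j).1 + (amp p j).2) *
            (ψ ω ^ 2 * if good (out ω) then 1 else 0) - (amp p j).2 * ψ ω ^ 2 := by
          intro ω; rw [e2]; split_ifs <;> ring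
        simp only [dotProduct, this, sum_sub_distrib, ← mul_sum, ← hp', hn]; ring
      rw [e1, e3, Pi.sub_apply, Pi.smul_apply, e2, smul_eq_mul]
      simp only [amp]
      split_ifs <;> ring
  refine ⟨Ω, inferInstance, inferInstance, _, v, out, hM j, hv, fun x g => ?_⟩
  simp only [key, mul_pow]
  have := h x (fun y => (if good y then (amp (∑ y with good y, μ x y) j).1
      else (amp (∑ y with good y, μ x y) j).2) ^ 2 * g y)
  calc _ = _ := sum_congr rfl fun y _ => by ring
    _ = _ := this
    _ = _ := sum_congr rfl fun y _ => by ring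

lemma isDist_unif [Nonempty Y] : IsDist (fun _ : Y => (1 : ℝ) / Fintype.card Y) :=
  ⟨fun _ => by positivity, by simp⟩

/-- amplitude amplification with a random number of iterations -/
theorem Samp.amplify [DecidableEq Y] {T : ℕ} {μ : (I → Bool) → Y → ℝ} (h : Samp T μ)
    (good : Y → Prop) [DecidablePred good] {J : ℕ} (hJ : 0 < J) :
    ∃ (s : (I → Bool) → ℝ) (ν : (I → Bool) → Option Y → ℝ), Samp (2 * J * T) ν ∧
      (∀ x y, ν x (some y) = if good y then s x * μ x y else 0) ∧
      ∀ x, 1 ≤ (J : ℝ) ^ 2 * (∑ y with good y, μ x y) → 1 / 4 ≤ s x * ∑ y with good y, μ x y := by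
  have h1 : Samp T (fun x (q : Y × Bool) => μ x q.1 / 2) := by
    have := h.bind fun y => (Samp.pure (I := I) (isDist_unif (Y := Bool))).map (fun c => (y, c))
    refine this.congr fun x q => ?_
    obtain ⟨a, c⟩ := q
    rw [sum_eq_single a]
    · cases c <;> simp <;> ring
    · intro b _ hb; simp [hb]
    · simp
  let good' : Y × Bool → Prop := fun q => good q.1 ∧ q.2 = true
  have hp : ∀ x, ∑ q with good' q, μ x q.1 / 2 = (∑ y with good y, μ x y) / 2 := by
    intro x
    rw [sum_filter, sum_filter, Fintype.sum_prod_type, sum_div]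
    refine sum_congr rfl fun y _ => ?_
    by_cases hy : good y <;> simp [good', hy]
  have : Nonempty (Fin J) := ⟨⟨0, hJ⟩⟩
  have h2 := (Samp.pure (I := I) (isDist_unif (Y := Fin J))).bind fun j =>
    ((h1.amp_core good' j).map (fun q => if good' q then some q.1 else none)).mono
      (T := 2 * J * T) (Nat.mul_le_mul_right _ (by omega))
  rw [Nat.zero_add] at h2
  refine ⟨fun x => (∑ j ∈ range J, (amp ((∑ y with good y, μ x y) / 2) j).1 ^ 2) / (2 * J), _, h2,
    fun x y => ?_, fun x hx => ?_⟩
  · simp only [hp, Fintype.card_fin]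
    have : ∀ j : Fin J, (∑ q : Y × Bool, if (if good' q then some q.1 else none) = some y then
        (if good' q then (amp ((∑ y with good y, μ x y) / 2) j).1
          else (amp ((∑ y with good y, μ x y) / 2) j).2) ^ 2 * (μ x q.1 / 2) else 0) =
        if good y then (amp ((∑ y with good y, μ x y) / 2) j).1 ^ 2 * (μ x y / 2) else 0 := by
      intro j
      rw [sum_eq_single (y, true)]
      · by_cases hy : good y <;> simp [good', hy]
      · rintro ⟨a, c⟩ _ hq
        rw [if_neg]
        by_cases hy : good' (a, c)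
        · rw [if_pos hy]
          intro hc
          apply hq
          simp only [Option.some.injEq] at hc
          rw [← hc, ← hy.2]
        · simp [hy]
      · simp
    simp only [this]
    split_ifs
    · generalize (∑ y with good y, μ x y) / 2 = p
      rw [← Fin.sum_univ_eq_sum_range (fun j => (amp p j).1 ^ 2), sum_div, sum_mul]
      refine sum_congr rfl fun j _ => ?_
      ring
    · simp
  · have hd := h.isDist x
    set p := ∑ y with good y, μ x y
    have hp0 : 0 ≤ p := sum_nonneg fun y _ => hd.nn y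
    have hp1 : p ≤ 1 := by
      rw [← hd.sum]; exact sum_le_sum_of_subset_of_nonneg (filter_subset _ _) fun y _ _ => hd.nn y
    have := amp_avg (p := p / 2) (by linarith) (by linarith) (J := J) (by linarith)
    rw [← sum_mul] at this
    have hJ' : (0 : ℝ) < J := by exact_mod_cast hJ
    rw [div_mul_eq_mul_div, le_div_iff₀ (by positivity)]
    linarith

end

end Vale.Agent.P362
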