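import Mathlib

/-! Query complexity of Boolean functions: randomized and quantum bounded-error models. -/

namespace Vale.Agent.P362

open Matrix

/-- Deterministic decision trees querying bits indexed by `ι`. -/
inductive DTree (ι : Type) : Type
  | leaf (b : Bool) : DTree ι
  | node (i : ι) (t0 t1 : DTree ι) : DTree ι

/-- The output of a tree on input `x`: at a node labelled `i` go to `t1` if `x i` is true,
and to `t0` otherwise. -/
def DTree.eval {ι : Type} : DTree ι → (ι → Bool) → Bool
  | .leaf b, _ => b
  | .node i t0 t1, x => if x i = true then t1.eval x else t0.eval x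

/-- The worst-case number of queries of a tree. -/
def DTree.depth {ι : Type} : DTree ι → ℕ
  | .leaf _ => 0
  | .node _ t0 t1 => max t0.depth t1.depth + 1

/-- `f` is computed with probability at least `2/3` on every input by a random decision tree
(tree `t i` chosen with probability `p i`) all of whose trees make at most `q` queries. -/
def RComputes {n : ℕ} (f : (Fin n → Bool) → Bool) (q : ℕ) : Prop :=
  ∃ (K : ℕ) (p : Fin K → ℝ) (t : Fin K → DTree (Fin n)),
    (∀ i, 0 ≤ p i) ∧ ∑ i, p i = 1 ∧ (∀ i, (t i).depth ≤ q) ∧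
      ∀ x, (2 / 3 : ℝ) ≤ ∑ i with (t i).eval x = f x, p i

/-- Bounded-error randomized query complexity. -/
noncomputable def R {n : ℕ} (f : (Fin n → Bool) → Bool) : ℕ := sInf {q | RComputes f q}

/-- Basis states `(i, b, z)`: query index, answer bit, work register of dimension `w`. -/
abbrev Reg (n w : ℕ) : Type := Fin n × Bool × Fin w

/-- The query unitary, sending the basis state `(i, b, z)` to `(i, b xor x i, z)`. -/
def oracle {n : ℕ} (w : ℕ) (x : Fin n → Bool) : Matrix (Reg n w) (Reg n w) ℂ :=
  Matrix.of fun r s => if r = (s.1, xor s.2.1 (x s.1), s.2.2) then 1 else 0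

/-- The state `U t * O * ... * U 1 * O * U 0` applied to the basis state `s` (`t` queries). -/
noncomputable def qstate {n w : ℕ} (U : ℕ → Matrix (Reg n w) (Reg n w) ℂ) (s : Reg n w)
    (x : Fin n → Bool) : ℕ → Reg n w → ℂ
  | 0 => (U 0).mulVec (Pi.single s 1)
  | t + 1 => (U (t + 1)).mulVec ((oracle w x).mulVec (qstate U s x t))

/-- `f` is computed with probability at least `2/3` on every input by a quantum algorithm making
`T` queries: fixed unitaries `U t`, a fixed start state `s`, a final measurement in the
computational basis, and output `out r` on outcome `r`. -/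
def QComputes {n : ℕ} (f : (Fin n → Bool) → Bool) (T : ℕ) : Prop :=
  ∃ (w : ℕ) (U : ℕ → Matrix (Reg n w) (Reg n w) ℂ) (s : Reg n w) (out : Reg n w → Bool),
    (∀ t, U t ∈ Matrix.unitaryGroup (Reg n w) ℂ) ∧
      ∀ x, (2 / 3 : ℝ) ≤ ∑ r with out r = f x, ‖qstate U s x T r‖ ^ 2

/-- Bounded-error quantum query complexity. -/
noncomputable def Q {n : ℕ} (f : (Fin n → Bool) → Bool) : ℕ := sInf {T | QComputes f T}

/-- The admissible exponents. -/
def Exponents : Set ℝ :=
  {α | 0 ≤ α ∧ ∃ C : ℝ, ∀ n : ℕ, 1 ≤ n → ∀ f : (Fin n → Bool) → Bool,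
    (R f : ℝ) ≤ C * (1 + (Q f : ℝ)) ^ α}

end Vale.Agent.P362
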