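import Vale.Agent.P362.Growth
import Vale.Agent.P362.Defs

/-! Decision trees: query lists, localisation, and the distributional lower bound. -/

set_option linter.unusedSectionVars false

namespace Vale.Agent.P362

open Finset

namespace DTree

variable {ι : Type}

/-- the list of positions queried on input `x` -/
def qs : DTree ι → (ι → Bool) → List ι
  | .leaf _, _ => []
  | .node i t0 t1, x => i :: if x i = true then t1.qs x else t0.qs x

lemma length_qs (x : ι → Bool) : ∀ t : DTree ι, (t.qs x).length ≤ t.depth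
  | .leaf _ => le_rfl
  | .node i t0 t1 => by
    have h0 := length_qs x t0
    have h1 := length_qs x t1
    simp only [qs, depth, List.length_cons]
    split_ifs <;> omega

lemma agree {x x' : ι → Bool} : ∀ t : DTree ι, (∀ j ∈ t.qs x, x' j = x j) →
    t.qs x' = t.qs x ∧ t.eval x' = t.eval x
  | .leaf _, _ => ⟨rfl, rfl⟩
  | .node i t0 t1, h => by
    simp only [qs, List.mem_cons, forall_eq_or_imp] at h
    simp only [qs, eval, h.1]
    split_ifs with hi
    · rw [if_pos hi] at h
      have := agree t1 h.2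
      rw [this.1, this.2]; exact ⟨rfl, rfl⟩
    · rw [if_neg hi] at h
      have := agree t0 h.2
      rw [this.1, this.2]; exact ⟨rfl, rfl⟩

open Classical in
/-- indicator that the tree queries a position in `S` -/
noncomputable def touch (t : DTree ι) (S : ι → Prop) (x : ι → Bool) : ℝ :=
  if ∃ j ∈ t.qs x, S j then 1 else 0

lemma touch_nonneg (t : DTree ι) (S : ι → Prop) (x : ι → Bool) : 0 ≤ t.touch S x := by
  unfold touch; split_ifs <;> norm_num

lemma hasDepth_touch (S : ι → Prop) : ∀ t : DTree ι, HasDepth t.depth (t.touch S)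
  | .leaf b => by
    have : (leaf b).touch S = fun _ => 0 := by funext x; simp [touch, qs]
    rw [this]; exact .const _ _ (by simp)
  | .node i t0 t1 => by
    by_cases hi : S i
    · have : (node i t0 t1).touch S = fun _ => 1 := by funext x; simp [touch, qs, hi]
      rw [this]; exact .const _ _ (by simp)
    · have : (node i t0 t1).touch S =
          fun x => if x i = true then t1.touch S x else t0.touch S x := by
        funext x
        unfold touch
        by_cases hx : x i = true
        · have e : (∃ j ∈ (node i t0 t1).qs x, S j) ↔ ∃ j ∈ t1.qs x, S j := by simp [qs, hi, hx]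
          rw [if_pos hx]
          by_cases h : ∃ j ∈ t1.qs x, S j
          · rw [if_pos h, if_pos (e.2 h)]
          · rw [if_neg h, if_neg (mt e.1 h)]
        · have e : (∃ j ∈ (node i t0 t1).qs x, S j) ↔ ∃ j ∈ t0.qs x, S j := by simp [qs, hi, hx]
          rw [if_neg hx]
          by_cases h : ∃ j ∈ t0.qs x, S j
          · rw [if_pos h, if_pos (e.2 h)]
          · rw [if_neg h, if_neg (mt e.1 h)]
      rw [this]
      exact .node _ i _ _ ((hasDepth_touch S t0).mono (le_max_left _ _))
        ((hasDepth_touch S t1).mono (le_max_right _ _))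

lemma touch_le_of_agree (t : DTree ι) (S : ι → Prop) {x x' : ι → Bool}
    (h : ∀ j, ¬ S j → x' j = x j) : t.touch S x' ≤ t.touch S x := by
  by_cases hx : ∃ j ∈ t.qs x, S j
  · unfold touch; rw [if_pos hx]; split_ifs <;> norm_num
  · unfold touch
    rw [(t.agree fun j hj => h j fun hs => hx ⟨j, hj, hs⟩).1]

/-- relabelling -/
def map {ι' : Type} (e : ι → ι') : DTree ι → DTree ι'
  | .leaf b => .leaf b
  | .node i t0 t1 => .node (e i) (t0.map e) (t1.map e)

lemma eval_map {ι' : Type} (e : ι → ι') (x : ι' → Bool) :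
    ∀ t : DTree ι, (t.map e).eval x = t.eval (x ∘ e)
  | .leaf _ => rfl
  | .node i t0 t1 => by simp only [map, eval, eval_map e x t0, eval_map e x t1]; rfl

lemma depth_map {ι' : Type} (e : ι → ι') : ∀ t : DTree ι, (t.map e).depth = t.depth
  | .leaf _ => rfl
  | .node i t0 t1 => by simp only [map, depth, depth_map e t0, depth_map e t1]

variable {A J : Type} [DecidableEq A]

/-- the first `d` queries inside block `a`, the other blocks being fixed by `x` -/
def loc (a : A) (x : A × J → Bool) : DTree (A × J) → ℕ → DTree J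
  | .leaf b, _ => .leaf b
  | .node i t0 t1, d =>
    if i.1 = a then (if d = 0 then .leaf false else .node i.2 (loc a x t0 (d - 1)) (loc a x t1 (d - 1)))
    else if x i = true then loc a x t1 d else loc a x t0 d

lemma depth_loc (a : A) (x : A × J → Bool) : ∀ (t : DTree (A × J)) (d : ℕ), (loc a x t d).depth ≤ d
  | .leaf _, _ => Nat.zero_le _
  | .node i t0 t1, d => by
    simp only [loc]
    split_ifs with h1 h2
    · exact Nat.zero_le _
    · have := depth_loc a x t0 (d - 1)
      have := depth_loc a x t1 (d - 1)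
      simp only [depth]; omega
    · exact depth_loc a x t1 d
    · exact depth_loc a x t0 d

lemma loc_congr (a : A) {x x' : A × J → Bool} (h : ∀ j, j.1 ≠ a → x j = x' j) :
    ∀ (t : DTree (A × J)) (d : ℕ), loc a x t d = loc a x' t d
  | .leaf _, _ => rfl
  | .node i t0 t1, d => by
    simp only [loc, loc_congr a h t0, loc_congr a h t1]
    by_cases hi : i.1 = a
    · simp only [if_pos hi]
    · simp only [if_neg hi, h i hi]

lemma loc_key (a : A) (x : A × J → Bool) (S : J → Prop) : ∀ (t : DTree (A × J)) (d : ℕ),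
    (∃ j ∈ t.qs x, j.1 = a ∧ S j.2) → d < (t.qs x).countP (fun j => j.1 = a) ∨
      ∃ j ∈ (loc a x t d).qs (fun j => x (a, j)), S j
  | .leaf _, _, h => by simp [qs] at h
  | .node i t0 t1, d, h => by
    simp only [qs, List.mem_cons, exists_eq_or_imp] at h
    simp only [qs, loc, List.countP_cons, decide_eq_true_eq]
    by_cases hi : i.1 = a
    · simp only [if_pos hi]
      by_cases hd : d = 0
      · left; omega
      · have hx : x (a, i.2) = x i := by rw [← hi]
        simp only [if_neg hd, qs, List.mem_cons, exists_eq_or_imp, hx]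
        rcases h with h | h
        · exact .inr (.inl h.2)
        · split_ifs at h ⊢
          · rcases loc_key a x S t1 (d - 1) h with h' | h'
            · left; omega
            · exact .inr (.inr h')
          · rcases loc_key a x S t0 (d - 1) h with h' | h'
            · left; omega
            · exact .inr (.inr h')
    · simp only [if_neg hi, add_zero]
      rcases h with h | h
      · exact absurd h.1 hi
      · split_ifs at h ⊢
        · exact loc_key a x S t1 d h
        · exact loc_key a x S t0 d h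

end DTree

lemma sum_countP_le {J C : Type} [Fintype C] [DecidableEq C] (lab : J → Option C) :
    ∀ l : List J, ∑ c, l.countP (fun j => lab j = some c) ≤ l.length
  | [] => by simp
  | j :: l => by
    have := sum_countP_le lab l
    simp only [List.countP_cons, sum_add_distrib, List.length_cons, decide_eq_true_eq]
    have h : ∑ c, (if lab j = some c then 1 else 0) ≤ 1 := by
      cases lab j <;> simp
    omega

lemma sum_touch_le {J C : Type} [Fintype C] [DecidableEq C] (lab : J → Option C) (t : DTree J)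
    (x : J → Bool) : ∑ c, t.touch (fun j => lab j = some c) x ≤ t.depth := by
  have h : ((∑ c, (t.qs x).countP (fun j => lab j = some c) : ℕ) : ℝ) ≤ t.depth := by
    exact_mod_cast (sum_countP_le lab _).trans (t.length_qs x)
  refine le_trans ?_ h
  push_cast
  refine sum_le_sum fun c _ => ?_
  unfold DTree.touch
  split_ifs with hc
  · obtain ⟨j, hj, hc⟩ := hc
    exact_mod_cast List.countP_pos_iff.2 ⟨j, hj, by simpa using hc⟩
  · positivity

section
variable {A J Ξ : Type} [Fintype A] [DecidableEq A] [Fintype Ξ]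

lemma touch_global {w : Ξ → ℝ} (hw : IsDist w) (y : Ξ → J → Bool) (Tg : Ξ → J → Prop) {d : ℕ}
    (hd : 0 < d) {ε : ℝ}
    (hloc : ∀ t : DTree J, t.depth ≤ d → ∑ ξ, w ξ * t.touch (Tg ξ) (y ξ) ≤ ε) (t : DTree (A × J)) :
    ∑ a, Ex (fun _ : A => w) (fun ξ => t.touch (fun j => j.1 = a ∧ Tg (ξ a) j.2)
      (fun j => y (ξ j.1) j.2)) ≤ t.depth / d + Fintype.card A * ε := by
  have hd' : (0 : ℝ) < d := by exact_mod_cast hd
  have hW : ∀ _ : A, IsDist w := fun _ => hw
  have h1 : ∀ a, Ex (fun _ : A => w) (fun ξ => t.touch (fun j => j.1 = a ∧ Tg (ξ a) j.2)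
      (fun j => y (ξ j.1) j.2)) ≤ Ex (fun _ : A => w) (fun ξ =>
        (1 / d : ℝ) * (t.qs (fun j => y (ξ j.1) j.2)).countP (fun j => some j.1 = some a)) + ε := by
    intro a
    have h2 : Ex (fun _ : A => w) (fun ξ =>
        (DTree.loc a (fun j => y (ξ j.1) j.2) t d).touch (Tg (ξ a)) (y (ξ a))) ≤ ε := by
      rw [resample' _ a hw.sum, ← Ex_const hW ε]
      refine Ex_mono hW fun ξ => ?_
      refine le_trans (le_of_eq (sum_congr rfl fun η _ => ?_))
        (hloc _ (DTree.depth_loc a (fun j => y (ξ j.1) j.2) t d))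
      rw [Function.update_self, DTree.loc_congr a (x' := fun j => y (ξ j.1) j.2)
        (fun j hj => by rw [Function.update_of_ne hj])]
    refine le_trans ?_ (add_le_add_right h2 _)
    rw [← Ex_add]
    refine Ex_mono hW fun ξ => ?_
    have h3 := DTree.touch_nonneg (DTree.loc a (fun j => y (ξ j.1) j.2) t d) (Tg (ξ a)) (y (ξ a))
    conv_lhs => unfold DTree.touch
    split_ifs with h
    · rcases DTree.loc_key a _ (Tg (ξ a)) t d h with h' | h'
      · have : (d : ℝ) ≤ (t.qs (fun j => y (ξ j.1) j.2)).countP (fun j => some j.1 = some a) := by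
          simp only [Option.some.injEq]; exact_mod_cast h'.le
        have : 1 ≤ (1 / d : ℝ) *
            (t.qs (fun j => y (ξ j.1) j.2)).countP (fun j => some j.1 = some a) := by
          rw [one_div, inv_mul_eq_div, le_div_iff₀ hd']; linarith
        linarith
      · have : (DTree.loc a (fun j => y (ξ j.1) j.2) t d).touch (Tg (ξ a)) (y (ξ a)) = 1 :=
          if_pos h'
        rw [this]
        exact le_add_of_nonneg_left (by positivity)
    · positivity
  refine (sum_le_sum fun a _ => h1 a).trans ?_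
  rw [sum_add_distrib, ← Ex_sum]
  simp only [sum_const, card_univ, nsmul_eq_mul]
  refine add_le_add_left ?_ _
  rw [← Ex_const hW ((t.depth : ℝ) / d)]
  refine Ex_mono hW fun ξ => ?_
  rw [← mul_sum, one_div, inv_mul_eq_div]
  refine div_le_div_of_nonneg_right ?_ hd'.le
  exact_mod_cast (sum_countP_le (fun j : A × J => some j.1) _).trans (t.length_qs _)

theorem yao [Nonempty A] {w : Ξ → ℝ} (hw : IsDist w) (y : Ξ → J → Bool) (Tg : Ξ → J → Prop) {d : ℕ}
    (hd : 0 < d) {ε : ℝ}
    (hloc : ∀ t : DTree J, t.depth ≤ d → ∑ ξ, w ξ * t.touch (Tg ξ) (y ξ) ≤ ε)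
    (f : (A × J → Bool) → Bool) (x2 : A → (A → Ξ) → A × J → Bool)
    (hx2 : ∀ a ξ j, ¬ (j.1 = a ∧ Tg (ξ a) j.2) → x2 a ξ j = y (ξ j.1) j.2)
    (h0 : ∀ ξ : A → Ξ, f (fun j => y (ξ j.1) j.2) = false) (P : Ξ → Prop) [DecidablePred P] {η : ℝ}
    (hP : ∑ ξ, w ξ * (if P ξ then 0 else 1) ≤ η) (h1 : ∀ a ξ, P (ξ a) → f (x2 a ξ) = true)
    {K q : ℕ} (p : Fin K → ℝ) (t : Fin K → DTree (A × J)) (hp : IsDist p)
    (hq : ∀ i, (t i).depth ≤ q) (hf : ∀ x, (2 / 3 : ℝ) ≤ ∑ i with (t i).eval x = f x, p i) :
    (1 - η) / 3 ≤ q / (d * Fintype.card A) + ε := by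
  have hW : ∀ _ : A, IsDist w := fun _ => hw
  have hd' : (0 : ℝ) < d := by exact_mod_cast hd
  have hA : (0 : ℝ) < Fintype.card A := by exact_mod_cast Fintype.card_pos
  have k1 : ∀ a (ξ : A → Ξ), 1 / 3 - 1 / 3 * (if P (ξ a) then 0 else 1) ≤
      ∑ i, p i * (t i).touch (fun j => j.1 = a ∧ Tg (ξ a) j.2) (fun j => y (ξ j.1) j.2) := by
    intro a ξ
    split_ifs with hPa
    · have e0 := hf (fun j => y (ξ j.1) j.2)
      have e1 := hf (x2 a ξ)
      rw [h0, sum_filter] at e0
      rw [h1 a ξ hPa, sum_filter] at e1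
      have : ∑ i, ((if (t i).eval (fun j => y (ξ j.1) j.2) = false then p i else 0) +
          if (t i).eval (x2 a ξ) = true then p i else 0) ≤ ∑ i, (p i +
          p i * (t i).touch (fun j => j.1 = a ∧ Tg (ξ a) j.2) (fun j => y (ξ j.1) j.2)) := by
        refine sum_le_sum fun i _ => ?_
        have hpi := hp.nn i
        unfold DTree.touch
        by_cases h : ∃ j ∈ (t i).qs (fun j => y (ξ j.1) j.2), j.1 = a ∧ Tg (ξ a) j.2
        · rw [if_pos h]; split_ifs <;> linarith
        · rw [if_neg h, ((t i).agree (x' := x2 a ξ) fun j hj => hx2 a ξ j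
            fun hs => h ⟨j, hj, hs⟩).2]
          rcases Bool.eq_false_or_eq_true ((t i).eval fun j => y (ξ j.1) j.2) with h' | h' <;>
            simp [h']
      rw [sum_add_distrib, sum_add_distrib, hp.sum] at this
      linarith
    · have : 0 ≤ ∑ i, p i * (t i).touch (fun j => j.1 = a ∧ Tg (ξ a) j.2)
          (fun j => y (ξ j.1) j.2) :=
        sum_nonneg fun i _ => mul_nonneg (hp.nn i) (DTree.touch_nonneg _ _ _)
      linarith
  have k2 : ∀ a, (1 - η) / 3 ≤ ∑ i, p i * Ex (fun _ : A => w) (fun ξ =>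
      (t i).touch (fun j => j.1 = a ∧ Tg (ξ a) j.2) (fun j => y (ξ j.1) j.2)) := by
    intro a
    have h2 := Ex_mono hW (k1 a)
    rw [Ex_sum, Ex_sub, Ex_const hW, Ex_mul, resample' _ a hw.sum] at h2
    simp only [Ex_mul, Function.update_self, Ex_const hW] at h2
    linarith
  have k3 := sum_le_sum fun a (_ : a ∈ univ) => k2 a
  rw [sum_comm] at k3
  simp only [← mul_sum, sum_const, card_univ, nsmul_eq_mul] at k3
  have k4 : ∑ i, p i * ∑ a, Ex (fun _ : A => w) (fun ξ =>
      (t i).touch (fun j => j.1 = a ∧ Tg (ξ a) j.2) (fun j => y (ξ j.1) j.2)) ≤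
      ∑ i, p i * (q / d + Fintype.card A * ε) := by
    refine sum_le_sum fun i _ => mul_le_mul_of_nonneg_left
      ((touch_global hw y Tg hd hloc (t i)).trans ?_) (hp.nn i)
    have : ((t i).depth : ℝ) ≤ q := by exact_mod_cast hq i
    gcongr
  rw [← sum_mul, hp.sum, one_mul] at k4
  have k5 := k3.trans k4
  rw [← div_div, div_add' _ _ _ hA.ne', le_div_iff₀ hA]
  linarith

end

section
variable {B L κ Loc Slot : Type} [Fintype B] [DecidableEq B] [Fintype L] [DecidableEq L]
  [Fintype κ] [DecidableEq κ] [Fintype Loc] [DecidableEq Loc]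

/-- weight of the hidden data of one candidate -/
noncomputable def wLoc (lv : κ → L) (Dd : Bool → (Loc → Bool) → ℝ)
    (ξ : B × (L → Bool) × (κ → Loc → Bool)) : ℝ :=
  1 / Fintype.card B * (1 / Fintype.card (L → Bool) * ∏ k, Dd (ξ.2.1 (lv k)) (ξ.2.2 k))

/-- the part of the zero input belonging to one candidate -/
def yLoc (Slot : Type) (ξ : B × (L → Bool) × (κ → Loc → Bool)) :
    B ⊕ (κ × Loc) ⊕ ((L → Bool) × Slot) → Bool :=
  Sum.elim (fun j => decide (j = ξ.1)) (Sum.elim (fun p => ξ.2.2 p.1 p.2) fun _ => false)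

/-- positions changed in the one input -/
def TgLoc (β : B) (b : L → Bool) (j : B ⊕ (κ × Loc) ⊕ ((L → Bool) × Slot)) : Prop :=
  j = .inl β ∨ ∃ s, j = .inr (.inr (b, s))

lemma sum_wLoc (lv : κ → L) (Dd : Bool → (Loc → Bool) → ℝ)
    (G : B × (L → Bool) × (κ → Loc → Bool) → ℝ) : ∑ ξ, wLoc lv Dd ξ * G ξ =
    1 / Fintype.card B * (1 / Fintype.card (L → Bool) *
      ∑ β, ∑ b : L → Bool, Ex (fun k => Dd (b (lv k))) (fun T => G (β, b, T))) := by
  simp only [Fintype.sum_prod_type, wLoc, Ex, mul_sum, mul_assoc]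

lemma isDist_wLoc [Nonempty B] (lv : κ → L) {Dd : Bool → (Loc → Bool) → ℝ}
    (hD : ∀ b, IsDist (Dd b)) : IsDist (wLoc (B := B) lv Dd) := by
  constructor
  · intro ξ
    have : 0 ≤ ∏ k, Dd (ξ.2.1 (lv k)) (ξ.2.2 k) := prod_nonneg fun k _ => (hD _).nn _
    unfold wLoc; positivity
  · have := sum_wLoc (B := B) lv Dd (fun _ => 1)
    simp only [mul_one, Ex_const (fun k => hD _), sum_const, card_univ, nsmul_eq_mul] at this
    rw [this]; field_simp

lemma local_bound [Nonempty B] (lv : κ → L) {Dd : Bool → (Loc → Bool) → ℝ}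
    (hD : ∀ b, IsDist (Dd b)) {d : ℕ} {adv : ℝ}
    (hadv : ∀ F, HasDepth d F → |∑ η, Dd true η * F η - ∑ η, Dd false η * F η| ≤ adv)
    (t : DTree (B ⊕ (κ × Loc) ⊕ ((L → Bool) × Slot))) (ht : t.depth ≤ d) :
    ∑ ξ, wLoc lv Dd ξ * t.touch (TgLoc ξ.1 ξ.2.1) (yLoc Slot ξ) ≤
      d / Fintype.card B + d / Fintype.card (L → Bool) + Fintype.card κ * adv := by
  let y0 : (κ → Loc → Bool) → B ⊕ (κ × Loc) ⊕ ((L → Bool) × Slot) → Bool := fun T =>
    Sum.elim (fun _ => false) (Sum.elim (fun p => T p.1 p.2) fun _ => false)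
  have hadv0 : 0 ≤ adv := (abs_nonneg _).trans (hadv _ (.const d 0 (by simp)))
  have h1 : ∀ β (b : L → Bool), Ex (fun k => Dd (b (lv k)))
      (fun T => t.touch (TgLoc β b) (yLoc Slot (β, b, T))) ≤
      Ex (fun _ => Dd true) (fun T => t.touch (TgLoc β b) (y0 T)) + Fintype.card κ * adv := by
    intro β b
    have h2 : Ex (fun k => Dd (b (lv k))) (fun T => t.touch (TgLoc β b) (yLoc Slot (β, b, T))) ≤
        Ex (fun k => Dd (b (lv k))) (fun T => t.touch (TgLoc β b) (y0 T)) := by
      refine Ex_mono (fun _ => hD _) fun T => t.touch_le_of_agree _ fun j hj => ?_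
      rcases j with j | j | j
      · have : j ≠ β := fun e => hj (.inl (by rw [e]))
        simp [yLoc, y0, this]
      · rfl
      · rfl
    have h3 := hybrid (w0 := fun _ : κ => Dd true) (w1 := fun k => Dd (b (lv k)))
      (fun _ => hD _) (fun _ => hD _) (fun T => t.touch (TgLoc β b) (y0 T)) (a := adv)
      (fun k T => by
        have hF : HasDepth d (fun η => t.touch (TgLoc β b) (y0 (Function.update T k η))) := by
          refine ((t.hasDepth_touch _).mono ht).subst (fun η => y0 (Function.update T k η))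
            fun j => ?_
          rcases j with j | ⟨k', l⟩ | j
          · exact .inl ⟨false, fun _ => rfl⟩
          · by_cases hk : k' = k
            · exact .inr ⟨l, fun η => by simp [y0, hk]⟩
            · exact .inl ⟨T k' l, fun η => by simp [y0, hk]⟩
          · exact .inl ⟨false, fun _ => rfl⟩
        rcases Bool.eq_false_or_eq_true (b (lv k)) with h | h
        · simp [h, hadv0]
        · rw [h, abs_sub_comm]; exact hadv _ hF)
    linarith [(abs_le.1 h3).2]
  have h4 : ∀ T, ∑ β, ∑ b : L → Bool, t.touch (TgLoc β b) (y0 T) ≤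
      Fintype.card (L → Bool) * d + Fintype.card B * d := by
    intro T
    let lab1 : B ⊕ (κ × Loc) ⊕ ((L → Bool) × Slot) → Option B := Sum.elim some fun _ => none
    let lab2 : B ⊕ (κ × Loc) ⊕ ((L → Bool) × Slot) → Option (L → Bool) :=
      Sum.elim (fun _ => none) (Sum.elim (fun _ => none) fun p => some p.1)
    have e1 := sum_touch_le lab1 t (y0 T)
    have e2 := sum_touch_le lab2 t (y0 T)
    have hd : (t.depth : ℝ) ≤ d := by exact_mod_cast ht
    have h5 : ∀ β b, t.touch (TgLoc β b) (y0 T) ≤ t.touch (fun j => lab1 j = some β) (y0 T) +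
        t.touch (fun j => lab2 j = some b) (y0 T) := by
      intro β b
      have n1 := t.touch_nonneg (fun j => lab1 j = some β) (y0 T)
      have n2 := t.touch_nonneg (fun j => lab2 j = some b) (y0 T)
      conv_lhs => unfold DTree.touch
      split_ifs with h
      · obtain ⟨j, hj, rfl | ⟨s, rfl⟩⟩ := h
        · have : t.touch (fun j => lab1 j = some β) (y0 T) = 1 := if_pos ⟨_, hj, rfl⟩
          linarith
        · have : t.touch (fun j => lab2 j = some b) (y0 T) = 1 := if_pos ⟨_, hj, rfl⟩
          linarith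
      · linarith
    refine (sum_le_sum fun β _ => sum_le_sum fun b _ => h5 β b).trans ?_
    simp only [sum_add_distrib, sum_const, card_univ, nsmul_eq_mul, ← mul_sum]
    gcongr
    · exact e1.trans hd
    · exact e2.trans hd
  rw [sum_wLoc]
  have h6 := sum_le_sum fun β (_ : β ∈ univ) => sum_le_sum fun b (_ : b ∈ univ) => h1 β b
  simp only [sum_add_distrib, ← Ex_sum, sum_const, card_univ, nsmul_eq_mul] at h6
  have h7 := Ex_mono (w := fun _ : κ => Dd true) (fun _ => hD _) h4
  rw [Ex_const (fun _ => hD _)] at h7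
  have hB : (0 : ℝ) < Fintype.card B := by exact_mod_cast Fintype.card_pos
  have hL : (0 : ℝ) < Fintype.card (L → Bool) := by exact_mod_cast Fintype.card_pos
  calc _ ≤ 1 / (Fintype.card B : ℝ) * (1 / Fintype.card (L → Bool) *
        (Fintype.card (L → Bool) * d + Fintype.card B * d +
          Fintype.card B * (Fintype.card (L → Bool) * (Fintype.card κ * adv)))) := by
        gcongr; linarith
    _ = _ := by field_simp

end

end Vale.Agent.P362
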