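import Vale.Agent.P362.Amp

/-! One-sided Grover verification, and the tournament search. -/

set_option linter.unusedSectionVars false

namespace Vale.Agent.P362

open Finset Matrix

variable {I : Type}

lemma verify {C : Type} [Fintype C] [Nonempty C] {T : ℕ} (ok : C → (I → Bool) → Bool)
    (h : ∀ c, Det T (ok c)) {J : ℕ} (hJ : Fintype.card C ≤ J ^ 2) (r : ℕ) :
    ∃ V : (I → Bool) → Bool → ℝ, Samp (r * (2 * J * T)) V ∧
      (∀ x, (∀ c, ok c x = true) → V x true = 1) ∧
      (∀ x, (∃ c, ok c x = false) → V x true ≤ (3 / 4) ^ r) := by
  have hC : 0 < Fintype.card C := Fintype.card_pos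
  have hJ0 : 0 < J := by
    rcases Nat.eq_zero_or_pos J with h0 | h0
    · subst h0; simp at hJ
    · exact h0
  have h1 := (Samp.pure (I := I) (isDist_unif (Y := C))).bindD h
  rw [Nat.zero_add] at h1
  obtain ⟨s, ν, hν, e1, e2⟩ := h1.amplify (fun b => b = false) hJ0
  have hp : ∀ g : Bool → ℝ, ∑ b with b = false, g b = g false := by
    intro g; rw [sum_filter]; simp
  simp only [hp] at e2
  have h2 := (Samp.pi (κ := Fin r) (fun _ => ν) fun _ => hν).map
    (fun f => decide (f = fun _ => none))
  rw [Fintype.card_fin] at h2
  have e3 : ∀ x, (∑ f : Fin r → Option Bool, if decide (f = fun _ => none) = true then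
      ∏ j, ν x (f j) else 0) = ν x none ^ r := by
    intro x; simp
  have e4 : ∀ x, ν x none = 1 - s x * ∑ c, if ok c x = false then
      (1 : ℝ) / Fintype.card C else 0 := by
    intro x
    have := (hν.isDist x).sum
    rw [Fintype.sum_option, Fintype.sum_bool, e1, e1] at this
    simp only [Bool.true_eq_false, if_false, if_true] at this
    linarith
  refine ⟨_, h2, fun x hx => ?_, fun x ⟨c, hc⟩ => ?_⟩
  · rw [e3, e4]; simp [hx]
  · rw [e3]
    refine pow_le_pow_left₀ ((hν.isDist x).nn _) ?_ r
    rw [e4]
    have hC' : (0 : ℝ) < Fintype.card C := by exact_mod_cast hC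
    have h3 : (1 : ℝ) / Fintype.card C ≤ ∑ c, if ok c x = false then
        (1 : ℝ) / Fintype.card C else 0 := by
      have := single_le_sum (f := fun c => if ok c x = false then (1 : ℝ) / Fintype.card C else 0)
        (fun c _ => by split_ifs <;> positivity) (mem_univ c)
      simpa [hc] using this
    have h4 : (Fintype.card C : ℝ) ≤ (J : ℝ) ^ 2 := by exact_mod_cast hJ
    have := e2 x (by
      calc (1 : ℝ) = Fintype.card C * (1 / Fintype.card C) := by field_simp
        _ ≤ _ := mul_le_mul h4 h3 (by positivity) (by positivity))
    linarith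

lemma half_mass {U A : Type} [Fintype U] [DecidableEq A] (a μ : U → ℝ) (ha : ∀ u, 0 ≤ a u)
    (haμ : ∀ u, a u ≤ μ u) (col : U → A) {c : ℝ} (hcol : ∀ b, ∑ u with col u = b, μ u ≤ c)
    (sv : U → U → Bool) (hanti : ∀ w u, col w ≠ col u → sv w u = true → sv u w = false) :
    ∑ u, a u * ∑ w, (if sv w u = true then a w else 0) ≤ (∑ u, a u) ^ 2 / 2 + c * (∑ u, a u) / 2 := by
  have e1 : ∑ u, a u * ∑ w, (if sv w u = true then a w else 0) =
      ∑ u, ∑ w, a u * a w * if sv w u = true then 1 else 0 := by
    simp only [mul_sum]; simp
  have e2 : ∑ u, a u * ∑ w, (if sv w u = true then a w else 0) =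
      ∑ u, ∑ w, a u * a w * if sv u w = true then 1 else 0 := by
    rw [e1, sum_comm]; simp only [mul_comm]
  have e3 : ∑ u, ∑ w, (a u * a w * (if sv w u = true then 1 else 0) +
      a u * a w * if sv u w = true then 1 else 0) ≤
      ∑ u, ∑ w, (a u * a w + a u * if col w = col u then μ w else 0) := by
    refine sum_le_sum fun u _ => sum_le_sum fun w _ => ?_
    have h1 := mul_nonneg (ha u) (ha w)
    have h2 := mul_le_mul_of_nonneg_left (haμ w) (ha u)
    by_cases hc : col w = col u
    · rw [if_pos hc]; split_ifs <;> nlinarith
    · rw [if_neg hc]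
      by_cases hs : sv w u = true
      · simp [hs, hanti w u hc hs]
      · rw [if_neg hs]; split_ifs <;> nlinarith
  simp only [sum_add_distrib] at e3
  rw [← e1, ← e2, ← sum_mul_sum] at e3
  have e4 : ∑ u, ∑ w, a u * (if col w = col u then μ w else 0) ≤ ∑ u, a u * c := by
    refine sum_le_sum fun u _ => ?_
    rw [← mul_sum, ← sum_filter]
    exact mul_le_mul_of_nonneg_left (hcol _) (ha u)
  rw [← sum_mul] at e4
  nlinarith

lemma det_all {U : Type} {T : ℕ} (g : U → (I → Bool) → Bool) (h : ∀ u, Det T (g u)) :
    ∀ S : List U, Det (S.length * T) (fun x => S.all fun u => g u x)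
  | [] => by simpa using Det.const (I := I) true
  | u :: S => by
    have := ((h u).prod (det_all g h S)).map (fun p => p.1 && p.2)
    exact (this.mono (by rw [List.length_cons, Nat.succ_mul]; omega)).congr fun x => by simp

theorem tournament {U A : Type} [Fintype U] [DecidableEq U] [DecidableEq A] {T1 T2 T3 : ℕ}
    {μ : (I → Bool) → U → ℝ} (hμ : Samp T1 μ) (col : U → A) {n : ℕ} (hn : 0 < n)
    (hcol : ∀ x a, ∑ u with col u = a, μ x u ≤ 1 / n)
    (surv : U → U → (I → Bool) → Bool) (hsurv : ∀ w u, Det T2 (surv w u))
    (hanti : ∀ x w u, col w ≠ col u → surv w u x = true → surv u w x = false)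
    (valid : U → (I → Bool) → Prop) (hvs : ∀ x u w, valid u x → surv u w x = true)
    (hvμ : ∀ x u, valid u x → 1 / (2 * n) ≤ μ x u)
    (V : U → (I → Bool) → Bool → ℝ) (hV : ∀ u, Samp T3 (V u)) {ε : ℝ} (hε : 0 ≤ ε)
    (hV1 : ∀ x u, valid u x → V u x true = 1) (hV0 : ∀ x u, ¬ valid u x → V u x true ≤ ε)
    {J : ℕ} (hJ : 2 * n ≤ J ^ 2) (t0 : ℕ) :
    ∃ π : (I → Bool) → Bool → ℝ, Samp (t0 * (2 * J * (T1 + t0 * T2) + T3)) π ∧
      (∀ x, (∀ u, ¬ valid u x) → π x true ≤ t0 * ε) ∧
      (∀ x u, valid u x → π x false ≤ (127 / 128) ^ t0 * (2 * n + 32)) := by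
  set T0 := 2 * J * (T1 + t0 * T2) + T3 with hT0
  have hJ0 : 0 < J := by
    rcases Nat.eq_zero_or_pos J with h0 | h0
    · subst h0; simp at hJ; omega
    · exact h0
  have hn' : (0 : ℝ) < n := by exact_mod_cast hn
  let a : List U → (I → Bool) → U → ℝ := fun S x w =>
    if (S.all fun u => surv w u x) = true then μ x w else 0
  have ha0 : ∀ S x w, 0 ≤ a S x w := fun S x w => by
    simp only [a]; split_ifs; exacts [(hμ.isDist x).nn w, le_rfl]
  have haμ : ∀ S x w, a S x w ≤ μ x w := fun S x w => by
    simp only [a]; split_ifs; exacts [le_rfl, (hμ.isDist x).nn w]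
  have hav : ∀ S x u, valid u x → a S x u = μ x u := fun S x u hu => by
    simp only [a]; rw [if_pos]; simp only [List.all_eq_true]; exact fun w _ => hvs x u w hu
  have hacons : ∀ S x u w, a (u :: S) x w = if surv w u x = true then a S x w else 0 := by
    intro S x u w
    simp only [a, List.all_cons, Bool.and_eq_true]
    by_cases h : surv w u x = true <;> simp [h]
  have key : ∀ t (S : List U), S.length + t ≤ t0 → ∃ π : (I → Bool) → Bool → ℝ, Samp (t * T0) π ∧
      (∀ x, (∀ u, ¬ valid u x) → π x true ≤ t * ε) ∧
      (∀ x u, valid u x → π x false ≤ (127 / 128) ^ t * (2 * n * ∑ w, a S x w + 32)) := by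
    intro t
    induction t with
    | zero =>
      intro S _
      refine ⟨_, Samp.mono (Det.const (I := I) false) (Nat.zero_le _), fun x _ => by simp,
        fun x u _ => ?_⟩
      have : 0 ≤ ∑ w, a S x w := sum_nonneg fun w _ => ha0 S x w
      simp only [if_true, pow_zero, one_mul]
      nlinarith
    | succ t ih =>
      intro S hS
      obtain ⟨π0, hπ0, z0, f0⟩ := ih S (by omega)
      choose π1 hπ1 z1 f1 using fun u => ih (u :: S) (by rw [List.length_cons]; omega)
      have h1 := (hμ.bindD fun w => (det_all (surv w) (hsurv w) S).map (fun b => (w, b))).mono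
        (T := T1 + t0 * T2) (Nat.add_le_add_left (Nat.mul_le_mul_right _ (by omega)) _)
      obtain ⟨s, ν, hν, e1, e2⟩ := h1.amplify (fun q => q.2 = true) hJ0
      have eμ : ∀ x w, (∑ y, if (y, S.all fun u => surv y u x) = (w, true) then μ x y else 0) =
          a S x w := by
        intro x w
        rw [sum_eq_single w]
        · simp [a]
        · intro b _ hb; simp [hb]
        · simp
      have ep : ∀ g : U × Bool → ℝ, ∑ q with q.2 = true, g q = ∑ w, g (w, true) := by
        intro g; rw [sum_filter, Fintype.sum_prod_type]; simp
      simp only [ep, eμ] at e2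
      have eν : ∀ x (g : Option (U × Bool) → ℝ), ∑ o, ν x o * g o =
          (1 - s x * ∑ w, a S x w) * g none + ∑ w, s x * a S x w * g (some (w, true)) := by
        have aux : ∀ x (g : Option (U × Bool) → ℝ), ∑ o, ν x o * g o =
            ν x none * g none + ∑ w, s x * a S x w * g (some (w, true)) := by
          intro x g
          rw [Fintype.sum_option, Fintype.sum_prod_type]
          simp only [e1, Fintype.sum_bool, if_true, eμ]
          simp
        intro x g
        have := aux x (fun _ => 1)
        simp only [mul_one, (hν.isDist x).sum, ← mul_sum] at this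
        rw [aux, show ν x none = 1 - s x * ∑ w, a S x w by linarith]
      have hν0 : ∀ x, 0 ≤ 1 - s x * ∑ w, a S x w := by
        intro x
        have := eν x (fun o => if o = none then 1 else 0)
        simp only [mul_ite, mul_one, mul_zero, sum_ite_eq', mem_univ, if_true, reduceCtorEq,
          if_false, sum_const_zero, add_zero] at this
        rw [← this]; exact (hν.isDist x).nn _
      have hν1 : ∀ x w, 0 ≤ s x * a S x w := by
        intro x w
        have := (hν.isDist x).nn (some (w, true))
        rwa [e1, if_pos rfl, eμ] at this
      let cont : Option (U × Bool) → (I → Bool) → Bool → ℝ := fun o => o.elim π0 fun q x b =>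
        ∑ c, V q.1 x c * (if c = true then (if true = b then 1 else 0) else π1 q.1 x b)
      have hcont : ∀ o, Samp (T3 + t * T0) (cont o) := by
        intro o
        cases o with
        | none => exact hπ0.mono (by omega)
        | some q =>
          refine (hV q.1).bind (ν := fun c x b =>
            if c = true then (if true = b then 1 else 0) else π1 q.1 x b) fun c => ?_
          cases c
          · simpa using hπ1 q.1
          · simpa using Samp.mono (Det.const (I := I) true) (Nat.zero_le _)
      have hVf : ∀ x u, V u x false = 1 - V u x true := fun x u => by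
        have := ((hV u).isDist x).sum
        rw [Fintype.sum_bool] at this; linarith
      refine ⟨_, (hν.bind hcont).mono (le_of_eq (by rw [hT0]; ring)), fun x hx => ?_,
        fun x u hu => ?_⟩
      · rw [eν x (fun o => cont o x true)]
        have h2 : ∀ w, cont (some (w, true)) x true ≤ (t + 1) * ε := by
          intro w
          simp only [cont, Option.elim, Fintype.sum_bool, if_true, Bool.false_eq_true, if_false, hVf]
          have := hV0 x w (hx w)
          have := z1 w x hx
          have := ((hV w).isDist x).nn true
          have := ((hπ1 w).isDist x).nn true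
          nlinarith
        have h3 : ∑ w, s x * a S x w * cont (some (w, true)) x true ≤
            ∑ w, s x * a S x w * ((t + 1) * ε) :=
          sum_le_sum fun w _ => mul_le_mul_of_nonneg_left (h2 w) (hν1 x w)
        rw [← sum_mul, ← mul_sum] at h3
        have h4 : cont none x true ≤ (t + 1) * ε := by
          have := z0 x hx
          simp only [cont, Option.elim]; linarith
        have := mul_le_mul_of_nonneg_left h4 (hν0 x)
        push_cast
        linarith
      · rw [eν x (fun o => cont o x false)]
        set m := ∑ w, a S x w with hm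
        set ρ : ℝ := (127 / 128) ^ t with hρ
        have hρ0 : 0 < ρ := by positivity
        have hm1 : 1 / (2 * n) ≤ a S x u := by rw [hav S x u hu]; exact hvμ x u hu
        have hm2 : a S x u ≤ m := single_le_sum (f := a S x) (fun w _ => ha0 S x w) (mem_univ u)
        have hm3 : 1 ≤ 2 * n * a S x u := by
          rw [div_le_iff₀ (by positivity)] at hm1; linarith
        have hs : 1 / 4 ≤ s x * m := e2 x (by
          have : (2 * n : ℝ) ≤ (J : ℝ) ^ 2 := by exact_mod_cast hJ
          have : 0 ≤ m := (ha0 S x u).trans hm2
          nlinarith)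
        have hm0 : 0 < m := by
          have : (0 : ℝ) < 1 / (2 * n) := by positivity
          linarith
        have hs0 : 0 < s x := by
          by_contra hc
          push Not at hc
          nlinarith
        have h2 : ∀ w, cont (some (w, true)) x false ≤
            ρ * (2 * n * ∑ w', (if surv w' w x = true then a S x w' else 0) + 32
              - if w = u then 32 else 0) := by
          intro w
          simp only [cont, Option.elim, Fintype.sum_bool, if_true, Bool.false_eq_true, if_false, hVf,
            Bool.true_eq_false, mul_zero, zero_add]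
          have h5 := f1 w x u hu
          simp only [hacons] at h5
          have h6 : 0 ≤ ∑ w', (if surv w' w x = true then a S x w' else 0) :=
            sum_nonneg fun w' _ => by split_ifs; exacts [ha0 _ _ _, le_rfl]
          split_ifs with hw
          · subst hw
            rw [hV1 x w hu]
            simp only [sub_self, zero_mul, add_sub_cancel_right]
            positivity
          · have := ((hV w).isDist x).nn true
            have := ((hπ1 w).isDist x).nn false
            nlinarith
        have h3 : ∑ w, s x * a S x w * cont (some (w, true)) x false ≤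
            ∑ w, s x * a S x w * (ρ * (2 * n * ∑ w', (if surv w' w x = true then a S x w' else 0)
              + 32 - if w = u then 32 else 0)) :=
          sum_le_sum fun w _ => mul_le_mul_of_nonneg_left (h2 w) (hν1 x w)
        have h4 : ∑ w, s x * a S x w * (ρ * (2 * n *
            ∑ w', (if surv w' w x = true then a S x w' else 0) + 32 - if w = u then 32 else 0)) =
            s x * ρ * (2 * n * (∑ w, a S x w * ∑ w', (if surv w' w x = true then a S x w' else 0))
              + 32 * m - 32 * a S x u) := by
          have : ∀ w, s x * a S x w * (ρ * (2 * n *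
            ∑ w', (if surv w' w x = true then a S x w' else 0) + 32 - if w = u then 32 else 0)) =
            s x * ρ * (2 * n * (a S x w * ∑ w', (if surv w' w x = true then a S x w' else 0))
              + 32 * a S x w - if w = u then 32 * a S x w else 0) := fun w => by
            split_ifs <;> ring
          simp only [this, ← mul_sum, sum_sub_distrib, sum_add_distrib, sum_ite_eq', mem_univ,
            if_true, hm]
        have h5 := half_mass (a S x) (μ x) (ha0 S x) (haμ S x) col (hcol x)
          (fun w u => surv w u x) (hanti x)
        rw [← hm] at h5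
        rw [h4] at h3
        set E := ∑ w, a S x w * ∑ w', (if surv w' w x = true then a S x w' else 0)
        have h6 : 2 * n * E + 32 * m - 32 * a S x u ≤ 31 / 32 * (m * (2 * n * m + 32)) := by
          have h7 : 2 * n * E ≤ n * m ^ 2 + m := by
            have := mul_le_mul_of_nonneg_left h5 (show (0 : ℝ) ≤ 2 * n by positivity)
            have e : 2 * n * (m ^ 2 / 2 + 1 / n * m / 2) = n * m ^ 2 + m := by field_simp
            linarith
          have h8 : n * (2 * m - 32 * a S x u - 15 / 16 * n * m ^ 2) ≤ 0 := by
            nlinarith [sq_nonneg (n * m - 2)]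
          have h9 : 2 * m - 32 * a S x u - 15 / 16 * n * m ^ 2 ≤ 0 := by
            by_contra hc
            push Not at hc
            nlinarith
          nlinarith
        have h7 := mul_le_mul_of_nonneg_left (f0 x u hu) (hν0 x)
        have h8 := mul_le_mul_of_nonneg_left h6 (mul_pos hs0 hρ0).le
        have h9 : 0 ≤ ρ * (2 * n * m + 32) := by positivity
        have h10 := mul_le_mul_of_nonneg_left hs h9
        simp only [cont, Option.elim] at h3 ⊢
        rw [pow_succ, ← hρ]
        rw [← hm] at h7
        nlinarith
  obtain ⟨π, h1, h2, h3⟩ := key t0 [] (by simp)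
  refine ⟨π, h1, h2, fun x u hu => ?_⟩
  have := h3 x u hu
  simpa [a, (hμ.isDist x).sum] using this

end Vale.Agent.P362
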