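import Vale.Agent.P362.Forr
import Vale.Agent.P362.Tour
import Vale.Agent.P362.Classical

/-! The separating function: definition, quantum algorithm, classical lower bound. -/

set_option linter.unusedSectionVars false

namespace Vale.Agent.P362

open Finset

lemma cheb' {κ Y : Type} [Fintype κ] [DecidableEq κ] [Fintype Y] {w : κ → Y → ℝ}
    (hw : ∀ j, IsDist (w j)) (g : κ → Y → ℝ) (hg : ∀ j y, |g j y| ≤ 1) {η : ℝ} (hη : 0 < η)
    (P : (κ → Y) → Prop) [DecidablePred P]
    (hP : ∀ f, P f → η ≤ |∑ j, g j (f j) - ∑ j, ∑ y, w j y * g j y|) :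
    Ex w (fun f => if P f then 1 else 0) ≤ Fintype.card κ / η ^ 2 := by
  have h1 := Ex_sq_sum_le hw (fun j y => g j y - ∑ y, w j y * g j y) (V := 1) (fun j => by
    simp only [mul_sub, sum_sub_distrib]
    rw [← sum_mul, (hw j).sum]; ring) (fun j => by
    set m := ∑ y, w j y * g j y with hm
    have e : ∑ y, w j y * (g j y - m) ^ 2 = ∑ y, w j y * g j y ^ 2 - m ^ 2 := by
      have : ∀ y, w j y * (g j y - m) ^ 2 =
          w j y * g j y ^ 2 - 2 * m * (w j y * g j y) + m ^ 2 * w j y := fun y => by ring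
      simp only [this, sum_add_distrib, sum_sub_distrib, ← mul_sum, ← hm, (hw j).sum]; ring
    have : ∑ y, w j y * g j y ^ 2 ≤ ∑ y, w j y := sum_le_sum fun y _ => by
      have := (hw j).nn y
      have h2 : g j y ^ 2 ≤ 1 := by have := abs_le.1 (hg j y); nlinarith
      nlinarith
    rw [e, (hw j).sum] at *; nlinarith [sq_nonneg m])
  have h2 : Ex w (fun f => if P f then 1 else 0) ≤
      Ex w (fun f => (1 / η ^ 2) * (∑ j, (g j (f j) - ∑ y, w j y * g j y)) ^ 2) := by
    refine Ex_mono hw fun f => ?_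
    split_ifs with h
    · have := hP f h
      rw [sum_sub_distrib, one_div, inv_mul_eq_div, le_div_iff₀ (by positivity), one_mul,
        ← sq_abs (_ - _)]
      exact pow_le_pow_left₀ hη.le this 2
    · positivity
  rw [Ex_mul] at h2
  refine h2.trans ?_
  calc _ ≤ (1 / η ^ 2) * (Fintype.card κ * 1) := mul_le_mul_of_nonneg_left h1 (by positivity)
    _ = _ := by field_simp

lemma exists_dec (n : ℕ) : ∃ (dec : (Fin (n + 2) → Bool) → ℤ) (enc : ℤ → Fin (n + 2) → Bool),
    ∀ z, |z| ≤ 2 ^ n → dec (enc z) = z := by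
  classical
  have hc : Fintype.card (Icc (-(2 : ℤ) ^ n) (2 ^ n)) ≤ Fintype.card (Fin (n + 2) → Bool) := by
    simp only [Fintype.card_coe, Int.card_Icc, Fintype.card_fun, Fintype.card_bool,
      Fintype.card_fin]
    rw [Int.toNat_le]
    have : (0 : ℤ) < 2 ^ n := by positivity
    push_cast; rw [pow_add]; linarith
  obtain ⟨e⟩ := Function.Embedding.nonempty_of_card_le hc
  have : Nonempty (Icc (-(2 : ℤ) ^ n) (2 ^ n)) := ⟨⟨0, by simp⟩⟩
  refine ⟨fun w => (Function.invFun e w).1,
    fun z => if h : z ∈ Icc (-(2 : ℤ) ^ n) (2 ^ n) then e ⟨z, h⟩ else default, fun z hz => ?_⟩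
  have h : z ∈ Icc (-(2 : ℤ) ^ n) (2 ^ n) := mem_Icc.2 (abs_le.1 hz)
  simp only [dif_pos h, Function.leftInverse_invFun e.injective _]

/-- data of the construction -/
structure Setup (D Rr Bw : ℕ) (Loc V : Type) where
  fo : (Loc → Bool) → ℝ
  p1 : V → V
  p2 : V → V
  qq : V → Loc
  op : V → ℤ → ℤ → Bool → ℤ
  o : V
  tv : (Loc → Bool) → V → ℤ
  c : ℝ
  dec : (Fin Bw → Bool) → ℤ
  enc : ℤ → Fin Bw → Bool
  c0 : ℝ
  τ : ℝ
  htv : ∀ x v, tv x v = op v (tv x (p1 v)) (tv x (p2 v)) (x (qq v))
  huniq : ∀ x (Z : V → ℤ), (∀ v, Z v = op v (Z (p1 v)) (Z (p2 v)) (x (qq v))) → Z = tv x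
  henc : ∀ x v, dec (enc (tv x v)) = tv x v
  hfo : ∀ x, fo x = c * tv x o
  hτ : 0 < τ

/-- slots of a cell -/
abbrev Slot (D Rr Bw : ℕ) (V : Type) : Type := (Idx D × Fin D) ⊕ ((Fin D × Fin Rr) × V × Fin Bw)

/-- positions belonging to one candidate -/
abbrev Pos (D Rr Bw : ℕ) (Loc V : Type) : Type :=
  Idx D ⊕ ((Fin D × Fin Rr) × Loc) ⊕ (Idx D × Slot D Rr Bw V)

/-- constraints -/
abbrev Con (D Rr : ℕ) (V : Type) : Type := Idx D ⊕ Idx D ⊕ ((Fin D × Fin Rr) × V) ⊕ Fin D

namespace Setup

variable {D Rr Bw : ℕ} {Loc V : Type} [Fintype Loc] [DecidableEq Loc] [Fintype V] [DecidableEq V]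
  (S : Setup D Rr Bw Loc V)

/-- the bit found by following a pointer of cell `u` into column `a` -/
def hit (u : Idx D × Idx D) (a : Idx D) (x : Idx D × Pos D Rr Bw Loc V → Bool) : Bool :=
  x (a, .inl fun e => x (u.1, .inr (.inr (u.2, .inl (a, e)))))

/-- the integer stored in cell `u` -/
def val (u : Idx D × Idx D) (k : Fin D × Fin Rr) (v : V) (x : Idx D × Pos D Rr Bw Loc V → Bool) : ℤ :=
  S.dec fun b => x (u.1, .inr (.inr (u.2, .inr (k, v, b))))

/-- threshold condition -/
def thr (b : Bool) (s : ℝ) : Prop :=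
  if b = true then Rr * (S.c0 + S.τ) ≤ s else s ≤ Rr * (S.c0 - S.τ)

open Classical in
/-- the constraints of cell `u` -/
noncomputable def ok (u : Idx D × Idx D) : Con D Rr V → (Idx D × Pos D Rr Bw Loc V → Bool) → Bool
  | .inl j, x => !x (u.1, .inl j)
  | .inr (.inl a), x => decide (u.1 = a) || hit u a x
  | .inr (.inr (.inl p)), x => decide (S.val u p.1 p.2 x = S.op p.2 (S.val u p.1 (S.p1 p.2) x)
      (S.val u p.1 (S.p2 p.2) x) (x (u.1, .inr (.inl (p.1, S.qq p.2)))))
  | .inr (.inr (.inr l)), x => decide (S.thr (u.2 l) (∑ r, S.c * S.val u (l, r) S.o x))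

open Classical in
/-- the function -/
noncomputable def fn (x : Idx D × Pos D Rr Bw Loc V → Bool) : Bool :=
  decide (∃ u, ∀ c, S.ok u c x = true)

lemma det_hit (u : Idx D × Idx D) (a : Idx D) :
    Det (D + 1) (hit (Rr := Rr) (Bw := Bw) (Loc := Loc) (V := V) u a) := by
  have h := (Det.readAll (fun e : Fin D => ((u.1, .inr (.inr (u.2, .inl (a, e)))) :
    Idx D × Pos D Rr Bw Loc V))).bind (k := fun w x => x (a, .inl w)) fun w => Det.read _
  rw [Fintype.card_fin] at h
  exact h

lemma det_bits (u : Idx D × Idx D) (k : Fin D × Fin Rr) (v : V) :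
    Det Bw (fun (x : Idx D × Pos D Rr Bw Loc V → Bool) (b : Fin Bw) =>
      x (u.1, .inr (.inr (u.2, .inr (k, v, b))))) := by
  have h := Det.readAll (fun b : Fin Bw => ((u.1, .inr (.inr (u.2, .inr (k, v, b)))) :
    Idx D × Pos D Rr Bw Loc V))
  rwa [Fintype.card_fin] at h

lemma det_ok (u : Idx D × Idx D) (c : Con D Rr V) : Det (D + 2 + 3 * Bw + Rr * Bw) (S.ok u c) := by
  classical
  rcases c with j | a | p | l
  · exact ((Det.read _).map (fun b => !b)).mono (by omega)
  · exact ((det_hit u a).map (fun b => decide (u.1 = a) || b)).mono (by omega)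
  · have h := ((det_bits (Loc := Loc) u p.1 p.2).prod ((det_bits u p.1 (S.p1 p.2)).prod
      ((det_bits u p.1 (S.p2 p.2)).prod (Det.read (u.1, .inr (.inl (p.1, S.qq p.2))))))).map
      (fun t => decide (S.dec t.1 = S.op p.2 (S.dec t.2.1) (S.dec t.2.2.1) t.2.2.2))
    exact h.mono (by omega)
  · have h := (Det.pi _ fun r : Fin Rr => det_bits (Loc := Loc) u (l, r) S.o).map
      (fun t => decide (S.thr (u.2 l) (∑ r, S.c * S.dec (t r))))
    rw [Fintype.card_fin] at h
    exact h.mono (by omega)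

lemma valid_thr {u : Idx D × Idx D} {x : Idx D × Pos D Rr Bw Loc V → Bool}
    (h : ∀ c, S.ok u c x = true) (l : Fin D) :
    S.thr (u.2 l) (∑ r, S.fo fun p => x (u.1, .inr (.inl ((l, r), p)))) := by
  have h1 := h (.inr (.inr (.inr l)))
  simp only [ok, decide_eq_true_eq] at h1
  have h2 : ∀ k, (fun v => S.val u k v x) = S.tv fun p => x (u.1, .inr (.inl (k, p))) :=
    fun k => S.huniq _ _ fun v => by simpa [ok] using h (.inr (.inr (.inl (k, v))))
  simpa only [S.hfo, ← h2] using h1

theorem quantum (hR : 0 < Rr) {Tf : ℕ} (hfo : Samp Tf fun x b => (1 + sg b * S.fo x) / 2)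
    {reps J J2 t0 r : ℕ} (hreps : 2 * D ≤ reps * S.τ ^ 2) (hreps0 : 0 < reps)
    (hJ : 2 * 2 ^ D ≤ J ^ 2) (hJ2 : Fintype.card (Con D Rr V) ≤ J2 ^ 2)
    (ht0 : (127 / 128 : ℝ) ^ t0 * (2 * 2 ^ D + 32) ≤ 1 / 3) (hr : t0 * (3 / 4 : ℝ) ^ r ≤ 1 / 3) :
    ∃ π : (Idx D × Pos D Rr Bw Loc V → Bool) → Bool → ℝ,
      Samp (t0 * (2 * J * (D * (reps * Tf) + t0 * (D + 1 + (D + 1))) +
        r * (2 * J2 * (D + 2 + 3 * Bw + Rr * Bw)))) π ∧ ∀ x, 2 / 3 ≤ π x (S.fn x) := by
  classical
  have : Nonempty (Fin Rr) := ⟨⟨0, hR⟩⟩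
  have hR' : (0 : ℝ) < Rr := by exact_mod_cast hR
  have hreps' : (0 : ℝ) < reps := by exact_mod_cast hreps0
  have hτ := S.hτ
  let one : Idx D → Fin D → (Idx D × Pos D Rr Bw Loc V → Bool) → Bool → ℝ := fun a l x b =>
    ∑ r : Fin Rr, 1 / Fintype.card (Fin Rr) *
      ((1 + sg b * S.fo fun p => x (a, .inr (.inl ((l, r), p)))) / 2)
  have hone : ∀ a l, Samp Tf (one a l) := fun a l => by
    have := (Samp.pure (I := Idx D × Pos D Rr Bw Loc V) (isDist_unif (Y := Fin Rr))).bind
      fun r => hfo.comap (fun p => ((a, .inr (.inl ((l, r), p))) : Idx D × Pos D Rr Bw Loc V))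
    rw [Nat.zero_add] at this
    exact this
  let est : Idx D → Fin D → (Idx D × Pos D Rr Bw Loc V → Bool) → Bool → ℝ := fun a l x b =>
    ∑ f : Fin reps → Bool, if decide (reps * S.c0 ≤ ∑ j, sg (f j)) = b then ∏ j, one a l x (f j)
      else 0
  have hest : ∀ a l, Samp (reps * Tf) (est a l) := fun a l => by
    have := (Samp.pi (κ := Fin reps) (fun _ => one a l) fun _ => hone a l).map
      (fun f => decide (reps * S.c0 ≤ ∑ j, sg (f j)))
    rwa [Fintype.card_fin] at this
  have hμ : Samp (D * (reps * Tf)) (fun x (u : Idx D × Idx D) =>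
      1 / (2 ^ D : ℕ) * ∏ l, est u.1 l x (u.2 l)) := by
    have := (Samp.pure (I := Idx D × Pos D Rr Bw Loc V) (isDist_unif (Y := Idx D))).bind
      fun a => (Samp.pi _ (hest a)).map (fun b => (a, b))
    rw [Nat.zero_add, Fintype.card_fin] at this
    refine this.congr fun x u => ?_
    obtain ⟨a, b⟩ := u
    rw [sum_eq_single a]
    · simp
    · intro a' _ ha; simp [ha]
    · simp
  have hgood : ∀ x a l b, S.thr b (∑ r, S.fo fun p => x (a, .inr (.inl ((l, r), p)))) →
      1 - 1 / (reps * S.τ ^ 2) ≤ est a l x b := by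
    intro x a l b hb
    set s := ∑ r, S.fo fun p => x (a, .inr (.inl ((l, r), p))) with hs
    have hm : ∑ y, one a l x y * sg y = s / Rr := by
      simp only [one, Fintype.sum_bool, sg_true, sg_false, Fintype.card_fin, hs, sum_mul, sum_div,
        ← sum_add_distrib]
      exact sum_congr rfl fun r _ => by ring
    have h1 := cheb (κ := Fin reps) (w := fun _ => one a l x) (fun _ => (hone a l).isDist x) sg
      (fun y => (abs_sg y).le) (s / Rr) (fun _ => hm) hτ (by simpa using hreps0)
      (fun f => ¬ decide (reps * S.c0 ≤ ∑ j, sg (f j)) = b) (fun f hf => by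
        rw [Fintype.card_fin]
        unfold thr at hb
        cases b
        · simp only [Bool.false_eq_true, if_false, decide_eq_false_iff_not, not_not] at hb hf
          have : s / Rr ≤ S.c0 - S.τ := by rw [div_le_iff₀ hR']; linarith
          refine le_trans ?_ (le_abs_self _)
          nlinarith
        · simp only [if_true, decide_eq_true_eq, not_le] at hb hf
          have : S.c0 + S.τ ≤ s / Rr := by rw [le_div_iff₀ hR']; linarith
          refine le_trans ?_ (neg_le_abs _)
          nlinarith)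
    rw [Fintype.card_fin] at h1
    have h2 : est a l x b + Ex (fun _ : Fin reps => one a l x)
        (fun f => if ¬ decide (reps * S.c0 ≤ ∑ j, sg (f j)) = b then 1 else 0) = 1 := by
      refine Eq.trans ?_
        (isDist_pi (w := fun _ : Fin reps => one a l x) fun _ => (hone a l).isDist x).sum
      simp only [est, Ex, ← sum_add_distrib]
      refine sum_congr rfl fun f _ => ?_
      split_ifs <;> simp
    linarith
  choose Vf hVf hV1 hV0 using fun u => verify (S.ok u) (S.det_ok u) hJ2 r
  obtain ⟨π, hπ, z0, z1⟩ := tournament hμ Prod.fst (n := 2 ^ D) (by positivity)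
    (fun x a => by
      rw [sum_filter, Fintype.sum_prod_type, sum_eq_single a]
      · simp only [if_true, ← mul_sum, (isDist_pi fun l => (hest a l).isDist x).sum, mul_one,
          le_refl]
      · intro b _ hb; simp [hb]
      · simp)
    (fun w u x => (decide (w.1 = u.1) || hit w u.1 x) && !hit u w.1 x) (T2 := D + 1 + (D + 1))
    (fun w u => ((det_hit w u.1).prod (det_hit u w.1)).map
      fun p => (decide (w.1 = u.1) || p.1) && !p.2)
    (fun x w u hne h => by
      simp only [hne, decide_false, Bool.false_or, Bool.and_eq_true] at h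
      simp [h.1])
    (fun u x => ∀ c, S.ok u c x = true)
    (fun x u w hu => by
      have h1 := hu (.inr (.inl w.1))
      have h2 := hu (.inl fun e => x (w.1, .inr (.inr (w.2, .inl (u.1, e)))))
      simp only [ok] at h1 h2
      rw [h1, hit, h2]; rfl)
    (fun x u hu => by
      have h1 : ∏ _l : Fin D, (1 - 1 / (reps * S.τ ^ 2)) ≤ ∏ l, est u.1 l x (u.2 l) := by
        refine prod_le_prod (fun l _ => ?_) fun l _ => hgood x _ l _ (S.valid_thr hu l)
        have : (1 : ℝ) ≤ D := by exact_mod_cast l.pos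
        rw [sub_nonneg, div_le_one (by positivity)]; linarith
      have h2 : (1 : ℝ) / 2 ≤ ∏ _l : Fin D, (1 - 1 / (reps * S.τ ^ 2)) := by
        rw [prod_const, card_univ, Fintype.card_fin]
        rcases Nat.eq_zero_or_pos D with h0 | h0
        · subst h0; norm_num
        have hD : (1 : ℝ) ≤ D := by exact_mod_cast h0
        have h3 := one_add_mul_le_pow (a := -(1 / (reps * S.τ ^ 2))) (by
          have : 1 / (reps * S.τ ^ 2) ≤ 1 := by rw [div_le_one (by positivity)]; linarith
          linarith) D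
        have h4 : D * (1 / (reps * S.τ ^ 2)) ≤ 1 / 2 := by
          rw [mul_one_div, div_le_iff₀ (by positivity)]; linarith
        rw [← sub_eq_add_neg] at h3
        linarith
      calc _ = 1 / ((2 ^ D : ℕ) : ℝ) * (1 / 2) := by field_simp
        _ ≤ _ := mul_le_mul_of_nonneg_left (h2.trans h1) (by positivity))
    Vf hVf (ε := (3 / 4) ^ r) (by positivity) (fun x u hu => hV1 u x hu)
    (fun x u hu => hV0 u x ((not_forall.1 hu).imp fun c hc => by simpa using hc)) hJ t0
  refine ⟨π, hπ, fun x => ?_⟩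
  have hs := (hπ.isDist x).sum
  rw [Fintype.sum_bool] at hs
  by_cases h : ∃ u, ∀ c, S.ok u c x = true
  · rw [show S.fn x = true by simpa [fn] using h]
    obtain ⟨u, hu⟩ := h
    have := z1 x u hu
    push_cast at this
    linarith
  · rw [show S.fn x = false by simpa [fn] using h]
    have := z0 x (not_exists.1 h)
    linarith

theorem classical (hR : 0 < Rr) (hfo : ∀ x, |S.fo x| ≤ 1) {Dd : Bool → (Loc → Bool) → ℝ}
    (hD : ∀ b, IsDist (Dd b)) (hm1 : S.c0 + 2 * S.τ ≤ ∑ y, Dd true y * S.fo y)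
    (hm0 : ∑ y, Dd false y * S.fo y ≤ S.c0 - 2 * S.τ) {d : ℕ} (hd : 0 < d) {adv : ℝ}
    (hadv : ∀ F, HasDepth d F → |∑ η, Dd true η * F η - ∑ η, Dd false η * F η| ≤ adv)
    {K q : ℕ} (p : Fin K → ℝ) (t : Fin K → DTree (Idx D × Pos D Rr Bw Loc V)) (hp : IsDist p)
    (hq : ∀ i, (t i).depth ≤ q) (hf : ∀ x, (2 / 3 : ℝ) ≤ ∑ i with (t i).eval x = S.fn x, p i) :
    (1 - D ^ 2 / (Rr * S.τ ^ 2)) / 3 ≤ q / (d * 2 ^ D) + (2 * d / 2 ^ D + D * Rr * adv) := by
  classical
  have hR' : (0 : ℝ) < Rr := by exact_mod_cast hR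
  have hτ := S.hτ
  let x2 : Idx D → (Idx D → Idx D × Idx D × (Fin D × Fin Rr → Loc → Bool)) →
      Idx D × Pos D Rr Bw Loc V → Bool := fun a ξ j =>
    Sum.elim (fun p => decide (p = (ξ j.1).1) && !decide (j.1 = a))
      (Sum.elim (fun p => (ξ j.1).2.2 p.1 p.2) fun p => if j.1 = a ∧ p.1 = (ξ a).2.1 then
        Sum.elim (fun s => (ξ s.1).1 s.2) (fun s => S.enc (S.tv ((ξ a).2.2 s.1) s.2.1) s.2.2) p.2
        else false) j.2
  have h := yao (A := Idx D) (isDist_wLoc (B := Idx D) (Prod.fst : Fin D × Fin Rr → Fin D) hD)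
    (yLoc (Slot D Rr Bw V)) (fun ξ => TgLoc ξ.1 ξ.2.1) hd (local_bound Prod.fst hD hadv) S.fn x2
    (by
      rintro a ξ ⟨a', j | j | ⟨b, s⟩⟩ hj
      · by_cases ha : a' = a
        · subst ha
          have : j ≠ (ξ a').1 := fun e => hj ⟨rfl, .inl (by rw [e])⟩
          simp [x2, yLoc, this]
        · simp [x2, yLoc, ha]
      · rfl
      · simp only [x2, yLoc, Sum.elim_inr]
        rw [if_neg]
        rintro ⟨h1, h2⟩
        exact hj ⟨h1, .inr ⟨s, by rw [← h2]⟩⟩)
    (fun ξ => by
      simp only [fn, decide_eq_false_iff_not, not_exists, not_forall]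
      exact fun u => ⟨.inl (ξ u.1).1, by simp [ok, yLoc]⟩)
    (fun ξ => ∀ l, S.thr (ξ.2.1 l) (∑ r, S.fo (ξ.2.2 (l, r)))) (η := D ^ 2 / (Rr * S.τ ^ 2))
    (by
      rw [sum_wLoc]
      have h1 : ∀ b : Idx D, Ex (fun k : Fin D × Fin Rr => Dd (b k.1)) (fun T =>
          if ∀ l, S.thr (b l) (∑ r, S.fo (T (l, r))) then 0 else 1) ≤ D ^ 2 / (Rr * S.τ ^ 2) := by
        intro b
        have h2 : ∀ l, Ex (fun k : Fin D × Fin Rr => Dd (b k.1)) (fun T =>
            if ¬ S.thr (b l) (∑ r, S.fo (T (l, r))) then 1 else 0) ≤ D / (Rr * S.τ ^ 2) := by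
          intro l
          have := cheb' (w := fun k : Fin D × Fin Rr => Dd (b k.1)) (fun _ => hD _)
            (fun k y => if k.1 = l then S.fo y else 0)
            (fun k y => by split_ifs; exacts [hfo y, by simp]) (η := Rr * S.τ) (by positivity)
            (fun T => ¬ S.thr (b l) (∑ r, S.fo (T (l, r)))) (fun T hT => by
              have e1 : ∑ k : Fin D × Fin Rr, (if k.1 = l then S.fo (T k) else 0) =
                  ∑ r, S.fo (T (l, r)) := by
                rw [Fintype.sum_prod_type, sum_eq_single l]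
                · simp
                · intro l' _ hl; simp [hl]
                · simp
              have e2 : ∑ k : Fin D × Fin Rr, ∑ y, Dd (b k.1) y * (if k.1 = l then S.fo y else 0) =
                  Rr * ∑ y, Dd (b l) y * S.fo y := by
                rw [Fintype.sum_prod_type, sum_eq_single l]
                · simp
                · intro l' _ hl; simp [hl]
                · simp
              rw [e1, e2]
              unfold thr at hT
              rcases Bool.eq_false_or_eq_true (b l) with hb | hb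
              · rw [hb] at hT ⊢
                simp only [if_true, not_le] at hT
                refine le_trans ?_ (neg_le_abs _)
                nlinarith
              · rw [hb] at hT ⊢
                simp only [Bool.false_eq_true, if_false, not_le] at hT
                refine le_trans ?_ (le_abs_self _)
                nlinarith)
          refine this.trans (le_of_eq ?_)
          simp only [Fintype.card_prod, Fintype.card_fin]
          push_cast; field_simp
        calc _ ≤ Ex (fun k : Fin D × Fin Rr => Dd (b k.1)) (fun T => ∑ l,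
              if ¬ S.thr (b l) (∑ r, S.fo (T (l, r))) then 1 else 0) := by
              refine Ex_mono (fun _ => hD _) fun T => ?_
              split_ifs with hT
              · exact sum_nonneg fun l _ => by split_ifs <;> norm_num
              · obtain ⟨l, hl⟩ := not_forall.1 hT
                have := single_le_sum (f := fun l => if ¬ S.thr (b l) (∑ r, S.fo (T (l, r)))
                  then (1 : ℝ) else 0) (fun l _ => by split_ifs <;> norm_num) (mem_univ l)
                simpa only [if_pos hl] using this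
          _ ≤ ∑ _l : Fin D, (D : ℝ) / (Rr * S.τ ^ 2) := by
              rw [Ex_sum]; exact sum_le_sum fun l _ => h2 l
          _ = _ := by simp; ring
      have h3 := sum_le_sum fun β (_ : β ∈ (univ : Finset (Idx D))) =>
        sum_le_sum fun b (_ : b ∈ univ) => h1 b
      simp only [sum_const, card_univ, nsmul_eq_mul] at h3 ⊢
      calc _ ≤ 1 / (Fintype.card (Idx D) : ℝ) * (1 / Fintype.card (Idx D) * (Fintype.card (Idx D) *
            (Fintype.card (Idx D) * (D ^ 2 / (Rr * S.τ ^ 2))))) := by gcongr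
        _ = _ := by field_simp)
    (fun a ξ hP => by
      simp only [fn, decide_eq_true_eq]
      have hv : ∀ k v, S.val (a, (ξ a).2.1) k v (x2 a ξ) = S.tv ((ξ a).2.2 k) v := by
        intro k v; simp [val, x2, S.henc]
      refine ⟨(a, (ξ a).2.1), ?_⟩
      rintro (j | a' | ⟨k, v⟩ | l)
      · simp [ok, x2]
      · by_cases ha : a = a'
        · simp [ok, ha]
        · simp [ok, hit, x2, Ne.symm ha]
      · simp only [ok, hv, decide_eq_true_eq]
        exact S.htv _ _
      · simp only [ok, hv, decide_eq_true_eq, ← S.hfo]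
        exact hP l)
    p t hp hq hf
  simp only [Fintype.card_fun, Fintype.card_bool, Fintype.card_fin, Fintype.card_prod] at h
  push_cast at h
  refine h.trans (le_of_eq ?_)
  ring

end Setup

end Vale.Agent.P362
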