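import Vale.Agent.P362.Ops

/-! Multilinear extensions, their mixed derivatives, and Fourier growth of decision trees. -/

set_option linter.unusedSectionVars false

namespace Vale.Agent.P362

open Finset

/-- real functions computed by decision trees of depth at most `d` with leaves in `[-1,1]` -/
inductive HasDepth {ι : Type} : ℕ → ((ι → Bool) → ℝ) → Prop
  | const (d : ℕ) (c : ℝ) (hc : |c| ≤ 1) : HasDepth d (fun _ => c)
  | node (d : ℕ) (i : ι) (F0 F1 : (ι → Bool) → ℝ) : HasDepth d F0 → HasDepth d F1 →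
      HasDepth (d + 1) (fun x => if x i = true then F1 x else F0 x)

lemma HasDepth.succ {ι : Type} {d : ℕ} {F : (ι → Bool) → ℝ} (h : HasDepth d F) :
    HasDepth (d + 1) F := by
  induction h with
  | const d c hc => exact .const _ c hc
  | node d i F0 F1 _ _ h0 h1 => exact .node _ i F0 F1 h0 h1

lemma HasDepth.mono {ι : Type} {d d' : ℕ} {F : (ι → Bool) → ℝ} (h : HasDepth d F) (hd : d ≤ d') :
    HasDepth d' F := by
  induction hd with
  | refl => exact h
  | step _ ih => exact ih.succ

lemma HasDepth.abs_le {ι : Type} {d : ℕ} {F : (ι → Bool) → ℝ} (h : HasDepth d F) (x : ι → Bool) :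
    |F x| ≤ 1 := by
  induction h with
  | const d c hc => exact hc
  | node d i F0 F1 _ _ h0 h1 => dsimp only; split_ifs; exacts [h1, h0]

lemma HasDepth.subst {ι ι' : Type} (σ : (ι' → Bool) → ι → Bool)
    (hσ : ∀ j, (∃ c, ∀ z, σ z j = c) ∨ ∃ i, ∀ z, σ z j = z i) {d : ℕ} {F : (ι → Bool) → ℝ}
    (h : HasDepth d F) : HasDepth d (fun z => F (σ z)) := by
  induction h with
  | const d c hc => exact .const _ c hc
  | node d i F0 F1 _ _ h0 h1 =>
    rcases hσ i with ⟨c, hc⟩ | ⟨j, hj⟩
    · simp only [hc]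
      cases c
      · simpa using h0.succ
      · simpa using h1.succ
    · simp only [hj]
      exact .node _ j _ _ h0 h1

section
variable {ι : Type} [Fintype ι] [DecidableEq ι]

section
variable {A : Type} [CommRing A] [Algebra ℝ A]

/-- local factor of the mixed derivative of the multilinear extension -/
noncomputable def locF (R : Finset ι) (z : ι → A) (l : ι) (b : Bool) : A :=
  if l ∈ R then algebraMap ℝ A (sg b / 2)
  else algebraMap ℝ A (1 / 2) + algebraMap ℝ A (sg b / 2) * z l

/-- mixed derivative in the directions `R` of the multilinear extension of `F`, at `z` -/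
noncomputable def DR (F : (ι → Bool) → ℝ) (R : Finset ι) (z : ι → A) : A :=
  ∑ x : ι → Bool, F x • ∏ l, locF R z l (x l)

lemma map_DR {B : Type} [CommRing B] [Algebra ℝ B] (φ : A →ₐ[ℝ] B) (F : (ι → Bool) → ℝ)
    (R : Finset ι) (z : ι → A) : φ (DR F R z) = DR F R (fun l => φ (z l)) := by
  simp only [DR, map_sum, map_smul, map_prod]
  refine sum_congr rfl fun x _ => ?_
  congr 1
  refine prod_congr rfl fun l _ => ?_
  simp only [locF]
  split_ifs <;> simp only [map_add, map_mul, AlgHom.commutes]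

lemma deriv_prod (δ : Derivation ℝ A A) (s : Finset ι) (f : ι → A) :
    δ (∏ l ∈ s, f l) = ∑ l ∈ s, δ (f l) * ∏ l' ∈ s.erase l, f l' := by
  induction s using Finset.induction_on with
  | empty => simp
  | insert a s ha ih =>
    rw [prod_insert ha, sum_insert ha, δ.leibniz, ih, erase_insert ha, smul_eq_mul, smul_eq_mul,
      mul_sum, add_comm, mul_comm]
    congr 1
    refine sum_congr rfl fun l hl => ?_
    have : a ≠ l := fun h => ha (h ▸ hl)
    rw [erase_insert_of_ne this, prod_insert (fun h => ha (mem_of_mem_erase h))]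
    ring

lemma deriv_DR (δ : Derivation ℝ A A) (F : (ι → Bool) → ℝ) (R : Finset ι) (z : ι → A) :
    δ (DR F R z) = ∑ l, if l ∈ R then 0 else δ (z l) * DR F (insert l R) z := by
  simp only [DR, map_sum, Derivation.map_smul, deriv_prod, smul_sum]
  rw [sum_comm]
  refine sum_congr rfl fun l _ => ?_
  split_ifs with hl
  · refine sum_eq_zero fun x _ => ?_
    simp [locF, hl]
  · rw [mul_sum]
    refine sum_congr rfl fun x _ => ?_
    rw [← mul_prod_erase univ _ (mem_univ l), mul_smul_comm]
    congr 1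
    have e : ∏ l' ∈ univ.erase l, locF (insert l R) z l' (x l') =
        ∏ l' ∈ univ.erase l, locF R z l' (x l') :=
      prod_congr rfl fun l' hl' => by simp [locF, ne_of_mem_erase hl']
    rw [e]
    simp only [locF, if_neg hl, mem_insert_self, if_true, map_add, Derivation.map_algebraMap,
      Derivation.leibniz, zero_add, smul_eq_mul]
    ring

end

lemma DR_eq_Ex (F : (ι → Bool) → ℝ) (R : Finset ι) (z : ι → ℝ) : DR F R z = Ex (locF R z) F := by
  simp only [DR, Ex, smul_eq_mul, mul_comm]

lemma locF_real (R : Finset ι) (z : ι → ℝ) (l : ι) (b : Bool) :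
    locF R z l b = if l ∈ R then sg b / 2 else (1 + sg b * z l) / 2 := by
  simp only [locF, Algebra.algebraMap_self, RingHom.id_apply]
  split_ifs <;> ring

lemma abs_DR_le {F : (ι → Bool) → ℝ} (hF : ∀ x, |F x| ≤ 1) (R : Finset ι) (z : ι → ℝ) :
    |DR F R z| ≤ ∏ l, max 1 |z l| := by
  rw [DR_eq_Ex, Ex]
  refine (abs_sum_le_sum_abs _ _).trans ?_
  have h1 : ∀ x : ι → Bool, |(∏ l, locF R z l (x l)) * F x| ≤ ∏ l, |locF R z l (x l)| := by
    intro x
    rw [abs_mul, abs_prod]
    exact mul_le_of_le_one_right (prod_nonneg fun _ _ => abs_nonneg _) (hF x)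
  refine (sum_le_sum fun x _ => h1 x).trans ?_
  rw [sum_prod_eq (fun l b => |locF R z l b|)]
  refine prod_le_prod (fun l _ => sum_nonneg fun _ _ => abs_nonneg _) fun l _ => ?_
  simp only [Fintype.sum_bool, locF_real, sg_true, sg_false]
  split_ifs
  · refine le_trans (le_of_eq ?_) (le_max_left _ _)
    rw [abs_of_neg (by norm_num), abs_of_pos (by norm_num)]; norm_num
  · have h1 := le_max_left 1 |z l|
    have h2 := le_max_right 1 |z l|
    have h3 := le_abs_self (z l)
    have h4 := neg_abs_le (z l)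
    rcases abs_cases ((1 + -1 * z l) / 2) with h | h <;>
      rcases abs_cases ((1 + 1 * z l) / 2) with h' | h' <;> linarith

lemma DR_const (c : ℝ) (R : Finset ι) (z : ι → ℝ) :
    DR (fun _ => c) R z = if R = ∅ then c else 0 := by
  rw [DR_eq_Ex, Ex, ← sum_mul, sum_prod_eq]
  split_ifs with h
  · subst h
    rw [prod_eq_one, one_mul]
    intro l _; simp [locF_real]; ring
  · obtain ⟨l, hl⟩ := nonempty_iff_ne_empty.2 h
    rw [prod_eq_zero (mem_univ l), zero_mul]
    simp [locF_real, hl]; ring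

lemma sum_split (i : ι) (g : Finset ι → ℝ) :
    ∑ R, g R = ∑ R, if i ∈ R then 0 else g R + g (insert i R) := by
  have h1 := sum_powerset_insert (s := univ.erase i) (notMem_erase i univ) g
  rw [insert_erase (mem_univ i), powerset_univ] at h1
  rw [h1, ← sum_add_distrib]
  symm
  rw [← sum_subset (subset_univ (univ.erase i).powerset)]
  · refine sum_congr rfl fun R hR => if_neg fun h => ?_
    simpa using mem_powerset.1 hR h
  · intro R _ hR
    rw [if_pos]
    by_contra h
    exact hR (mem_powerset.2 fun a ha => mem_erase.2 ⟨fun e => h (e ▸ ha), mem_univ a⟩)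

lemma DR_node (F : (ι → Bool) → ℝ) (R : Finset ι) (z : ι → ℝ) {i : ι} (hi : i ∉ R) :
    DR F R z = ∑ b, (1 + sg b * z i) / 2 * DR (fun x => F (Function.update x i b)) R z ∧
    DR F (insert i R) z = ∑ b, sg b / 2 * DR (fun x => F (Function.update x i b)) R z := by
  have hs : ∑ b, locF R z i b = 1 := by simp [locF_real, hi]; ring
  constructor
  · rw [DR_eq_Ex, resample' _ i hs, Ex_sum]
    simp only [Ex_mul, DR_eq_Ex, locF_real, if_neg hi]
  · have e : locF (insert i R) z = Function.update (locF R z) i (fun b => sg b / 2) := by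
      funext l b
      by_cases hl : l = i
      · subst hl; simp [locF_real]
      · simp [locF_real, hl]
    rw [DR_eq_Ex, e, resample _ i hs, Ex_sum]
    simp only [Ex_mul, DR_eq_Ex]

end

lemma taylor_pow (X h : ℝ) (q : ℕ) :
    |(X + h) ^ (q + 2) - X ^ (q + 2) - (q + 2) * X ^ (q + 1) * h| ≤
      (q + 2) ^ 2 * (h ^ 2 * (|X| + |h|) ^ q) := by
  induction q with
  | zero =>
    have : (X + h) ^ (0 + 2) - X ^ (0 + 2) - ((0 : ℕ) + 2) * X ^ (0 + 1) * h = h ^ 2 := by
      push_cast; ring
    rw [this, abs_of_nonneg (sq_nonneg h)]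
    simp; nlinarith [sq_nonneg h]
  | succ q ih =>
    have e : (X + h) ^ (q + 1 + 2) - X ^ (q + 1 + 2) - ((q + 1 : ℕ) + 2) * X ^ (q + 1 + 1) * h =
        (X + h) * ((X + h) ^ (q + 2) - X ^ (q + 2) - (q + 2) * X ^ (q + 1) * h) +
          (q + 2) * (h ^ 2 * X ^ (q + 1)) := by push_cast; ring
    rw [e]
    refine (abs_add_le _ _).trans ?_
    rw [abs_mul, abs_mul, abs_mul, abs_pow X, abs_of_nonneg (sq_nonneg h),
      abs_of_nonneg (show (0 : ℝ) ≤ q + 2 by positivity)]
    have h1 : |X| ^ (q + 1) ≤ (|X| + |h|) ^ (q + 1) :=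
      pow_le_pow_left₀ (abs_nonneg _) (by linarith [abs_nonneg h]) _
    have h2 := mul_le_mul (abs_add_le X h) ih (abs_nonneg _) (by positivity)
    have h3 : (q + 2 : ℝ) * (h ^ 2 * |X| ^ (q + 1)) ≤ (q + 2) * (h ^ 2 * (|X| + |h|) ^ (q + 1)) := by
      gcongr
    have h4 : 0 ≤ h ^ 2 * (|X| + |h|) ^ (q + 1) := by positivity
    have h5 : (|X| + |h|) * ((q + 2) ^ 2 * (h ^ 2 * (|X| + |h|) ^ q)) =
        (q + 2) ^ 2 * (h ^ 2 * (|X| + |h|) ^ (q + 1)) := by ring
    have h6 : (0 : ℝ) ≤ q := Nat.cast_nonneg q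
    push_cast
    nlinarith

lemma rem_le (X h : ℝ) {q : ℕ} (hq : Even q) {s : ℝ} (hs : 1 ≤ s) :
    h ^ 2 * (|X| + |h|) ^ q ≤ 2 ^ q * (X ^ (q + 2) / s ^ 2 + s ^ q * h ^ (q + 2)) := by
  have hq2 : Even (q + 2) := hq.add even_two
  rw [← hq2.pow_abs X, ← hq2.pow_abs h, ← sq_abs h]
  have ha := abs_nonneg X
  have hb := abs_nonneg h
  set a := |X|
  set b := |h|
  have hs0 : 0 < s := by linarith
  by_cases hc : s * b ≤ a
  · have h1 : b ^ 2 ≤ a ^ 2 / s ^ 2 := by
      rw [le_div_iff₀ (by positivity), ← mul_pow]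
      exact pow_le_pow_left₀ (by positivity) (by linarith) 2
    have h2 : (a + b) ^ q ≤ (2 * a) ^ q := pow_le_pow_left₀ (by positivity) (by nlinarith) q
    calc _ ≤ a ^ 2 / s ^ 2 * (2 * a) ^ q := mul_le_mul h1 h2 (by positivity) (by positivity)
      _ = 2 ^ q * (a ^ (q + 2) / s ^ 2 + 0) := by ring
      _ ≤ _ := by gcongr; positivity
  · have h2 : (a + b) ^ q ≤ (2 * s * b) ^ q := pow_le_pow_left₀ (by positivity) (by nlinarith) q
    calc _ ≤ b ^ 2 * (2 * s * b) ^ q := by gcongr
      _ = 2 ^ q * (0 + s ^ q * b ^ (q + 2)) := by ring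
      _ ≤ _ := by gcongr; positivity

/-- the constant in the two point inequality -/
noncomputable def KK (q : ℕ) : ℝ := (q + 2) ^ 2 * 2 ^ q

lemma KK_pos (q : ℕ) : 0 < KK q := by unfold KK; positivity

lemma two_point {q : ℕ} (hq : Even q) {s : ℝ} (hs : 1 ≤ s) {t : ℝ} (ht : |t| ≤ 1 / 2) (X c : ℝ) :
    ∑ b, (1 + sg b * t) / 2 * (X + sg b / (1 + sg b * t) * c) ^ (q + 2) ≤
      (1 + KK q / s ^ 2) * X ^ (q + 2) + KK q * s ^ q * 2 ^ (q + 2) * c ^ (q + 2) := by
  have hq2 : Even (q + 2) := hq.add even_two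
  have ht' := abs_le.1 ht
  have hpos : ∀ b, 1 / 2 ≤ 1 + sg b * t := by intro b; cases b <;> simp <;> linarith
  have h1 : ∀ b, (X + sg b / (1 + sg b * t) * c) ^ (q + 2) ≤
      ((1 + KK q / s ^ 2) * X ^ (q + 2) + KK q * s ^ q * 2 ^ (q + 2) * c ^ (q + 2)) +
        (q + 2) * X ^ (q + 1) * (sg b / (1 + sg b * t) * c) := by
    intro b
    set h := sg b / (1 + sg b * t) * c with hh
    have h2 := (abs_le.1 (taylor_pow X h q)).2
    have h3 := rem_le X h hq hs
    have h4 : h ^ (q + 2) ≤ (2 * c) ^ (q + 2) := by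
      rw [← hq2.pow_abs h, ← hq2.pow_abs (2 * c)]
      refine pow_le_pow_left₀ (abs_nonneg _) ?_ _
      rw [hh, abs_mul, abs_mul, abs_div, abs_sg, abs_of_pos (by linarith [hpos b]), abs_two]
      refine mul_le_mul_of_nonneg_right ?_ (abs_nonneg _)
      rw [div_le_iff₀ (by linarith [hpos b])]; linarith [hpos b]
    have h5 : ((q : ℝ) + 2) ^ 2 * (h ^ 2 * (|X| + |h|) ^ q) ≤
        (q + 2) ^ 2 * (2 ^ q * (X ^ (q + 2) / s ^ 2 + s ^ q * (2 * c) ^ (q + 2))) := by
      refine mul_le_mul_of_nonneg_left (h3.trans ?_) (by positivity)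
      gcongr
    have h6 : ((q : ℝ) + 2) ^ 2 * (2 ^ q * (X ^ (q + 2) / s ^ 2 + s ^ q * (2 * c) ^ (q + 2))) =
        KK q / s ^ 2 * X ^ (q + 2) + KK q * s ^ q * 2 ^ (q + 2) * c ^ (q + 2) := by
      unfold KK; ring
    linarith
  calc _ ≤ ∑ b, (1 + sg b * t) / 2 *
        (((1 + KK q / s ^ 2) * X ^ (q + 2) + KK q * s ^ q * 2 ^ (q + 2) * c ^ (q + 2)) +
        (q + 2) * X ^ (q + 1) * (sg b / (1 + sg b * t) * c)) :=
        sum_le_sum fun b _ => mul_le_mul_of_nonneg_left (h1 b) (by linarith [hpos b])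
    _ = _ := by
      generalize ((1 + KK q / s ^ 2) * X ^ (q + 2) + KK q * s ^ q * 2 ^ (q + 2) * c ^ (q + 2)) = M
      generalize ((q : ℝ) + 2) * X ^ (q + 1) = L
      have e : ∀ b, (1 + sg b * t) / 2 * (M + L * (sg b / (1 + sg b * t) * c)) =
          (1 + sg b * t) / 2 * M + L * c * sg b / 2 := by
        intro b
        have : 1 + sg b * t ≠ 0 := by linarith [hpos b]
        field_simp
      simp only [e, Fintype.sum_bool, sg_true, sg_false]
      ring

theorem growth {ι : Type} [Fintype ι] [DecidableEq ι] {q : ℕ} (hq : Even q) {s : ℝ} (hs : 1 ≤ s)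
    {z : ι → ℝ} (hz : ∀ l, |z l| ≤ 1 / 2) (d : ℕ) :
    ∀ (F : (ι → Bool) → ℝ), HasDepth d F → ∀ y : Finset ι → ℝ,
      (∑ R, y R * DR F R z) ^ (q + 2) ≤ (1 + KK q / s ^ 2) ^ d *
        ∑ R, (KK q * s ^ q * 2 ^ (q + 2)) ^ R.card * y R ^ (q + 2) := by
  have hq2 : Even (q + 2) := hq.add even_two
  set β := 1 + KK q / s ^ 2 with hβ
  set γ := KK q * s ^ q * 2 ^ (q + 2) with hγ
  have hK := KK_pos q
  have hβ1 : 1 ≤ β := by rw [hβ]; have : 0 ≤ KK q / s ^ 2 := by positivity
                         linarith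
  have hγ0 : 0 ≤ γ := by positivity
  have hconst : ∀ (d : ℕ) (c : ℝ), |c| ≤ 1 → ∀ y : Finset ι → ℝ,
      (∑ R, y R * DR (fun _ => c) R z) ^ (q + 2) ≤ β ^ d * ∑ R, γ ^ R.card * y R ^ (q + 2) := by
    intro d c hc y
    simp only [DR_const, mul_ite, mul_zero, sum_ite_eq', mem_univ, if_true]
    have h1 := single_le_sum (f := fun R : Finset ι => γ ^ R.card * y R ^ (q + 2))
      (fun R _ => mul_nonneg (pow_nonneg hγ0 _) (hq2.pow_nonneg _)) (mem_univ ∅)
    simp only [card_empty, pow_zero, one_mul] at h1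
    have h2 : c ^ (q + 2) ≤ 1 := by
      rw [← hq2.pow_abs]; exact pow_le_one₀ (abs_nonneg _) hc
    have h3 := hq2.pow_nonneg (y ∅)
    have h4 : 1 ≤ β ^ d := one_le_pow₀ hβ1
    rw [mul_pow]
    nlinarith
  induction d with
  | zero =>
    intro F h y
    cases h with
    | const _ c hc => exact hconst 0 c hc y
  | succ d ih =>
    intro F h y
    cases h with
    | const _ c hc => exact hconst _ c hc y
    | node _ i F0 F1 h0 h1 =>
      set F : (ι → Bool) → ℝ := fun x => if x i = true then F1 x else F0 x with hF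
      have hG : ∀ b, HasDepth d (fun x => F (Function.update x i b)) := by
        intro b
        have hσ : ∀ j, (∃ c, ∀ x : ι → Bool, Function.update x i b j = c) ∨
            ∃ i', ∀ x : ι → Bool, Function.update x i b j = x i' := by
          intro j
          by_cases hj : j = i
          · exact .inl ⟨b, fun x => by simp [hj]⟩
          · exact .inr ⟨j, fun x => by simp [hj]⟩
        cases b
        · simpa [hF] using h0.subst _ hσ
        · simpa [hF] using h1.subst _ hσ
      have ht' := abs_le.1 (hz i)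
      have hpos : ∀ b, 1 / 2 ≤ 1 + sg b * z i := by intro b; cases b <;> simp <;> linarith
      let y' : Bool → Finset ι → ℝ := fun b R =>
        if i ∈ R then 0 else y R + sg b / (1 + sg b * z i) * y (insert i R)
      have e1 : ∑ R, y R * DR F R z = ∑ b, (1 + sg b * z i) / 2 *
          ∑ R, y' b R * DR (fun x => F (Function.update x i b)) R z := by
        rw [sum_split i]
        simp only [mul_sum]
        rw [sum_comm]
        refine sum_congr rfl fun R _ => ?_
        simp only [y']
        split_ifs with hi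
        · simp
        · rw [(DR_node F R z hi).1, (DR_node F R z hi).2, mul_sum, mul_sum, ← sum_add_distrib]
          refine sum_congr rfl fun b _ => ?_
          have : 1 + sg b * z i ≠ 0 := by linarith [hpos b]
          field_simp
      have e2 : (∑ b, (1 + sg b * z i) / 2 *
          ∑ R, y' b R * DR (fun x => F (Function.update x i b)) R z) ^ (q + 2) ≤
          ∑ b, (1 + sg b * z i) / 2 *
          (∑ R, y' b R * DR (fun x => F (Function.update x i b)) R z) ^ (q + 2) := by
        have := (hq2.convexOn_pow (𝕜 := ℝ)).map_sum_le (t := univ)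
          (w := fun b => (1 + sg b * z i) / 2)
          (p := fun b => ∑ R, y' b R * DR (fun x => F (Function.update x i b)) R z)
          (fun b _ => by linarith [hpos b]) (by simp; ring) (fun _ _ => Set.mem_univ _)
        simpa only [smul_eq_mul] using this
      rw [e1]
      refine e2.trans ?_
      calc _ ≤ ∑ b, (1 + sg b * z i) / 2 * (β ^ d * ∑ R, γ ^ R.card * y' b R ^ (q + 2)) :=
            sum_le_sum fun b _ => mul_le_mul_of_nonneg_left (ih _ (hG b) _) (by linarith [hpos b])
        _ = β ^ d * ∑ R, γ ^ R.card * ∑ b, (1 + sg b * z i) / 2 * y' b R ^ (q + 2) := by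
            simp only [mul_sum]
            rw [sum_comm]
            exact sum_congr rfl fun R _ => sum_congr rfl fun b _ => by ring
        _ ≤ β ^ d * (β * ∑ R, γ ^ R.card * y R ^ (q + 2)) := by
            refine mul_le_mul_of_nonneg_left ?_ (by positivity)
            rw [sum_split i (fun R => γ ^ R.card * y R ^ (q + 2)), mul_sum]
            refine sum_le_sum fun R _ => ?_
            simp only [y']
            split_ifs with hi
            · simp
            · have h2 := two_point hq hs (hz i) (y R) (y (insert i R))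
              rw [← hβ, ← hγ] at h2
              rw [card_insert_of_notMem hi, pow_succ γ]
              have h3 := mul_le_mul_of_nonneg_left h2 (pow_nonneg hγ0 R.card)
              have h4 : 0 ≤ γ ^ R.card * γ * y (insert i R) ^ (q + 2) :=
                mul_nonneg (by positivity) (hq2.pow_nonneg _)
              nlinarith
        _ = _ := by ring

end Vale.Agent.P362
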