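import Vale.Agent.P362.Stein
import Vale.Agent.P362.Growth

/-! The Gaussian chain behind k-fold forrelation and the Stein computation along it. -/

set_option linter.unusedSectionVars false

namespace Vale.Agent.P362

open Finset MeasureTheory ProbabilityTheory MvPolynomial Filter

variable {Y : Type} [Fintype Y] [DecidableEq Y] {K : ℕ}

lemma chain [Nonempty Y] (T : Fin (K + 1) → (Fin (K + 1) → Y) → ℝ) (g : Y → ℝ)
    (hl : ∀ τ, T (Fin.last K) τ = g (τ (Fin.last K)))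
    (hs : ∀ (κ : Fin K) τ, T κ.succ τ = ∑ i, T κ.castSucc (Function.update τ κ.castSucc i)) :
    ∑ τ, T 0 τ = ∑ i, g i := by
  have h1 : ∀ m : Fin (K + 1), ∑ τ, T m τ = (Fintype.card Y : ℝ) ^ (m : ℕ) * ∑ τ, T 0 τ := by
    intro m
    induction m using Fin.induction with
    | zero => simp
    | succ κ ih =>
      simp only [hs]
      rw [sum_update, ih]; simp [pow_succ]; ring
  have h2 := sum_update (Fin.last K) (fun τ : Fin (K + 1) → Y => g (τ (Fin.last K)))
  have h3 := h1 (Fin.last K)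
  simp only [hl, Fin.val_last] at h3
  simp only [Function.update_self, sum_const, card_univ, Fintype.card_fun, Fintype.card_fin,
    nsmul_eq_mul, h3] at h2
  have hc : (0 : ℝ) < Fintype.card Y := by exact_mod_cast Fintype.card_pos
  push_cast at h2
  refine mul_left_cancel₀ (pow_pos hc (K + 1)).ne' ?_
  rw [h2]; ring

/-- product of matrix entries along a path, from level `m` on -/
noncomputable def cf (H : Y → Y → ℝ) (m : Fin (K + 1)) (τ : Fin (K + 1) → Y) : ℝ :=
  ∏ κ : Fin K, if m ≤ κ.castSucc then H (τ κ.castSucc) (τ κ.succ) else 1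

/-- the vertices of a path from level `m` on -/
def Rs (m : Fin (K + 1)) (τ : Fin (K + 1) → Y) : Finset (Fin (K + 1) × Y) :=
  univ.filter fun l => m ≤ l.1 ∧ τ l.1 = l.2

lemma cf_last (H : Y → Y → ℝ) (τ : Fin (K + 1) → Y) : cf H (Fin.last K) τ = 1 :=
  prod_eq_one fun κ _ => if_neg (not_le.2 (Fin.castSucc_lt_last κ))

lemma cf_step (H : Y → Y → ℝ) (κ : Fin K) (τ : Fin (K + 1) → Y) (i : Y) :
    cf H κ.castSucc (Function.update τ κ.castSucc i) = H i (τ κ.succ) * cf H κ.succ τ := by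
  unfold cf
  rw [← mul_prod_erase univ _ (mem_univ κ), ← mul_prod_erase univ _ (mem_univ κ), if_pos le_rfl,
    if_neg (not_le.2 (Fin.castSucc_lt_succ)), one_mul, Function.update_self,
    Function.update_of_ne (Fin.castSucc_lt_succ).ne']
  congr 1
  refine prod_congr rfl fun κ' hκ => ?_
  have hne : (κ' : ℕ) ≠ κ := fun h => ne_of_mem_erase hκ (Fin.ext h)
  by_cases h : κ.succ ≤ κ'.castSucc
  · have h' : (κ : ℕ) + 1 ≤ κ' := h
    rw [if_pos h, if_pos (Fin.castSucc_lt_succ.le.trans h), Function.update_of_ne,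
      Function.update_of_ne]
    · intro e; have := congrArg Fin.val e; simp at this; omega
    · intro e; have := congrArg Fin.val e; simp at this; omega
  · rw [if_neg h, if_neg]
    intro h'
    have h1 : (κ : ℕ) ≤ κ' := h'
    exact h (show (κ : ℕ) + 1 ≤ κ' by omega)

lemma cf_zero (H : Y → Y → ℝ) (τ : Fin (K + 1) → Y) :
    cf H 0 τ = ∏ κ : Fin K, H (τ κ.castSucc) (τ κ.succ) := by simp [cf]

lemma mem_Rs {m : Fin (K + 1)} {τ : Fin (K + 1) → Y} {l : Fin (K + 1) × Y} :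
    l ∈ Rs m τ ↔ m ≤ l.1 ∧ τ l.1 = l.2 := by simp [Rs]

lemma Rs_last (τ : Fin (K + 1) → Y) : Rs (Fin.last K) τ = {(Fin.last K, τ (Fin.last K))} := by
  ext ⟨m, i⟩
  simp only [mem_Rs, mem_singleton, Prod.mk.injEq, Fin.last_le_iff]
  constructor
  · rintro ⟨rfl, h⟩; exact ⟨rfl, h.symm⟩
  · rintro ⟨rfl, h⟩; exact ⟨rfl, h.symm⟩

lemma notMem_Rs (κ : Fin K) (τ : Fin (K + 1) → Y) (i : Y) : (κ.castSucc, i) ∉ Rs κ.succ τ :=
  fun h => absurd (mem_Rs.1 h).1 (not_le.2 Fin.castSucc_lt_succ)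

lemma Rs_step (κ : Fin K) (τ : Fin (K + 1) → Y) (i : Y) :
    Rs κ.castSucc (Function.update τ κ.castSucc i) = insert (κ.castSucc, i) (Rs κ.succ τ) := by
  ext ⟨m, j⟩
  simp only [mem_Rs, mem_insert, Prod.mk.injEq]
  by_cases hm : m = κ.castSucc
  · subst hm
    simp [eq_comm, not_le.2 (Fin.castSucc_lt_succ (i := κ))]
  · rw [Function.update_of_ne hm]
    have hne : (m : ℕ) ≠ κ := fun h => hm (Fin.ext h)
    simp only [hm, false_and, false_or, Fin.le_def, Fin.val_castSucc, Fin.val_succ]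
    constructor <;> rintro ⟨h1, h2⟩ <;> exact ⟨by omega, h2⟩

lemma card_Rs_zero (τ : Fin (K + 1) → Y) : (Rs 0 τ).card = K + 1 := by
  have : Rs 0 τ = univ.image fun m => (m, τ m) := by
    ext ⟨m, i⟩; simp [mem_Rs]
  rw [this, card_image_of_injective _ (fun a b h => (Prod.ext_iff.1 h).1)]
  simp

lemma Rs_zero_inj : Function.Injective (Rs (Y := Y) (K := K) 0) := by
  intro τ τ' h
  funext m
  have : (m, τ m) ∈ Rs 0 τ' := h ▸ mem_Rs.2 ⟨Fin.zero_le _, rfl⟩
  exact (mem_Rs.1 this).2.symm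

section
variable (δ : ℝ) (H : Y → Y → ℝ)

/-- the Gaussian vectors `U` -/
noncomputable def Up (κ : Fin K) (i : Y) : MvPolynomial (Fin K × Y) ℝ := C δ * X (κ, i)

/-- the rotated Gaussian vectors `V` -/
noncomputable def Vp (κ : Fin K) (i : Y) : MvPolynomial (Fin K × Y) ℝ :=
  C δ * ∑ j, C (H i j) * X (κ, j)

/-- second factor -/
noncomputable def bp (m : Fin (K + 1)) (i : Y) : MvPolynomial (Fin K × Y) ℝ :=
  Fin.cases (motive := fun _ => MvPolynomial (Fin K × Y) ℝ) 1 (fun κ => Up δ κ i) m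

/-- first factor -/
noncomputable def ap (s : ℝ) (m : Fin (K + 1)) (i : Y) : MvPolynomial (Fin K × Y) ℝ :=
  Fin.lastCases (motive := fun _ => MvPolynomial (Fin K × Y) ℝ) (C s) (fun κ => Vp δ H κ i) m

/-- the biases -/
noncomputable def zp (s : ℝ) (l : Fin (K + 1) × Y) : MvPolynomial (Fin K × Y) ℝ :=
  ap δ H s l.1 l.2 * bp δ l.1 l.2

lemma pderiv_bp (κ : Fin K) (i : Y) (m : Fin (K + 1)) (j : Y) (h : (m, j) ≠ (κ.succ, i)) :
    pderiv (κ, i) (bp δ m j) = 0 := by
  induction m using Fin.cases with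
  | zero => simp [bp]
  | succ κ' =>
    have : (κ', j) ≠ (κ, i) := fun e => h (by cases e; rfl)
    simp [bp, Up, pderiv_X, Pi.single_eq_of_ne this]

lemma pderiv_ap (s : ℝ) (κ : Fin K) (i : Y) (m : Fin (K + 1)) (j : Y) :
    pderiv (κ, i) (ap δ H s m j) = if m = κ.castSucc then C (δ * H j i) else 0 := by
  induction m using Fin.lastCases with
  | last => simp [ap, (Fin.castSucc_lt_last κ).ne']
  | cast κ' =>
    simp only [ap, Fin.lastCases_castSucc, Vp, Derivation.leibniz, pderiv_C, add_zero,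
      map_sum, pderiv_X, smul_eq_mul, Fin.castSucc_inj, mul_zero]
    split_ifs with h
    · subst h
      rw [sum_eq_single i]
      · simp
      · intro b _ hb
        rw [Pi.single_eq_of_ne (fun e => hb (Prod.ext_iff.1 e).2), mul_zero]
      · simp
    · rw [sum_eq_zero, mul_zero]
      intro b _
      rw [Pi.single_eq_of_ne (fun e => h (Prod.ext_iff.1 e).1), mul_zero]

lemma stein_step (F : (Fin (K + 1) × Y → Bool) → ℝ) (s : ℝ) (κ : Fin K) (i : Y)
    (R : Finset (Fin (K + 1) × Y)) (h1 : (κ.succ, i) ∈ R) (h2 : ∀ j, (κ.castSucc, j) ∉ R) :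
    Lam (bp δ κ.succ i * DR F R (zp δ H s)) =
      ∑ j, δ ^ 2 * H j i * Lam (bp δ κ.castSucc j * DR F (insert (κ.castSucc, j) R) (zp δ H s)) := by
  have e : bp δ κ.succ i = C δ * X (κ, i) := by simp [bp, Up]
  rw [e, mul_assoc, Lam_C_mul, stein, deriv_DR, map_sum, Fintype.sum_prod_type,
    sum_eq_single κ.castSucc, mul_sum]
  · refine sum_congr rfl fun j _ => ?_
    rw [if_neg (h2 j), zp, Derivation.leibniz, pderiv_bp, pderiv_ap, if_pos rfl]
    · simp only [mul_zero, zero_add, smul_eq_mul]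
      rw [mul_comm (bp _ _ _), mul_assoc, Lam_C_mul]; ring
    · intro e; exact Fin.castSucc_lt_succ.ne (Prod.ext_iff.1 e).1
  · intro m _ hm
    refine sum_eq_zero fun j _ => ?_
    split_ifs with h
    · simp
    · rw [zp, Derivation.leibniz, pderiv_bp, pderiv_ap, if_neg hm]
      · simp
      · intro e; exact h (e ▸ h1)
  · simp

lemma stein_chain [Nonempty Y] (F : (Fin (K + 1) × Y → Bool) → ℝ) (s : ℝ) :
    ∑ τ, cf (fun j i => δ ^ 2 * H j i) 0 τ * Lam (DR F (Rs 0 τ) (zp δ H s)) =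
      ∑ i, Lam (bp δ (Fin.last K) i * DR F {(Fin.last K, i)} (zp δ H s)) := by
  rw [← chain (fun m τ => cf (fun j i => δ ^ 2 * H j i) m τ *
    Lam (bp δ m (τ m) * DR F (Rs m τ) (zp δ H s)))]
  · simp [bp]
  · intro τ; simp only [cf_last, Rs_last, one_mul]
  · intro κ τ
    rw [stein_step δ H F s κ _ _ (mem_Rs.2 ⟨le_rfl, rfl⟩) (notMem_Rs κ τ), mul_sum]
    refine sum_congr rfl fun j _ => ?_
    rw [cf_step, Rs_step, Function.update_self]; ring

lemma hasDerivAt_psi (F : (Fin (K + 1) × Y → Bool) → ℝ) (s : ℝ) :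
    HasDerivAt (fun s => Lam (DR F ∅ (zp δ H s)))
      (∑ i, Lam (bp δ (Fin.last K) i * DR F {(Fin.last K, i)} (zp δ H s))) s := by
  let Z : Fin (K + 1) × Y → Polynomial (MvPolynomial (Fin K × Y) ℝ) := fun l =>
    Fin.lastCases (motive := fun _ => Polynomial (MvPolynomial (Fin K × Y) ℝ)) Polynomial.X
      (fun κ => Polynomial.C (Vp δ H κ l.2)) l.1 * Polynomial.C (bp δ l.1 l.2)
  let φ : ℝ → Polynomial (MvPolynomial (Fin K × Y) ℝ) →ₐ[ℝ] MvPolynomial (Fin K × Y) ℝ := fun s =>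
    (Polynomial.aeval (R := MvPolynomial (Fin K × Y) ℝ) (C s)).restrictScalars ℝ
  have hφ : ∀ s P, φ s P = P.eval (C s) := fun s P => by
    simp [φ, Polynomial.coe_aeval_eq_eval]
  have hZ : ∀ s, (fun l => φ s (Z l)) = zp δ H s := by
    intro s; funext ⟨m, i⟩
    simp only [hφ, Z, zp, ap, Polynomial.eval_mul, Polynomial.eval_C]
    induction m using Fin.lastCases <;> simp
  have h := hasDerivAt_Lam (DR F ∅ Z) s
  simp only [← hφ, map_DR, hZ] at h
  refine h.congr_deriv ?_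
  have e := deriv_DR ((Polynomial.derivative' (R := MvPolynomial (Fin K × Y) ℝ)).restrictScalars ℝ)
    F ∅ Z
  have e' : Polynomial.derivative (DR F ∅ Z) =
      ∑ l, Polynomial.derivative (Z l) * DR F (insert l ∅) Z := by
    simpa using e
  rw [e', map_sum, map_sum, Fintype.sum_prod_type, Fin.sum_univ_castSucc]
  simp only [map_mul, map_DR, hZ]
  rw [sum_eq_zero, zero_add]
  · refine sum_congr rfl fun i _ => ?_
    simp [Z, hφ]
  · intro κ _
    refine sum_eq_zero fun i _ => ?_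
    simp [Z, hφ]

lemma psi_diff [Nonempty Y] (F : (Fin (K + 1) × Y → Bool) → ℝ) :
    ∃ s : ℝ, |s| ≤ 1 ∧ Lam (DR F ∅ (zp δ H 1)) - Lam (DR F ∅ (zp δ H (-1))) =
      2 * ∑ τ, cf (fun j i => δ ^ 2 * H j i) 0 τ * Lam (DR F (Rs 0 τ) (zp δ H s)) := by
  obtain ⟨s, hs, e⟩ := exists_hasDerivAt_eq_slope (fun s => Lam (DR F ∅ (zp δ H s))) _
    (show (-1 : ℝ) < 1 by norm_num)
    (fun s _ => (hasDerivAt_psi δ H F s).continuousAt.continuousWithinAt)
    (fun s _ => hasDerivAt_psi δ H F s)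
  refine ⟨s, abs_le.2 ⟨hs.1.le, hs.2.le⟩, ?_⟩
  rw [stein_chain, e]; ring

end

end Vale.Agent.P362
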