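import Vale.Agent.P362.Ops
import Vale.Agent.P362.Defs

/-! Degree, block sensitivity, decision tree depth, and the signed cube. -/

set_option linter.unusedSectionVars false

namespace Vale.Agent.P362

open Finset

variable {ι : Type} [Fintype ι] [DecidableEq ι]

/-- top coefficient of the restriction to the subcube with free coordinates `M` through `x` -/
noncomputable def Dl (f : (ι → Bool) → Bool) (M : Finset ι) (x : ι → Bool) : ℝ :=
  ∑ z : ι → Bool, (∏ l ∈ M, sg (z l)) * sg (f (M.piecewise z x))

lemma prod_sg_update {M : Finset ι} {i : ι} (hi : i ∉ M) (z : ι → Bool) (b : Bool) :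
    ∏ l ∈ M, sg (Function.update z i b l) = ∏ l ∈ M, sg (z l) :=
  prod_congr rfl fun l hl => by rw [Function.update_of_ne (fun e : l = i => hi (e ▸ hl))]

lemma Dl_insert (f : (ι → Bool) → Bool) {M : Finset ι} {i : ι} (hi : i ∉ M) (x : ι → Bool) :
    2 * Dl f (insert i M) x =
      Dl f M (Function.update x i false) - Dl f M (Function.update x i true) := by
  have h := sum_update i (fun z : ι → Bool => (∏ l ∈ insert i M, sg (z l)) *
    sg (f ((insert i M).piecewise z x)))
  have e : ∀ (z : ι → Bool) b, (insert i M).piecewise (Function.update z i b) x =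
      M.piecewise z (Function.update x i b) := by
    intro z b; funext l
    by_cases hl : l = i
    · subst hl; simp [hi]
    · by_cases hM : l ∈ M <;> simp [hl, hM]
  simp only [prod_insert hi, e, prod_sg_update hi, Function.update_self, Fintype.sum_bool,
    Fintype.card_bool, sg_true, sg_false] at h
  simp only [Dl, prod_insert hi, ← sum_sub_distrib]
  push_cast at h
  rw [← h]
  exact sum_congr rfl fun z _ => by ring

lemma Dl_eq_zero {f : (ι → Bool) → Bool} {M : Finset ι} {i : ι} (hi : i ∈ M) {x : ι → Bool}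
    (h : ∀ z b, f (M.piecewise (Function.update z i b) x) = f (M.piecewise z x)) : Dl f M x = 0 := by
  have h1 := sum_update i (fun z : ι → Bool => (∏ l ∈ M, sg (z l)) * sg (f (M.piecewise z x)))
  simp only [h, ← mul_prod_erase M _ hi, prod_sg_update (notMem_erase i M), Function.update_self,
    Fintype.sum_bool, Fintype.card_bool, sg_true, sg_false] at h1
  simp only [Dl, ← mul_prod_erase M _ hi]
  have : ∑ z : ι → Bool, (-1 * (∏ l ∈ M.erase i, sg (z l)) * sg (f (M.piecewise z x)) +
      1 * (∏ l ∈ M.erase i, sg (z l)) * sg (f (M.piecewise z x))) = 0 :=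
    sum_eq_zero fun z _ => by ring
  rw [this] at h1
  push_cast at h1
  linarith

lemma const_of_update {α : Type} (P : (ι → Bool) → α) (h : ∀ x i b, P (Function.update x i b) = P x)
    (x x' : ι → Bool) : P x' = P x := by
  have : ∀ S : Finset ι, P (S.piecewise x' x) = P x := by
    intro S
    induction S using Finset.induction_on with
    | empty => simp
    | insert i S _ ih => rw [piecewise_insert, h, ih]
  simpa using this univ

/-- degree at most `d` -/
def DegLe (f : (ι → Bool) → Bool) (d : ℕ) : Prop := ∀ M x, Dl f M x ≠ 0 → M.card ≤ d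

/-- block sensitivity at most `b` -/
def BsLe (f : (ι → Bool) → Bool) (b : ℕ) : Prop :=
  ∀ (κ : Type) [Fintype κ] (x : ι → Bool) (B : κ → Finset ι) (y : κ → ι → Bool),
    (∀ j j', j ≠ j' → Disjoint (B j) (B j')) → (∀ j i, i ∉ B j → y j i = x i) →
      (∀ j, f (y j) ≠ f x) → Fintype.card κ ≤ b

lemma exists_maxo {f : (ι → Bool) → Bool} {d : ℕ} (hd : DegLe f d) (hf : ¬ ∀ x y, f x = f y) :
    ∃ M : Finset ι, M.card ≤ d ∧ ∀ x, ∃ z, f (M.piecewise z x) ≠ f x := by
  classical
  have h0 : ∀ x, Dl f ∅ x = Fintype.card (ι → Bool) * sg (f x) := fun x => by simp [Dl]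
  have hc : (0 : ℝ) < Fintype.card (ι → Bool) := by exact_mod_cast Fintype.card_pos
  obtain ⟨M, hM, hmax⟩ := exists_max_image (univ.filter fun M : Finset ι => ∃ x, Dl f M x ≠ 0)
    card ⟨∅, mem_filter.2 ⟨mem_univ _, default, by
      rw [h0]; exact mul_ne_zero hc.ne' (by cases f default <;> simp)⟩⟩
  obtain ⟨x0, hx0⟩ := (mem_filter.1 hM).2
  have hinv := const_of_update (Dl f M) (fun x i b => by
    by_cases hi : i ∈ M
    · unfold Dl
      refine sum_congr rfl fun z _ => ?_
      rw [piecewise_congr M (fun _ _ => rfl) (g' := x) fun l hl =>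
        Function.update_of_ne (fun e : l = i => hl (e ▸ hi)) _ _]
    · have h1 : Dl f (insert i M) x = 0 := by
        by_contra hne
        have := hmax _ (mem_filter.2 ⟨mem_univ _, x, hne⟩)
        rw [card_insert_of_notMem hi] at this; omega
      have h2 := Dl_insert f hi x
      have h3 : ∀ c, Dl f M (Function.update x i c) = Dl f M (Function.update x i false) := by
        intro c; cases c
        · rfl
        · linarith
      rw [h3 b, ← h3 (x i), Function.update_eq_self])
  refine ⟨M, hd M x0 hx0, fun x => ?_⟩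
  by_contra hc'
  push Not at hc'
  rcases M.eq_empty_or_nonempty with rfl | ⟨i, hi⟩
  · refine hf fun x y => ?_
    have := hinv x y
    rw [h0, h0, mul_right_inj' hc.ne'] at this
    revert this
    cases f x <;> cases f y <;> norm_num
  · exact hx0 ((hinv x x0).trans (Dl_eq_zero hi fun z b => by rw [hc', hc']))

lemma DegLe.restrict {f : (ι → Bool) → Bool} {d : ℕ} (hd : DegLe f d) (M0 : Finset ι)
    (a : ι → Bool) : DegLe (fun x => f (M0.piecewise a x)) d := by
  intro M x h
  by_cases hdis : ∃ i ∈ M, i ∈ M0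
  · obtain ⟨i, hi, hi0⟩ := hdis
    refine absurd (Dl_eq_zero hi fun z b => ?_) h
    congr 1; funext l
    by_cases hl : l ∈ M0
    · simp [hl]
    · have : l ≠ i := fun e => hl (e ▸ hi0)
      by_cases hM : l ∈ M <;> simp [hl, hM, this]
  · refine hd M (M0.piecewise a x) ?_
    have : Dl f M (M0.piecewise a x) = Dl (fun x => f (M0.piecewise a x)) M x := by
      unfold Dl
      refine sum_congr rfl fun z _ => ?_
      congr 3; funext l
      by_cases hl : l ∈ M0
      · have : l ∉ M := fun hM => hdis ⟨l, hM, hl⟩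
        simp [hl, this]
      · by_cases hM : l ∈ M <;> simp [hl, hM]
    rwa [this]

lemma tree_restrict {D : ℕ} : ∀ (M : Finset ι) (f : (ι → Bool) → Bool),
    (∀ a, ∃ t : DTree ι, t.depth ≤ D ∧ ∀ x, t.eval x = f (M.piecewise a x)) →
      ∃ t : DTree ι, t.depth ≤ M.card + D ∧ ∀ x, t.eval x = f x := by
  intro M
  induction M using Finset.induction_on with
  | empty => intro f h; simpa using h default
  | insert i M hi ih =>
    intro f h
    have key : ∀ b, ∃ t : DTree ι, t.depth ≤ M.card + D ∧
        ∀ x, t.eval x = f (Function.update x i b) := fun b =>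
      ih (fun x => f (Function.update x i b)) fun a => by
        obtain ⟨t, ht, e⟩ := h (Function.update a i b)
        refine ⟨t, ht, fun x => ?_⟩
        rw [e]; congr 1; funext l
        by_cases hl : l = i
        · subst hl; simp
        · by_cases hM : l ∈ M <;> simp [hl, hM]
    obtain ⟨t0, d0, e0⟩ := key false
    obtain ⟨t1, d1, e1⟩ := key true
    refine ⟨.node i t0 t1, by simp only [DTree.depth, card_insert_of_notMem hi]; omega, fun x => ?_⟩
    simp only [DTree.eval, e0, e1]
    split_ifs with hx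
    · rw [← hx, Function.update_eq_self]
    · rw [← Bool.eq_false_iff.2 hx, Function.update_eq_self]

theorem tree_of_bs_deg {d : ℕ} : ∀ (b : ℕ) (f : (ι → Bool) → Bool), BsLe f b → DegLe f d →
    ∃ t : DTree ι, t.depth ≤ b * d ∧ ∀ x, t.eval x = f x := by
  intro b
  induction b with
  | zero =>
    intro f hb hd
    refine ⟨.leaf (f default), Nat.zero_le _, fun x => ?_⟩
    by_contra hne
    simpa using hb Unit x (fun _ => univ) (fun _ => default) (by simp) (by simp) (fun _ => hne)
  | succ b ih =>
    intro f hb hd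
    by_cases hf : ∀ x y, f x = f y
    · exact ⟨.leaf (f default), Nat.zero_le _, fun x => hf _ _⟩
    obtain ⟨M, hM, hz⟩ := exists_maxo hd hf
    obtain ⟨t, ht, e⟩ := tree_restrict (D := b * d) M f fun a => ih _ (by
      intro κ _ x B y h1 h2 h3
      obtain ⟨z, hz⟩ := hz (M.piecewise a x)
      have := hb (Option κ) (M.piecewise a x) (fun o => o.elim M fun j => B j \ M)
        (fun o => o.elim (M.piecewise z (M.piecewise a x)) fun j => M.piecewise a (y j))
        (by
          rintro (_ | j) (_ | j') hne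
          · exact absurd rfl hne
          · exact disjoint_sdiff
          · exact sdiff_disjoint
          · exact (h1 j j' fun e => hne (by rw [e])).mono sdiff_subset sdiff_subset)
        (by
          rintro (_ | j) i hi
          · exact piecewise_eq_of_notMem _ _ _ hi
          · by_cases hM : i ∈ M
            · simp [hM]
            · simp [hM, h2 j i (fun hB => hi (mem_sdiff.2 ⟨hB, hM⟩))])
        (by
          rintro (_ | j)
          · exact hz
          · exact h3 j)
      simpa using this) (hd.restrict M a)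
    exact ⟨t, ht.trans (by rw [Nat.succ_mul]; omega), e⟩

/-- flip one coordinate -/
def fl (z : ι → Bool) (i : ι) : ι → Bool := Function.update z i (!z i)

lemma fl_fl (z : ι → Bool) (i : ι) : fl (fl z i) i = z := by simp [fl]

lemma fl_comm (z : ι → Bool) {i j : ι} (h : i ≠ j) : fl (fl z i) j = fl (fl z j) i := by
  simp only [fl, Function.update_of_ne h, Function.update_of_ne h.symm]
  exact Function.update_comm h _ _ _

section
variable [LinearOrder ι]

/-- signs of the signed cube -/
noncomputable def hs (z : ι → Bool) (i : ι) : ℝ := ∏ j, if j < i then sg (z j) else 1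

lemma abs_hs (z : ι → Bool) (i : ι) : |hs z i| = 1 := by
  rw [hs, abs_prod]; exact prod_eq_one fun j _ => by split_ifs <;> simp [abs_sg]

lemma hs_fl (z : ι → Bool) (i j : ι) : hs (fl z i) j = (if i < j then -1 else 1) * hs z j := by
  unfold hs
  rw [← mul_prod_erase univ _ (mem_univ i), ← mul_prod_erase univ _ (mem_univ i), ← mul_assoc]
  congr 1
  · simp only [fl, Function.update_self]
    split_ifs
    · cases z i <;> simp
    · simp
  · exact prod_congr rfl fun l hl => by rw [fl, Function.update_of_ne (ne_of_mem_erase hl)]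

/-- signed adjacency operator -/
noncomputable def HA (M : Finset ι) : ((ι → Bool) → ℝ) →ₗ[ℝ] ((ι → Bool) → ℝ) where
  toFun v z := ∑ i ∈ M, hs z i * v (fl z i)
  map_add' u v := by funext z; simp [mul_add, sum_add_distrib]
  map_smul' c v := by funext z; simp [mul_sum, mul_left_comm]

lemma HA_apply (M : Finset ι) (v : (ι → Bool) → ℝ) (z : ι → Bool) :
    HA M v z = ∑ i ∈ M, hs z i * v (fl z i) := rfl

lemma HA_HA (M : Finset ι) (v : (ι → Bool) → ℝ) : HA M (HA M v) = (M.card : ℝ) • v := by
  funext z
  simp only [HA_apply, mul_sum, Pi.smul_apply, smul_eq_mul]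
  have h : ∀ i j, hs z i * (hs (fl z i) j * v (fl (fl z i) j)) +
      hs z j * (hs (fl z j) i * v (fl (fl z j) i)) = if i = j then 2 * v z else 0 := by
    intro i j
    split_ifs with hij
    · subst hij
      have h1 : hs z i * hs z i = 1 := by rw [← abs_mul_abs_self, abs_hs, one_mul]
      rw [hs_fl, fl_fl, if_neg (lt_irrefl i)]
      linear_combination 2 * v z * h1
    · rw [hs_fl, hs_fl, fl_comm z hij]
      rcases lt_or_gt_of_ne hij with h | h
      · rw [if_pos h, if_neg h.not_gt]; ring
      · rw [if_neg h.not_gt, if_pos h]; ring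
  have h2 : ∑ i ∈ M, ∑ j ∈ M, (hs z i * (hs (fl z i) j * v (fl (fl z i) j)) +
      hs z j * (hs (fl z j) i * v (fl (fl z j) i))) = M.card * (2 * v z) := by
    simp only [h]
    rw [sum_congr rfl fun i hi => sum_ite_eq_of_mem M i (fun _ => 2 * v z) hi]
    simp
  simp only [sum_add_distrib] at h2
  rw [sum_comm (s := M) (t := M) (f := fun i j => hs z j * (hs (fl z j) i * v (fl (fl z j) i)))]
    at h2
  linarith

lemma huang (M : Finset ι) (V : Finset (ι → Bool)) (hV : Vᶜ.card < V.card) :
    ∃ w : (ι → Bool) → ℝ, w ≠ 0 ∧ (∀ z, 0 ≤ w z) ∧ (∀ z, z ∉ V → w z = 0) ∧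
      ∀ z, √M.card * w z ≤ ∑ i ∈ M, w (fl z i) := by
  set s := √(M.card : ℝ) with hs'
  have hs0 : 0 ≤ s := Real.sqrt_nonneg _
  have hs2 : s * s = M.card := Real.mul_self_sqrt (Nat.cast_nonneg _)
  have key : ∃ (v : (ι → Bool) → ℝ) (c : ℝ), |c| = s ∧ v ≠ 0 ∧ (∀ z, z ∉ V → v z = 0) ∧
      HA M v = c • v := by
    by_contra hc
    push Not at hc
    let res : ((ι → Bool) → ℝ) →ₗ[ℝ] (↥Vᶜ → ℝ) := LinearMap.funLeft ℝ ℝ Subtype.val
    have hb : ∀ (c : ℝ) (W : Submodule ℝ ((ι → Bool) → ℝ)), |c| = s →
        (∀ v ∈ W, HA M v = c • v) → Module.finrank ℝ W ≤ Vᶜ.card := by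
      intro c W hcs hW
      have := LinearMap.finrank_le_finrank_of_injective (f := res ∘ₗ W.subtype) (by
        rw [injective_iff_map_eq_zero]
        rintro ⟨v, hv⟩ h0
        by_contra hne
        exact hc v c hcs (fun e => hne (Subtype.ext e))
          (fun z hz => congrFun h0 ⟨z, mem_compl.2 hz⟩) (hW v hv))
      rwa [Module.finrank_fintype_fun_eq_card, Fintype.card_coe] at this
    let P := HA M + s • (LinearMap.id : ((ι → Bool) → ℝ) →ₗ[ℝ] _)
    have h1 := hb s (LinearMap.range P) (abs_of_nonneg hs0) (by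
      rintro _ ⟨u, rfl⟩
      simp only [P, LinearMap.add_apply, LinearMap.smul_apply, LinearMap.id_apply, map_add,
        map_smul, HA_HA, smul_add, smul_smul, hs2, add_comm])
    have h2 := hb (-s) (LinearMap.ker P) (by rw [abs_neg, abs_of_nonneg hs0]) (by
      intro v hv
      simp only [P, LinearMap.mem_ker, LinearMap.add_apply, LinearMap.smul_apply,
        LinearMap.id_apply] at hv
      rw [neg_smul]; exact eq_neg_of_add_eq_zero_left hv)
    have h3 := LinearMap.finrank_range_add_finrank_ker P
    rw [Module.finrank_fintype_fun_eq_card, ← card_add_card_compl V] at h3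
    omega
  obtain ⟨v, c, hc, hv, hz, e⟩ := key
  refine ⟨fun z => |v z|, fun h => hv (funext fun z => abs_eq_zero.1 (congrFun h z)),
    fun z => abs_nonneg _, fun z h => by simp [hz z h], fun z => ?_⟩
  have := congrFun e z
  rw [HA_apply, Pi.smul_apply, smul_eq_mul] at this
  rw [← hc, ← abs_mul, ← this]
  refine (abs_sum_le_sum_abs _ _).trans (le_of_eq (sum_congr rfl fun i _ => ?_))
  rw [abs_mul, abs_hs, one_mul]

lemma huang_deg {f : (ι → Bool) → Bool} {M : Finset ι} {x : ι → Bool} (h : Dl f M x ≠ 0) :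
    ∃ w : (ι → Bool) → ℝ, w ≠ 0 ∧ (∀ z, 0 ≤ w z) ∧
      (∀ z, ∀ i ∈ M, w z * w (fl z i) ≠ 0 → f (M.piecewise z x) ≠ f (M.piecewise (fl z i) x)) ∧
      ∀ z, √M.card * w z ≤ ∑ i ∈ M, w (fl z i) := by
  classical
  let φ : (ι → Bool) → ℝ := fun z => (∏ l ∈ M, sg (z l)) * sg (f (M.piecewise z x))
  have hφ : ∀ z, φ z = 1 ∨ φ z = -1 := fun z => by
    have : |φ z| = 1 := by simp [φ, abs_mul, abs_prod, abs_sg]
    exact (abs_eq zero_le_one).1 this
  have hfl : ∀ z, ∀ i ∈ M, φ z = φ (fl z i) →
      f (M.piecewise z x) ≠ f (M.piecewise (fl z i) x) := by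
    intro z i hi e he
    have h1 : ∏ l ∈ M, sg (fl z i l) = -∏ l ∈ M, sg (z l) := by
      rw [← mul_prod_erase M _ hi, ← mul_prod_erase M _ hi, fl, prod_sg_update (notMem_erase i M),
        Function.update_self]
      cases z i <;> simp
    have h2 : φ (fl z i) = -φ z := by simp only [φ, h1, he]; ring
    rcases hφ z with h3 | h3 <;> linarith
  set V := univ.filter fun z => φ z = 1 with hV
  have hsum : Dl f M x = V.card - Vᶜ.card := by
    rw [show Dl f M x = ∑ z, φ z from rfl, ← sum_add_sum_compl V,
      sum_congr rfl (g := fun _ => (1 : ℝ)) fun z hz => (mem_filter.1 hz).2,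
      sum_congr rfl (s₁ := Vᶜ) (g := fun _ => (-1 : ℝ)) fun z hz => (hφ z).resolve_left
        fun e => mem_compl.1 hz (mem_filter.2 ⟨mem_univ _, e⟩)]
    simp; ring
  have hne : V.card ≠ Vᶜ.card := fun e => h (by rw [hsum, e, sub_self])
  rcases lt_or_gt_of_ne hne with hlt | hlt
  · obtain ⟨w, h1, h2, h3, h4⟩ := huang M Vᶜ (by rwa [compl_compl])
    refine ⟨w, h1, h2, fun z i hi hw => hfl z i hi ?_, h4⟩
    have a : ∀ y, w y ≠ 0 → φ y = -1 := fun y hy => (hφ y).resolve_left fun e =>
      hy (h3 y (by simp [hV, e]))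
    rw [a _ (left_ne_zero_of_mul hw), a _ (right_ne_zero_of_mul hw)]
  · obtain ⟨w, h1, h2, h3, h4⟩ := huang M V hlt
    refine ⟨w, h1, h2, fun z i hi hw => hfl z i hi ?_, h4⟩
    have a : ∀ y, w y ≠ 0 → φ y = 1 := fun y hy => by
      by_contra e; exact hy (h3 y (by simp [hV, e]))
    rw [a _ (left_ne_zero_of_mul hw), a _ (right_ne_zero_of_mul hw)]

end

end Vale.Agent.P362
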