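import Vale.Agent.P362.Amp
import Vale.Agent.P362.Defs

/-! Simulation of phase-query real algorithms in the standard quantum query model. -/

set_option linter.unusedSectionVars false

namespace Vale.Agent.P362

open Finset Matrix

lemma Ops.comap {I I' Ω : Type} [Fintype Ω] [DecidableEq Ω] (φ : I → I') :
    ∀ {T : ℕ} {A : (I → Bool) → Matrix Ω Ω ℝ}, Ops T A → Ops T (fun x : I' → Bool => A (x ∘ φ))
  | 0, _, ⟨U, hU, h⟩ => ⟨U, hU, fun _ => h _⟩
  | _ + 1, _, ⟨U, pos, B, hU, hB, h⟩ =>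
    ⟨U, fun ω => (pos ω).map φ, fun x => B (x ∘ φ), hU, hB.comap φ, fun x => by
      have : phq (fun ω => (pos ω).map φ) x = phq pos (x ∘ φ) := by
        simp only [phq]; congr 1; funext ω; cases pos ω <;> rfl
      rw [this]; exact h _⟩

lemma Samp.comap {I I' Y : Type} [Fintype Y] (φ : I → I') {T : ℕ} {μ : (I → Bool) → Y → ℝ}
    (h : Samp T μ) : Samp T (fun x : I' → Bool => μ (x ∘ φ)) := by
  obtain ⟨Ω, _, _, A, v, out, hA, hv, h⟩ := h
  exact ⟨Ω, _, _, _, v, out, hA.comap φ, hv, fun x g => h _ g⟩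

section
variable {n : ℕ} {Ω : Type} [Fintype Ω] [DecidableEq Ω]

/-- real query map -/
def rO (x : Fin n → Bool) (φ : Ω × (Fin n × Bool) → ℝ) : Ω × (Fin n × Bool) → ℝ :=
  fun r => φ (r.1, r.2.1, xor r.2.2 (x r.2.1))

/-- real state -/
noncomputable def rstate (U : ℕ → Matrix (Ω × (Fin n × Bool)) (Ω × (Fin n × Bool)) ℝ)
    (s : Ω × (Fin n × Bool)) (x : Fin n → Bool) : ℕ → Ω × (Fin n × Bool) → ℝ
  | 0 => U 0 *ᵥ Pi.single s 1
  | t + 1 => U (t + 1) *ᵥ rO x (rstate U s x t)

lemma rstate_congr {U U' : ℕ → Matrix (Ω × (Fin n × Bool)) (Ω × (Fin n × Bool)) ℝ}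
    (s : Ω × (Fin n × Bool)) (x : Fin n → Bool) :
    ∀ T, (∀ t ≤ T, U t = U' t) → rstate U s x T = rstate U' s x T
  | 0, h => by simp only [rstate, h 0 le_rfl]
  | T + 1, h => by
    simp only [rstate, h (T + 1) le_rfl, rstate_congr s x T fun t ht => h t (by omega)]

/-- embedding of the work space -/
def emb (i0 : Fin n) (ψ : Ω → ℝ) : Ω × (Fin n × Bool) → ℝ :=
  fun r => ψ r.1 * (Pi.single (i0, false) (1 : ℝ) : Fin n × Bool → ℝ) r.2

lemma emb_dot (i0 : Fin n) (ψ : Ω → ℝ) : emb i0 ψ ⬝ᵥ emb i0 ψ = ψ ⬝ᵥ ψ := by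
  simp only [dotProduct, emb]
  rw [Fintype.sum_prod_type]
  refine sum_congr rfl fun ω _ => ?_
  rw [sum_eq_single (i0, false)]
  · simp
  · intro b _ hb; simp [hb]
  · simp

lemma sg_xor (a b : Bool) : sg (xor a b) = sg a * sg b := by cases a <;> cases b <;> simp

lemma sim_core (i0 : Fin n) (s : Ω × (Fin n × Bool)) {v : Ω → ℝ} (hv : v ⬝ᵥ v = 1) :
    ∀ {T : ℕ} {A : (Fin n → Bool) → Matrix Ω Ω ℝ}, Ops T A →
    ∀ P : Matrix (Ω × (Fin n × Bool)) (Ω × (Fin n × Bool)) ℝ, Pᵀ * P = 1 →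
    ∃ U : ℕ → Matrix (Ω × (Fin n × Bool)) (Ω × (Fin n × Bool)) ℝ, (∀ t, (U t)ᵀ * U t = 1) ∧
      ∀ x, rstate U s x T = P *ᵥ emb i0 (A x *ᵥ v)
  | 0, _, ⟨U, hU, h⟩, P, hP => by
    obtain ⟨H, hH, e⟩ := exists_orth (Pi.single s 1) (P *ᵥ emb i0 (U *ᵥ v)) (by simp)
      (by rw [dot_orth hP, emb_dot, dot_orth hU, hv])
    exact ⟨fun _ => H, fun _ => hH, fun x => by simp only [rstate, e, h x]⟩
  | T + 1, _, ⟨U, pos, B, hU, hB, h⟩, P, hP => by
    set r : ℝ := √(1 / 2) with hr
    have hr2 : r * r = 1 / 2 := Real.mul_self_sqrt (by norm_num)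
    let tg : Ω → Fin n × Bool → ℝ := fun ω q =>
      (pos ω).elim (if q.1 = i0 then r else 0) (fun i => if q.1 = i then r * sg q.2 else 0)
    have htg : ∀ ω, tg ω ⬝ᵥ tg ω = 1 := by
      intro ω
      simp only [dotProduct, tg, Fintype.sum_prod_type]
      cases pos ω <;> simp [hr2] <;> norm_num
    choose H hH hHe using fun ω => exists_orth (Pi.single (i0, false) 1) (tg ω) (by simp) (htg ω)
    obtain ⟨M1, ⟨P1, hP1, eM1⟩, e1⟩ := Ops.exists_right (I := Fin n) (Ω1 := Ω)
      (C := fun ω _ => H ω) fun ω => Ops.const (hH ω)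
    obtain ⟨M2, ⟨L, hL, eM2⟩, e2⟩ := Ops.exists_left (I := Fin n) (Ω2 := Fin n × Bool)
      (Ops.const hU)
    simp only [eM1, eM2] at e1 e2
    have f1 : ∀ ψ : Ω → ℝ, P1 *ᵥ emb i0 ψ = fun q => ψ q.1 * tg q.1 q.2 := by
      intro ψ; funext ⟨a, b⟩
      rw [e1 default, ← hHe, show (fun j => emb i0 ψ (a, j)) =
        ψ a • (Pi.single (i0, false) (1 : ℝ) : Fin n × Bool → ℝ) from rfl, mulVec_smul]
      rfl
    have f2 : ∀ ψ : Ω → ℝ, L *ᵥ emb i0 ψ = emb i0 (U *ᵥ ψ) := by
      intro ψ; funext ⟨a, b⟩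
      rw [e2 default]
      simp only [emb, mulVec, dotProduct, sum_mul, mul_assoc]
    have f3 : ∀ x (ψ : Ω → ℝ), rO x (P1 *ᵥ emb i0 ψ) = P1 *ᵥ emb i0 (phq pos x *ᵥ ψ) := by
      intro x ψ
      rw [f1, f1]
      funext ⟨a, i, b⟩
      simp only [rO, tg, phq, mulVec_diagonal]
      cases pos a with
      | none => simp
      | some j =>
        simp only [Option.elim]
        split_ifs with hij
        · rw [sg_xor, hij]; ring
        · simp
    obtain ⟨U', hU', e⟩ := sim_core i0 s hv hB P1 hP1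
    refine ⟨fun t => if t ≤ T then U' t else P * (L * P1ᵀ), fun t => ?_, fun x => ?_⟩
    · dsimp only
      split_ifs
      · exact hU' t
      · exact orth_mul hP (orth_mul hL (by simpa using orth_symm hP1))
    · simp only [rstate]
      rw [if_neg (by omega), rstate_congr (U' := U') s x T (fun t ht => if_pos ht), e, f3,
        mulVec_mulVec, Matrix.mul_assoc, Matrix.mul_assoc, hP1, Matrix.mul_one, ← mulVec_mulVec, f2,
        h x]
      simp only [mulVec_mulVec]

end

theorem Samp.qcomputes {n : ℕ} (hn : 0 < n) {T : ℕ} {μ : (Fin n → Bool) → Bool → ℝ} (h : Samp T μ)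
    (f : (Fin n → Bool) → Bool) (hf : ∀ x, 2 / 3 ≤ μ x (f x)) : QComputes f T := by
  obtain ⟨Ω, _, _, A, v, out, hA, hv, h⟩ := h
  have hne : Nonempty Ω := by
    by_contra hc
    rw [not_nonempty_iff] at hc
    simp [dotProduct] at hv
  obtain ⟨ω0⟩ := hne
  let i0 : Fin n := ⟨0, hn⟩
  obtain ⟨U, hU, e⟩ := sim_core i0 (ω0, i0, false) hv hA 1 (by simp)
  let w := Fintype.card Ω
  let eΩ : Fin w ≃ Ω := (Fintype.equivFin Ω).symm
  let E : Reg n w ≃ Ω × (Fin n × Bool) :=
    { toFun := fun r => (eΩ r.2.2, r.1, r.2.1)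
      invFun := fun q => (q.2.1, q.2.2, eΩ.symm q.1)
      left_inv := fun r => by simp
      right_inv := fun q => by simp }
  let V : ℕ → Matrix (Reg n w) (Reg n w) ℂ := fun t => ((U t).submatrix E E).map Complex.ofReal
  have hV : ∀ t (φ : Ω × (Fin n × Bool) → ℝ),
      V t *ᵥ (fun r => (φ (E r) : ℂ)) = fun r => ((U t *ᵥ φ) (E r) : ℂ) := by
    intro t φ; funext r
    simp only [V, mulVec, dotProduct, map_apply, submatrix_apply]
    rw [← E.sum_comp]; push_cast; rfl
  have key : ∀ x t, qstate V (E.symm (ω0, i0, false)) x t =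
      fun r => (rstate U (ω0, i0, false) x t (E r) : ℂ) := by
    intro x t
    induction t with
    | zero =>
      simp only [qstate, rstate]
      rw [← hV]
      congr 1; funext r
      by_cases hr : r = E.symm (ω0, i0, false)
      · subst hr; simp
      · rw [Pi.single_eq_of_ne hr, Pi.single_eq_of_ne (fun hc => hr (by rw [← hc]; simp))]; simp
    | succ t ih =>
      simp only [qstate, rstate]
      rw [← hV, ih]
      congr 1; funext r
      simp only [oracle, mulVec, dotProduct, of_apply]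
      rw [sum_eq_single (r.1, xor r.2.1 (x r.1), r.2.2)]
      · simp [rO, E]
      · rintro ⟨a, b, c⟩ _ hq
        rw [if_neg, zero_mul]
        intro hc; apply hq; rw [hc]; simp
      · simp
  refine ⟨w, V, E.symm (ω0, i0, false), fun r => out (E r).1, fun t => ?_, fun x => ?_⟩
  · rw [Matrix.mem_unitaryGroup_iff']
    have : star (V t) = ((U t)ᵀ.submatrix E E).map Complex.ofReal := by
      ext a b; simp [V, star_apply]
    rw [this]
    have h2 : ∀ M N : Matrix (Reg n w) (Reg n w) ℝ,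
        M.map Complex.ofReal * N.map Complex.ofReal = (M * N).map Complex.ofReal :=
      fun M N => (Matrix.map_mul (f := Complex.ofRealHom)).symm
    rw [h2, submatrix_mul_equiv, hU, submatrix_one_equiv]
    exact Matrix.map_one _ (by simp) (by simp)
  · refine (hf x).trans (le_of_eq ?_)
    have := h x (fun b => if b = f x then 1 else 0)
    simp only [mul_ite, mul_one, mul_zero, sum_ite_eq', mem_univ, if_true] at this
    rw [this, key, e, sum_filter]
    simp only [Complex.norm_real, Real.norm_eq_abs, sq_abs, one_mulVec]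
    rw [E.sum_comp (fun q => if out q.1 = f x then emb i0 (A x *ᵥ v) q ^ 2 else 0),
      Fintype.sum_prod_type]
    refine sum_congr rfl fun ω _ => ?_
    rw [sum_eq_single (i0, false)]
    · simp [emb]
    · intro b _ hb; simp [emb, hb]
    · simp

end Vale.Agent.P362
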