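import Vale.Agent.P362.Hard
import Vale.Agent.P362.Sim

/-! Forrelation for the Hadamard matrix: quantum test and fast transform transcripts. -/

set_option linter.unusedSectionVars false

namespace Vale.Agent.P362

open Finset Matrix

/-- bit strings of length `D` -/
abbrev Idx (D : ℕ) : Type := Fin D → Bool

/-- integer sign -/
def sgZ (b : Bool) : ℤ := if b = true then -1 else 1

lemma cast_sgZ (b : Bool) : (sgZ b : ℝ) = sg b := by cases b <;> simp [sgZ]
lemma abs_sgZ (b : Bool) : |sgZ b| = 1 := by cases b <;> simp [sgZ]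

variable {D K : ℕ}

/-- transform on the first `d` coordinates -/
def hadZ (d : ℕ) (i j : Idx D) : ℤ :=
  ∏ e : Fin D, if (e : ℕ) < d then sgZ (i e && j e) else if i e = j e then 1 else 0

/-- butterflies -/
def wht (y : Idx D → ℤ) : ℕ → Idx D → ℤ
  | 0, i => y i
  | d + 1, i => if h : d < D then wht y d (Function.update i ⟨d, h⟩ false) +
      sgZ (i ⟨d, h⟩) * wht y d (Function.update i ⟨d, h⟩ true) else 0

lemma hadZ_succ (e : Fin D) (i j : Idx D) : hadZ (e + 1) i j =
    hadZ e (Function.update i e false) j + sgZ (i e) * hadZ e (Function.update i e true) j := by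
  have key : ∀ (d : ℕ) (b : Bool), d = e ∨ d = e + 1 → ∏ e' ∈ univ.erase e,
      (if (e' : ℕ) < d then sgZ (Function.update i e b e' && j e') else
        if Function.update i e b e' = j e' then 1 else 0) = ∏ e' ∈ univ.erase e,
      (if (e' : ℕ) < e then sgZ (i e' && j e') else if i e' = j e' then 1 else 0) := by
    intro d b hd
    refine prod_congr rfl fun e' he => ?_
    have h1 := ne_of_mem_erase he
    have h2 : (e' : ℕ) ≠ e := fun h => h1 (Fin.ext h)
    rw [Function.update_of_ne h1]
    have : ((e' : ℕ) < d) = ((e' : ℕ) < e) := propext (by omega)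
    simp only [this]
  have k1 := key (e + 1) (i e) (.inr rfl)
  rw [Function.update_eq_self] at k1
  unfold hadZ
  rw [← mul_prod_erase univ _ (mem_univ e), ← mul_prod_erase univ _ (mem_univ e),
    ← mul_prod_erase univ _ (mem_univ e), k1, key e false (.inl rfl), key e true (.inl rfl)]
  simp only [Function.update_self, lt_irrefl, if_false, Nat.lt_succ_self, if_true]
  rcases Bool.eq_false_or_eq_true (i e) with h1 | h1 <;>
    rcases Bool.eq_false_or_eq_true (j e) with h2 | h2 <;> simp [h1, h2, sgZ]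

lemma wht_eq (y : Idx D → ℤ) : ∀ d, d ≤ D → ∀ i, wht y d i = ∑ j, hadZ d i j * y j
  | 0, _, i => by
    rw [wht, sum_eq_single i]
    · simp [hadZ]
    · intro j _ hj
      obtain ⟨e, he⟩ := Function.ne_iff.1 hj
      rw [hadZ, prod_eq_zero (mem_univ e), zero_mul]
      simp [Ne.symm he]
    · simp
  | d + 1, hd, i => by
    rw [wht, dif_pos (by omega), wht_eq y d (by omega), wht_eq y d (by omega), mul_sum,
      ← sum_add_distrib]
    refine sum_congr rfl fun j _ => ?_
    rw [hadZ_succ ⟨d, by omega⟩]; ring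

lemma abs_wht_le {y : Idx D → ℤ} {B : ℤ} (hy : ∀ i, |y i| ≤ B) : ∀ d i, |wht y d i| ≤ 2 ^ d * B
  | 0, i => by simpa [wht] using hy i
  | d + 1, i => by
    rw [wht]
    split_ifs with h
    · refine (abs_add_le _ _).trans ?_
      rw [abs_mul, abs_sgZ, one_mul, pow_succ]
      linarith [abs_wht_le hy d (Function.update i ⟨d, h⟩ false),
        abs_wht_le hy d (Function.update i ⟨d, h⟩ true)]
    · have := (abs_nonneg _).trans (hy i)
      simp only [abs_zero]; positivity

/-- normalising constant -/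
noncomputable def hN (D : ℕ) : ℝ := (√(2 ^ D))⁻¹

lemma hN_pos (D : ℕ) : 0 < hN D := by unfold hN; positivity

lemma hN_sq (D : ℕ) : hN D * hN D * 2 ^ D = 1 := by
  unfold hN
  rw [← mul_inv, Real.mul_self_sqrt (by positivity), inv_mul_cancel₀ (by positivity)]

lemma hN_le_one (D : ℕ) : hN D ≤ 1 :=
  inv_le_one_of_one_le₀ (Real.one_le_sqrt.2 (one_le_pow₀ (by norm_num)))

/-- the normalised Hadamard matrix -/
noncomputable def Had (D : ℕ) (i j : Idx D) : ℝ := hN D * ∏ e, sg (i e && j e)

lemma Had_symm (i j : Idx D) : Had D i j = Had D j i := by simp [Had, Bool.and_comm]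

lemma abs_Had (i j : Idx D) : |Had D i j| ≤ hN D := by
  simp [Had, abs_mul, abs_prod, abs_sg, abs_of_pos (hN_pos D)]

lemma Had_zero (j : Idx D) : Had D (fun _ => false) j = hN D := by simp [Had]

lemma Had_eq (i j : Idx D) : Had D i j = hN D * hadZ D i j := by simp [Had, hadZ, cast_sgZ]

lemma Had_orth (i l : Idx D) : ∑ j, Had D i j * Had D l j = if i = l then 1 else 0 := by
  have : ∀ j : Idx D, Had D i j * Had D l j =
      hN D * hN D * ∏ e, sg (i e && j e) * sg (l e && j e) := fun j => by
    rw [Had, Had, prod_mul_distrib]; ring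
  simp only [this]
  rw [← mul_sum, sum_prod_eq (fun e b => sg (i e && b) * sg (l e && b))]
  split_ifs with h
  · subst h; simp [sg_mul_self, one_add_one_eq_two, hN_sq]
  · obtain ⟨e, he⟩ := Function.ne_iff.1 h
    rw [prod_eq_zero (mem_univ e), mul_zero]
    rcases Bool.eq_false_or_eq_true (i e) with h1 | h1 <;>
      rcases Bool.eq_false_or_eq_true (l e) with h2 | h2 <;> simp_all

lemma Had_col (j : Idx D) : ∑ i, Had D i j ^ 2 = 1 := by
  simpa [sq, Had_symm j] using Had_orth j j

/-- unnormalised states of the forrelation circuit -/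
def uZ (x : Fin (K + 1) × Idx D → Bool) : ℕ → Idx D → ℤ
  | 0 => fun _ => 1
  | m + 1 => wht (fun i => sgZ (x (Fin.ofNat (K + 1) m, i)) * uZ x m i) D

lemma uZ_succ (x : Fin (K + 1) × Idx D → Bool) (m : ℕ) (i : Idx D) :
    hN D ^ (m + 1) * (uZ x (m + 1) i : ℝ) =
      ∑ j, Had D i j * (sg (x (Fin.ofNat (K + 1) m, j)) * (hN D ^ m * uZ x m j)) := by
  rw [uZ, wht_eq _ D le_rfl]
  push_cast
  rw [mul_sum]
  exact sum_congr rfl fun j _ => by rw [Had_eq, cast_sgZ]; ring

lemma abs_uZ_le (x : Fin (K + 1) × Idx D → Bool) : ∀ m i, |uZ x m i| ≤ 2 ^ (m * D)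
  | 0, i => by simp [uZ]
  | m + 1, i => by
    rw [uZ, Nat.succ_mul, pow_add, mul_comm]
    exact abs_wht_le (fun j => by rw [abs_mul, abs_sgZ, one_mul]; exact abs_uZ_le x m j) D i

lemma forr_eq (x : Fin (K + 1) × Idx D → Bool) :
    forr (Had D) x = hN D * (hN D ^ (K + 1) * uZ x (K + 1) (fun _ => false)) := by
  have h := chain (K := K) (fun m τ => cf (Had D) m τ * (∏ l ∈ Rs m τ, sg (x l)) *
    (hN D ^ (m : ℕ) * uZ x m (τ m))) (fun i => sg (x (Fin.last K, i)) * (hN D ^ K * uZ x K i))
    (fun τ => by simp [cf_last, Rs_last]) (fun κ τ => by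
      rw [Fin.val_succ, uZ_succ, mul_sum]
      refine sum_congr rfl fun j _ => ?_
      have : Fin.ofNat (K + 1) κ = κ.castSucc := by
        ext; simp
      rw [cf_step, Rs_step, prod_insert (notMem_Rs κ τ j), Function.update_self, this,
        Had_symm j, Fin.val_castSucc]
      ring)
  have e : Fin.ofNat (K + 1) K = Fin.last K := by ext; simp
  rw [uZ_succ, e]
  simp only [Had_zero, ← mul_sum, ← h]
  simp only [forr, Fin.val_zero, pow_zero, uZ, Int.cast_one, mul_one, mul_sum]
  refine sum_congr rfl fun τ _ => ?_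
  have h1 := hN_sq D
  have h2 : (Fintype.card (Idx D) : ℝ) = 2 ^ D := by simp
  rw [h2, div_eq_mul_inv, show ((2 : ℝ) ^ D)⁻¹ = hN D * hN D from
    (eq_inv_of_mul_eq_one_left h1).symm]
  ring

theorem samp_forr (K D : ℕ) :
    Samp (K + 1) (fun (x : Fin (K + 1) × Idx D → Bool) b => (1 + sg b * forr (Had D) x) / 2) := by
  let Hm : Matrix (Idx D) (Idx D) ℝ := Matrix.of (Had D)
  have hH : Hmᵀ * Hm = 1 := by
    ext i l
    simp only [Hm, Matrix.mul_apply, transpose_apply, of_apply, one_apply, ← Had_orth]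
    exact sum_congr rfl fun j _ => by rw [Had_symm j, Had_symm j]
  have key : ∀ m : ℕ, ∃ A : (Fin (K + 1) × Idx D → Bool) → Matrix (Idx D) (Idx D) ℝ, Ops m A ∧
      ∀ x, A x *ᵥ Pi.single (fun _ => false) 1 = fun i => hN D * (hN D ^ m * uZ x m i) := by
    intro m
    induction m with
    | zero =>
      refine ⟨fun _ => Hm, Ops.const hH, fun x => ?_⟩
      funext i
      simp [Hm, uZ, Had_symm i, Had_zero]
    | succ m ih =>
      obtain ⟨A, hA, e⟩ := ih
      refine ⟨_, ⟨Hm, fun i => some (Fin.ofNat (K + 1) m, i), A, hH, hA, fun _ => rfl⟩, fun x => ?_⟩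
      funext i
      rw [← mulVec_mulVec, ← mulVec_mulVec, e, uZ_succ, mul_sum]
      simp only [mulVec, dotProduct, Hm, of_apply]
      refine sum_congr rfl fun j _ => ?_
      have := mulVec_diagonal (fun ω : Idx D => sg (x (Fin.ofNat (K + 1) m, ω)))
        (fun i => hN D * (hN D ^ m * uZ x m i)) j
      simp only [mulVec, dotProduct] at this
      simp only [phq, Option.elim, this]; ring
  obtain ⟨A, hA, e⟩ := key (K + 1)
  refine (Samp.test hA (v := Pi.single (fun _ => false) 1) (by simp)).congr fun x b => ?_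
  rw [e, forr_eq]; simp

lemma abs_forr_le (x : Fin (K + 1) × Idx D → Bool) : |forr (Had D) x| ≤ 1 := by
  have h := (samp_forr K D).isDist x
  have h1 := h.nn true
  have h2 := h.nn false
  simp only [sg_true, sg_false] at h1 h2
  rw [abs_le]; constructor <;> linarith

/-- nodes of the transcript -/
abbrev Node (K D : ℕ) : Type := Fin (K + 1) × Fin (D + 1) × Idx D

theorem exists_slp (K D : ℕ) : ∃ (p1 p2 : Node K D → Node K D) (qq : Node K D → Fin (K + 1) × Idx D)
    (op : Node K D → ℤ → ℤ → Bool → ℤ) (o : Node K D)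
    (tv : (Fin (K + 1) × Idx D → Bool) → Node K D → ℤ) (c : ℝ),
    (∀ x v, tv x v = op v (tv x (p1 v)) (tv x (p2 v)) (x (qq v))) ∧
    (∀ x (Z : Node K D → ℤ), (∀ v, Z v = op v (Z (p1 v)) (Z (p2 v)) (x (qq v))) → Z = tv x) ∧
    (∀ x v, |tv x v| ≤ 2 ^ ((K + 1) * D)) ∧ (∀ x, forr (Had D) x = c * tv x o) := by
  let p : Bool → Node K D → Node K D := fun b v =>
    Fin.cases (motive := fun _ => Node K D) (⟨v.1 - 1, by omega⟩, Fin.last D, v.2.2)
      (fun e => (v.1, e.castSucc, Function.update v.2.2 e b)) v.2.1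
  let op : Node K D → ℤ → ℤ → Bool → ℤ := fun v a b c =>
    Fin.cases (motive := fun _ => ℤ) (sgZ c * if (v.1 : ℕ) = 0 then 1 else a)
      (fun e => a + sgZ (v.2.2 e) * b) v.2.1
  let tv : (Fin (K + 1) × Idx D → Bool) → Node K D → ℤ := fun x v =>
    wht (fun i => sgZ (x (v.1, i)) * uZ x v.1 i) v.2.1 v.2.2
  have h1 : ∀ x v, tv x v = op v (tv x (p false v)) (tv x (p true v)) (x (v.1, v.2.2)) := by
    rintro x ⟨⟨m, hm⟩, d, i⟩
    induction d using Fin.cases with
    | zero =>
      simp only [tv, op, p, Fin.cases_zero, Fin.val_zero, wht, Fin.val_last]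
      congr 1
      cases m with
      | zero => simp [uZ]
      | succ m =>
        have : Fin.ofNat (K + 1) m = ⟨m, by omega⟩ := by
          ext; simp [Nat.mod_eq_of_lt (show m < K + 1 by omega)]
        simp only [uZ, this]
        simp
    | succ e =>
      simp only [tv, op, p, Fin.cases_succ, Fin.val_succ, wht, Fin.val_castSucc, dif_pos e.2]
  refine ⟨p false, p true, fun v => (v.1, v.2.2), op, (Fin.last K, Fin.last D, fun _ => false), tv,
    hN D * hN D ^ (K + 1), h1, fun x Z hZ => ?_, fun x v => ?_, fun x => ?_⟩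
  · have key : ∀ (m : ℕ) (hm : m < K + 1) (d : Fin (D + 1)) (i : Idx D),
        Z (⟨m, hm⟩, d, i) = tv x (⟨m, hm⟩, d, i) := by
      intro m
      induction m using Nat.strong_induction_on with
      | _ m ih =>
        intro hm d
        induction d using Fin.induction with
        | zero =>
          intro i
          rw [hZ, h1]
          simp only [op, p, Fin.cases_zero]
          split_ifs with h
          · rfl
          · rw [ih (m - 1) (by omega)]
        | succ e ihd =>
          intro i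
          rw [hZ, h1]
          simp only [op, p, Fin.cases_succ, ihd]
    funext ⟨⟨m, hm⟩, d, i⟩
    exact key m hm d i
  · have := abs_wht_le (y := fun i => sgZ (x (v.1, i)) * uZ x v.1 i) (B := 2 ^ (v.1 * D))
      (fun j => by rw [abs_mul, abs_sgZ, one_mul]; exact abs_uZ_le x _ j) v.2.1 v.2.2
    refine this.trans ?_
    rw [← pow_add]
    refine pow_le_pow_right₀ (by norm_num) ?_
    have h2 : (v.1 : ℕ) * D ≤ K * D := Nat.mul_le_mul_right _ (by omega)
    have h3 := v.2.1.2
    rw [Nat.succ_mul]; omega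
  · have e : Fin.ofNat (K + 1) K = Fin.last K := by ext; simp
    rw [forr_eq, uZ, e, mul_assoc]
    rfl

end Vale.Agent.P362
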