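import Vale.Agent.P362.Chain

/-! Hardness of k-fold forrelation for decision trees. -/

set_option linter.unusedSectionVars false

namespace Vale.Agent.P362

open Finset MeasureTheory ProbabilityTheory MvPolynomial Filter

variable {Y : Type} [Fintype Y] [DecidableEq Y] {K : ℕ}

/-- k-fold forrelation with respect to the matrix `H` -/
noncomputable def forr (H : Y → Y → ℝ) (x : Fin (K + 1) × Y → Bool) : ℝ :=
  ∑ τ : Fin (K + 1) → Y, cf H 0 τ / Fintype.card Y * ∏ l ∈ Rs 0 τ, sg (x l)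

lemma DR_chi {ι : Type} [Fintype ι] [DecidableEq ι] (S R : Finset ι) (h : S.card = R.card)
    (z : ι → ℝ) : DR (fun x => ∏ l ∈ S, sg (x l)) R z = if S = R then 1 else 0 := by
  have e : DR (fun x => ∏ l ∈ S, sg (x l)) R z =
      ∏ l, ∑ b, locF R z l b * if l ∈ S then sg b else 1 := by
    rw [DR_eq_Ex, Ex, ← sum_prod_eq]
    refine sum_congr rfl fun x _ => ?_
    rw [prod_mul_distrib, prod_ite_mem, univ_inter]
  rw [e]
  split_ifs with hS
  · subst hS
    refine prod_eq_one fun l _ => ?_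
    by_cases hl : l ∈ S <;> simp [locF_real, hl] <;> ring
  · have : ¬ R ⊆ S := fun hs => hS (eq_of_subset_of_card_le hs h.le).symm
    obtain ⟨l, hl, hl'⟩ := not_subset.1 this
    refine prod_eq_zero (mem_univ l) ?_
    simp [locF_real, hl, hl']; ring

lemma DR_forr (H : Y → Y → ℝ) (τ : Fin (K + 1) → Y) (z : Fin (K + 1) × Y → ℝ) :
    DR (forr H) (Rs 0 τ) z = cf H 0 τ / Fintype.card Y := by
  have : DR (forr H) (Rs 0 τ) z = ∑ τ' : Fin (K + 1) → Y, cf H 0 τ' / Fintype.card Y *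
      DR (fun x => ∏ l ∈ Rs 0 τ', sg (x l)) (Rs 0 τ) z := by
    simp only [DR_eq_Ex, ← Ex_mul, ← Ex_sum]; rfl
  rw [this, sum_eq_single τ]
  · rw [DR_chi _ _ rfl]; simp
  · intro τ' _ h
    rw [DR_chi _ _ (by rw [card_Rs_zero, card_Rs_zero]), if_neg (fun e => h (Rs_zero_inj e)),
      mul_zero]
  · simp

lemma eval_DR {ι κ : Type} [Fintype ι] [DecidableEq ι] (g : κ → ℝ) (F : (ι → Bool) → ℝ)
    (R : Finset ι) (z : ι → MvPolynomial κ ℝ) :
    eval g (DR F R z) = DR F R (fun l => eval g (z l)) := by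
  simpa only [aeval_eq_eval] using map_DR (aeval g) F R z

section
variable (δ : ℝ) (H : Y → Y → ℝ)

/-- the event that all Gaussian coordinates are small -/
def good (g : Fin K × Y → ℝ) : Prop :=
  ∀ j : Fin K × Y, |eval g (Up δ j.1 j.2)| ≤ 1 / 2 ∧ |eval g (Vp δ H j.1 j.2)| ≤ 1 / 2

lemma measurableSet_good : MeasurableSet {g | good (K := K) δ H g} := by
  refine IsClosed.measurableSet ?_
  simp only [good, Set.ofPred_forall]
  refine isClosed_iInter fun j => IsClosed.inter ?_ ?_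
  · exact isClosed_le (MvPolynomial.continuous_eval _).abs continuous_const
  · exact isClosed_le (MvPolynomial.continuous_eval _).abs continuous_const

/-- dominating polynomial on the bad event -/
noncomputable def PW (r : ℕ) : MvPolynomial (Fin K × Y) ℝ :=
  C (3 / 2) * (∏ j : Fin K × Y, (1 + (C 2 * Up δ j.1 j.2) ^ (2 * r)) +
    ∏ j : Fin K × Y, (1 + (C 2 * Vp δ H j.1 j.2) ^ (2 * r)) - C 2)

/-- truncation error -/
noncomputable def terr (n r : ℕ) : ℝ := 3 * ((1 + (2 * δ) ^ (2 * r) * mom (2 * r)) ^ n - 1)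

lemma Lam_PW (hH : ∀ i l, ∑ j, H i j * H l j = if i = l then 1 else 0) (r : ℕ) :
    Lam (PW (K := K) δ H r) = terr δ (K * Fintype.card Y) r := by
  have eA : (∏ j : Fin K × Y, (1 + (C 2 * Up δ j.1 j.2) ^ (2 * r)) : MvPolynomial (Fin K × Y) ℝ) =
      ∏ j : Fin K × Y, (1 + (C (2 * δ) * X j) ^ (2 * r)) := by
    simp only [Up, map_mul, mul_assoc]
  have eB : (∏ j : Fin K × Y, (1 + (C 2 * Vp δ H j.1 j.2) ^ (2 * r)) : MvPolynomial (Fin K × Y) ℝ) =
      aeval (fun i : Fin K × Y => ∑ j : Fin K × Y, C (if i.1 = j.1 then H i.2 j.2 else 0) * X j)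
        (∏ j : Fin K × Y, (1 + (C (2 * δ) * X j) ^ (2 * r)) : MvPolynomial (Fin K × Y) ℝ) := by
    simp only [map_prod, map_add, map_one, map_pow, map_mul, aeval_C, aeval_X, algebraMap_eq]
    refine prod_congr rfl fun j _ => ?_
    rw [Vp, mul_assoc, Fintype.sum_prod_type, sum_eq_single j.1]
    · simp
    · intro b _ hb; simp [hb.symm]
    · simp
  rw [PW, Lam_C_mul, map_sub, map_add, eA, eB, Lam_rot, Lam_prod_pow, ← mul_one (C 2), Lam_C_mul,
    Lam_one, terr, Fintype.card_prod, Fintype.card_fin]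
  · ring
  · rintro ⟨a, i⟩ ⟨b, l⟩
    rw [Fintype.sum_prod_type, sum_eq_single a]
    · by_cases hab : a = b
      · subst hab; simp [hH]
      · simp [hab, Ne.symm hab]
    · intro c _ hc; simp [hc.symm]
    · simp

lemma max_sq_le (u : ℝ) {r : ℕ} (hr : 0 < r) : max 1 |u| ^ 2 ≤ 1 + (2 * u) ^ (2 * r) := by
  have h0 : 0 ≤ (2 * u) ^ (2 * r) := (even_two_mul r).pow_nonneg _
  rcases le_total |u| 1 with h | h
  · rw [max_eq_left h]; linarith
  · rw [max_eq_right h, ← (even_two_mul r).pow_abs, abs_mul, abs_two]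
    have h1 : |u| ^ 2 ≤ (2 * |u|) ^ 2 := by nlinarith
    have h2 : (2 * |u|) ^ 2 ≤ (2 * |u|) ^ (2 * r) := pow_le_pow_right₀ (by linarith) (by omega)
    linarith

lemma max_mul_le (a b : ℝ) : max 1 |a * b| ≤ max 1 |a| * max 1 |b| := by
  have h1 := le_max_left 1 |a|
  have h2 := le_max_left 1 |b|
  refine max_le (by nlinarith) ?_
  rw [abs_mul]
  exact mul_le_mul (le_max_right _ _) (le_max_right _ _) (abs_nonneg _) (by linarith)

lemma one_le_prodR {ι : Type} {s : Finset ι} {f : ι → ℝ} (h : ∀ i ∈ s, 1 ≤ f i) :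
    1 ≤ ∏ i ∈ s, f i := by
  simpa using prod_le_prod (s := s) (f := fun _ => (1 : ℝ)) (fun _ _ => zero_le_one) h

lemma one_le_prod_pow {ι : Type} [Fintype ι] (u : ι → ℝ) (r : ℕ) :
    1 ≤ ∏ j, (1 + (2 * u j) ^ (2 * r)) :=
  one_le_prodR fun j _ => by have := (even_two_mul r).pow_nonneg (2 * u j); linarith

lemma two_le_prod_pow {ι : Type} [Fintype ι] [DecidableEq ι] (u : ι → ℝ) (r : ℕ) {j : ι}
    (hj : ¬ |u j| ≤ 1 / 2) : 2 ≤ ∏ j, (1 + (2 * u j) ^ (2 * r)) := by
  rw [← mul_prod_erase univ _ (mem_univ j)]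
  have h1 : 1 ≤ ∏ j ∈ univ.erase j, (1 + (2 * u j) ^ (2 * r)) :=
    one_le_prodR fun j _ => by have := (even_two_mul r).pow_nonneg (2 * u j); linarith
  have h2 : 1 ≤ (2 * u j) ^ (2 * r) := by
    rw [← (even_two_mul r).pow_abs, abs_mul, abs_two]
    exact one_le_pow₀ (by linarith)
  nlinarith

lemma eval_PW (r : ℕ) (g : Fin K × Y → ℝ) : eval g (PW δ H r) =
    3 / 2 * (∏ j : Fin K × Y, (1 + (2 * eval g (Up δ j.1 j.2)) ^ (2 * r)) +
      ∏ j : Fin K × Y, (1 + (2 * eval g (Vp δ H j.1 j.2)) ^ (2 * r)) - 2) := by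
  simp only [PW, map_mul, map_sub, map_add, map_prod, map_pow, eval_C, map_one]

lemma PW_nonneg (r : ℕ) (g : Fin K × Y → ℝ) : 0 ≤ eval g (PW δ H r) := by
  rw [eval_PW]
  have h1 := one_le_prod_pow (fun j : Fin K × Y => eval g (Up δ j.1 j.2)) r
  have h2 := one_le_prod_pow (fun j : Fin K × Y => eval g (Vp δ H j.1 j.2)) r
  linarith

lemma W_le_PW {r : ℕ} (hr : 0 < r) {s : ℝ} (hs : |s| ≤ 1) {g : Fin K × Y → ℝ} (hg : ¬ good δ H g) :
    ∏ l, max 1 |eval g (zp δ H s l)| ≤ eval g (PW δ H r) := by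
  set A := ∏ j : Fin K × Y, (1 + (2 * eval g (Up δ j.1 j.2)) ^ (2 * r)) with hA
  set B := ∏ j : Fin K × Y, (1 + (2 * eval g (Vp δ H j.1 j.2)) ^ (2 * r)) with hB
  have h1 : 1 ≤ A := one_le_prod_pow (fun j : Fin K × Y => eval g (Up δ j.1 j.2)) r
  have h2 : 1 ≤ B := one_le_prod_pow (fun j : Fin K × Y => eval g (Vp δ H j.1 j.2)) r
  have h3 : 3 ≤ A + B := by
    simp only [good, not_forall, not_and_or] at hg
    obtain ⟨j, hj | hj⟩ := hg
    · have : 2 ≤ A := two_le_prod_pow (fun j : Fin K × Y => eval g (Up δ j.1 j.2)) r hj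
      linarith
    · have : 2 ≤ B := two_le_prod_pow (fun j : Fin K × Y => eval g (Vp δ H j.1 j.2)) r hj
      linarith
  set a := ∏ j : Fin K × Y, max 1 |eval g (Up δ j.1 j.2)| with ha
  set b := ∏ j : Fin K × Y, max 1 |eval g (Vp δ H j.1 j.2)| with hb
  have h4 : a ^ 2 ≤ A := by
    rw [ha, ← prod_pow]; exact prod_le_prod (fun _ _ => by positivity) fun j _ => max_sq_le _ hr
  have h5 : b ^ 2 ≤ B := by
    rw [hb, ← prod_pow]; exact prod_le_prod (fun _ _ => by positivity) fun j _ => max_sq_le _ hr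
  have h6 : ∏ l, max 1 |eval g (zp δ H s l)| ≤ b * a := by
    have e1 : ∏ l : Fin (K + 1) × Y, max 1 |eval g (ap δ H s l.1 l.2)| = b := by
      rw [hb, Fintype.prod_prod_type, Fintype.prod_prod_type, Fin.prod_univ_castSucc]
      simp [ap, hs]
    have e2 : ∏ l : Fin (K + 1) × Y, max 1 |eval g (bp δ l.1 l.2)| = a := by
      rw [ha, Fintype.prod_prod_type, Fintype.prod_prod_type, Fin.prod_univ_succ]
      simp [bp]
    rw [← e1, ← e2, ← prod_mul_distrib]
    refine prod_le_prod (fun _ _ => by positivity) fun l _ => ?_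
    rw [zp, map_mul]; exact max_mul_le _ _
  rw [eval_PW, ← hA, ← hB]
  nlinarith [sq_nonneg (a - b)]

lemma good_abs_le (hK : 0 < K) {s : ℝ} (hs : |s| ≤ 1) {g : Fin K × Y → ℝ} (hg : good δ H g)
    (l : Fin (K + 1) × Y) : |eval g (zp δ H s l)| ≤ 1 / 2 := by
  obtain ⟨m, i⟩ := l
  rw [zp, map_mul, abs_mul]
  have hb : ∀ m, |eval g (bp δ m i)| ≤ 1 := by
    intro m
    induction m using Fin.cases with
    | zero => simp [bp]
    | succ κ => have := (hg (κ, i)).1; simp only [bp, Fin.cases_succ]; linarith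
  induction m using Fin.lastCases with
  | last =>
    obtain ⟨κ, hκ⟩ := Fin.exists_succ_eq_of_ne_zero (x := Fin.last K)
      (fun e => by have := congrArg Fin.val e; simp at this; omega)
    have h1 : |eval g (bp δ (Fin.last K) i)| ≤ 1 / 2 := by
      rw [← hκ]; exact (hg (κ, i)).1
    have h2 : |eval g (ap δ H s (Fin.last K) i)| ≤ 1 := by simpa [ap] using hs
    nlinarith [abs_nonneg (eval g (bp δ (Fin.last K) i))]
  | cast κ =>
    have h1 : |eval g (ap δ H s κ.castSucc i)| ≤ 1 / 2 := by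
      simp only [ap, Fin.lastCases_castSucc]; exact (hg (κ, i)).2
    nlinarith [abs_nonneg (eval g (ap δ H s κ.castSucc i)), hb κ.castSucc]

lemma trunc_bound (r : ℕ) (p : MvPolynomial (Fin K × Y) ℝ) (f : (Fin K × Y → ℝ) → ℝ)
    (hf : Integrable f (gam _)) {a b : ℝ} (ha : 0 ≤ a) (hb : 0 ≤ b)
    (h1 : ∀ g, good δ H g → |f g - eval g p| ≤ a)
    (h2 : ∀ g, ¬ good δ H g → |f g - eval g p| ≤ b * eval g (PW δ H r)) :
    |∫ g, f g ∂(gam _) - Lam p| ≤ a + b * Lam (PW (K := K) δ H r) := by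
  rw [Lam_apply, ← integral_sub hf (integrable_eval p), ← Real.norm_eq_abs]
  have hi : Integrable (fun g => a + b * eval g (PW (K := K) δ H r)) (gam _) :=
    (integrable_const a).add ((integrable_eval _).const_mul b)
  refine (norm_integral_le_of_norm_le hi (Eventually.of_forall fun g => ?_)).trans (le_of_eq ?_)
  · have := mul_nonneg hb (PW_nonneg δ H r g)
    by_cases hg : good δ H g
    · exact (h1 g hg).trans (by linarith)
    · exact (h2 g hg).trans (by linarith)
  · rw [integral_add (integrable_const a) ((integrable_eval _).const_mul b), integral_const_mul]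
    simp [Lam_apply]

open Classical in
/-- truncated biases -/
noncomputable def tz (s : ℝ) (g : Fin K × Y → ℝ) (l : Fin (K + 1) × Y) : ℝ :=
  if good δ H g then eval g (zp δ H s l) else 0

/-- the hard distribution -/
noncomputable def Dz (s : ℝ) (x : Fin (K + 1) × Y → Bool) : ℝ :=
  ∫ g, ∏ l, locF ∅ (tz δ H s g) l (x l) ∂(gam (Fin K × Y))

lemma integrable_tz (s : ℝ) (F : (Fin (K + 1) × Y → Bool) → ℝ) :
    Integrable (fun g => DR F ∅ (tz δ H s g)) (gam (Fin K × Y)) := by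
  classical
  have := Integrable.piecewise (μ := gam (Fin K × Y)) (measurableSet_good δ H)
    (integrable_eval (DR F ∅ (zp δ H s))).integrableOn
    (integrable_const (DR F ∅ (fun _ => (0 : ℝ)))).integrableOn
  refine this.congr (Eventually.of_forall fun g => ?_)
  by_cases hg : good δ H g
  · rw [Set.piecewise_eq_of_mem _ _ _ (by exact hg), eval_DR]
    congr 1; funext l; simp [tz, hg]
  · rw [Set.piecewise_eq_of_notMem _ _ _ (by exact hg)]
    congr 1; funext l; simp [tz, hg]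

lemma sum_Dz (s : ℝ) (F : (Fin (K + 1) × Y → Bool) → ℝ) :
    ∑ x, Dz δ H s x * F x = ∫ g, DR F ∅ (tz δ H s g) ∂(gam (Fin K × Y)) := by
  simp only [DR, smul_eq_mul]
  rw [integral_finsetSum]
  · refine sum_congr rfl fun x _ => ?_
    rw [integral_const_mul, mul_comm]; rfl
  · intro x _
    refine (integrable_tz δ H s (fun y => if y = x then F x else 0)).congr
      (Eventually.of_forall fun g => ?_)
    simp [DR]

lemma isDist_Dz (hK : 0 < K) {s : ℝ} (hs : |s| ≤ 1) : IsDist (Dz (K := K) δ H s) := by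
  constructor
  · intro x
    refine integral_nonneg fun g => prod_nonneg fun l _ => ?_
    have : |tz δ H s g l| ≤ 1 / 2 := by
      unfold tz; split_ifs with hg
      · exact good_abs_le δ H hK hs hg l
      · simp
    have := abs_le.1 this
    rw [locF_real, if_neg (notMem_empty _)]
    cases x l <;> simp <;> linarith
  · have := sum_Dz (K := K) δ H s (fun _ => 1)
    simpa [DR_const] using this

lemma Dz_approx {r : ℕ} (hr : 0 < r) {s : ℝ} (hs : |s| ≤ 1) {F : (Fin (K + 1) × Y → Bool) → ℝ}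
    (hF : ∀ x, |F x| ≤ 1) :
    |∑ x, Dz δ H s x * F x - Lam (DR F ∅ (zp δ H s))| ≤ 2 * Lam (PW (K := K) δ H r) := by
  rw [sum_Dz]
  have := trunc_bound δ H r (DR F ∅ (zp δ H s)) _ (integrable_tz δ H s F) (a := 0) (b := 2) le_rfl
    (by norm_num) (fun g hg => by
      rw [eval_DR, show tz δ H s g = fun l => eval g (zp δ H s l) from
        funext fun l => by simp [tz, hg]]
      simp) (fun g hg => by
      have h1 := W_le_PW δ H hr hs hg
      have h2 := abs_DR_le hF ∅ (fun l => eval g (zp δ H s l))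
      have h3 := abs_DR_le hF ∅ (tz δ H s g)
      have h4 : ∏ l, max 1 |tz δ H s g l| = 1 := prod_eq_one fun l _ => by simp [tz, hg]
      have h5 : 1 ≤ ∏ l, max 1 |eval g (zp δ H s l)| := one_le_prodR fun l _ => le_max_left _ _
      rw [eval_DR]
      refine (abs_sub _ _).trans ?_
      linarith)
  simpa using this

lemma deriv_bound (hK : 0 < K) {r : ℕ} (hr : 0 < r) {s : ℝ} (hs : |s| ≤ 1)
    {F : (Fin (K + 1) × Y → Bool) → ℝ} {d : ℕ} (hF : HasDepth d F) (c : (Fin (K + 1) → Y) → ℝ)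
    {h : ℝ} (hc : ∀ τ, |c τ| ≤ h) {q : ℕ} (hq : Even q) {t : ℝ} (ht : 1 ≤ t) {G : ℝ} (hG0 : 0 ≤ G)
    (hG : (1 + KK q / t ^ 2) ^ d * ((Fintype.card Y : ℝ) ^ (K + 1) *
      ((KK q * t ^ q * 2 ^ (q + 2)) ^ (K + 1) * h ^ (q + 2))) ≤ G ^ (q + 2)) :
    |∑ τ, c τ * Lam (DR F (Rs 0 τ) (zp δ H s))| ≤
      G + (Fintype.card Y : ℝ) ^ (K + 1) * |h| * Lam (PW (K := K) δ H r) := by
  have hq2 : Even (q + 2) := hq.add even_two
  have hK0 := KK_pos q
  have := trunc_bound δ H r (∑ τ, C (c τ) * DR F (Rs 0 τ) (zp δ H s)) (fun _ => 0)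
    (integrable_const 0) (a := G) (b := (Fintype.card Y : ℝ) ^ (K + 1) * |h|) hG0 (by positivity)
    (fun g hg => by
      simp only [zero_sub, abs_neg, map_sum, map_mul, eval_C, eval_DR]
      let y : Finset (Fin (K + 1) × Y) → ℝ := fun R => ∑ τ, if Rs 0 τ = R then c τ else 0
      have hy : ∀ φ : Finset (Fin (K + 1) × Y) → ℝ → ℝ, (∀ R, φ R 0 = 0) →
          ∑ R, φ R (y R) = ∑ τ, φ (Rs 0 τ) (c τ) := by
        intro φ hφ
        rw [← sum_subset (subset_univ (univ.image (Rs (Y := Y) (K := K) 0))),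
          sum_image (fun a _ b _ e => Rs_zero_inj e)]
        · refine sum_congr rfl fun τ _ => ?_
          simp [y, Rs_zero_inj.eq_iff]
        · intro R _ hR
          have : y R = 0 := sum_eq_zero fun τ _ => if_neg fun e => hR (mem_image.2
            ⟨τ, mem_univ τ, e⟩)
          rw [this, hφ]
      have h1 := growth hq ht (good_abs_le δ H hK hs hg) d F hF y
      rw [hy (fun R a => a * DR F R fun l => eval g (zp δ H s l)) (by simp),
        hy (fun R a => (KK q * t ^ q * 2 ^ (q + 2)) ^ R.card * a ^ (q + 2)) (by simp)] at h1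
      simp only [card_Rs_zero] at h1
      have h2 : ∑ τ, (KK q * t ^ q * 2 ^ (q + 2)) ^ (K + 1) * c τ ^ (q + 2) ≤
          ∑ _τ : Fin (K + 1) → Y, (KK q * t ^ q * 2 ^ (q + 2)) ^ (K + 1) * h ^ (q + 2) := by
        refine sum_le_sum fun τ _ => mul_le_mul_of_nonneg_left ?_ (by positivity)
        rw [← hq2.pow_abs]
        exact pow_le_pow_left₀ (abs_nonneg _) (hc τ) _
      simp only [sum_const, card_univ, Fintype.card_fun, Fintype.card_fin, nsmul_eq_mul,
        Nat.cast_pow] at h2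
      have h3 := (h1.trans (mul_le_mul_of_nonneg_left h2 (by positivity))).trans hG
      rw [← hq2.pow_abs] at h3
      exact le_of_pow_le_pow_left₀ (by omega) hG0 h3)
    (fun g hg => by
      simp only [zero_sub, abs_neg, map_sum, map_mul, eval_C, eval_DR]
      refine (abs_sum_le_sum_abs _ _).trans ?_
      have h1 := W_le_PW δ H hr hs hg
      calc _ ≤ ∑ _τ : Fin (K + 1) → Y, |h| * eval g (PW δ H r) := by
            refine sum_le_sum fun τ _ => ?_
            rw [abs_mul]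
            exact mul_le_mul ((hc τ).trans (le_abs_self h))
              ((abs_DR_le hF.abs_le _ _).trans h1) (abs_nonneg _) (abs_nonneg _)
        _ = _ := by simp [mul_assoc])
  simpa [Lam_C_mul] using this

end

lemma sum_cf_sq [Nonempty Y] (H : Y → Y → ℝ) (hH : ∀ j, ∑ i, H i j ^ 2 = 1) :
    ∑ τ : Fin (K + 1) → Y, cf H 0 τ ^ 2 = Fintype.card Y := by
  have := chain (K := K) (fun m τ => cf (fun i j => H i j ^ 2) m τ) (fun _ => 1)
    (fun τ => cf_last _ _) (fun κ τ => by simp only [cf_step, ← sum_mul, hH, one_mul])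
  simpa [cf_zero, prod_pow] using this

theorem forr_hard [Nonempty Y] (hK : 0 < K) (H : Y → Y → ℝ)
    (hH : ∀ i l, ∑ j, H i j * H l j = if i = l then 1 else 0) (hH' : ∀ j, ∑ i, H i j ^ 2 = 1)
    {h : ℝ} (hh : ∀ i j, |H i j| ≤ h) (hh1 : h ≤ 1)
    (hf : ∀ x : Fin (K + 1) × Y → Bool, |forr H x| ≤ 1) {δ : ℝ} (hδ : δ ^ 2 ≤ 1)
    {r : ℕ} (hr : 0 < r) :
    ∃ D : Bool → (Fin (K + 1) × Y → Bool) → ℝ, (∀ b, IsDist (D b)) ∧
      2 * δ ^ (2 * K) - 4 * terr δ (K * Fintype.card Y) r ≤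
        ∑ x, D true x * forr H x - ∑ x, D false x * forr H x ∧
      ∀ (q : ℕ) (t G : ℝ) (d : ℕ), Even q → 1 ≤ t → 0 ≤ G →
        (1 + KK q / t ^ 2) ^ d * ((Fintype.card Y : ℝ) ^ (K + 1) *
          ((KK q * t ^ q * 2 ^ (q + 2)) ^ (K + 1) * (h ^ K) ^ (q + 2))) ≤ G ^ (q + 2) →
        ∀ F, HasDepth d F → |∑ x, D true x * F x - ∑ x, D false x * F x| ≤
          2 * G + 6 * (Fintype.card Y : ℝ) ^ (K + 1) * terr δ (K * Fintype.card Y) r := by
  have hc : (1 : ℝ) ≤ Fintype.card Y := by exact_mod_cast Fintype.card_pos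
  have hh0 : 0 ≤ h := (abs_nonneg _).trans (hh (Classical.arbitrary Y) (Classical.arbitrary Y))
  have hcf : ∀ τ : Fin (K + 1) → Y, cf (fun j i => δ ^ 2 * H j i) 0 τ = δ ^ (2 * K) * cf H 0 τ := by
    intro τ; simp [cf_zero, prod_mul_distrib, pow_mul]
  refine ⟨fun b => Dz δ H (if b = true then 1 else -1), fun b => isDist_Dz δ H hK ?_, ?_, ?_⟩
  · split_ifs <;> simp
  · obtain ⟨s, hs, e⟩ := psi_diff δ H (forr (K := K) H)
    have h1 := Dz_approx δ H hr (s := 1) (by simp) hf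
    have h2 := Dz_approx δ H hr (s := -1) (by simp) hf
    have h3 : ∀ τ : Fin (K + 1) → Y, Lam (DR (forr H) (Rs 0 τ) (zp δ H s)) = cf H 0 τ / Fintype.card Y := by
      intro τ; simp [Lam_apply, eval_DR, DR_forr]
    have h4 : ∑ τ : Fin (K + 1) → Y, cf (fun j i => δ ^ 2 * H j i) 0 τ *
        Lam (DR (forr H) (Rs 0 τ) (zp δ H s)) =
        δ ^ (2 * K) * (∑ τ : Fin (K + 1) → Y, cf H 0 τ ^ 2) / Fintype.card Y := by
      rw [mul_sum, sum_div]
      exact sum_congr rfl fun τ _ => by rw [h3, hcf]; ring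
    rw [h4, sum_cf_sq H hH', mul_div_cancel_right₀ _ (by linarith)] at e
    rw [Lam_PW δ H hH] at h1 h2
    have := abs_le.1 h1
    have := abs_le.1 h2
    simp only [if_true, Bool.false_eq_true, if_false]
    linarith
  · intro q t G d hq ht hG0 hG F hF
    obtain ⟨s, hs, e⟩ := psi_diff δ H F
    have h1 := Dz_approx δ H hr (s := 1) (by simp) hF.abs_le
    have h2 := Dz_approx δ H hr (s := -1) (by simp) hF.abs_le
    have h3 := deriv_bound δ H hK hr hs hF (cf (fun j i => δ ^ 2 * H j i) 0) (h := h ^ K)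
      (fun τ => by
        rw [cf_zero, abs_prod]
        calc _ ≤ ∏ _κ : Fin K, h := prod_le_prod (fun _ _ => abs_nonneg _) fun κ _ => by
              rw [abs_mul, abs_of_nonneg (sq_nonneg δ)]
              exact (mul_le_of_le_one_left (abs_nonneg _) hδ).trans (hh _ _)
          _ = _ := by simp) hq ht hG0 hG
    have h0 : 0 ≤ Lam (PW (K := K) δ H r) := integral_nonneg fun g => PW_nonneg δ H r g
    rw [Lam_PW δ H hH] at h0 h1 h2 h3
    have h4 : |h ^ K| ≤ 1 := by rw [abs_of_nonneg (by positivity)]; exact pow_le_one₀ hh0 hh1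
    have h5 : (1 : ℝ) ≤ (Fintype.card Y : ℝ) ^ (K + 1) := one_le_pow₀ hc
    set E := terr δ (K * Fintype.card Y) r
    set P := (Fintype.card Y : ℝ) ^ (K + 1)
    have h6 : P * |h ^ K| * E ≤ P * E :=
      mul_le_mul_of_nonneg_right (mul_le_of_le_one_right (by linarith) h4) h0
    have h7 : E ≤ P * E := le_mul_of_one_le_left h0 h5
    have := abs_le.1 h1
    have := abs_le.1 h2
    have := abs_le.1 h3
    simp only [if_true, Bool.false_eq_true, if_false]
    rw [abs_le]
    constructor <;> linarith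

end Vale.Agent.P362
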