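import Vale.Agent.P362.Build

/-! Parameter choice and the fourth power separation. -/

set_option linter.unusedSectionVars false
set_option linter.unnecessarySeqFocus false

namespace Vale.Agent.P362

open Finset Filter

lemma exists_tree {ι : Type} [DecidableEq ι] : ∀ (l : List ι) (f : (ι → Bool) → Bool),
    (∀ x y, (∀ i ∈ l, x i = y i) → f x = f y) →
      ∃ t : DTree ι, t.depth ≤ l.length ∧ ∀ x, t.eval x = f x
  | [], f, h => ⟨.leaf (f fun _ => false), le_rfl, fun x => h _ _ (by simp)⟩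
  | i :: l, f, h => by
    have key : ∀ b, ∃ t : DTree ι, t.depth ≤ l.length ∧
        ∀ x, t.eval x = f (Function.update x i b) := fun b =>
      exists_tree l (fun x => f (Function.update x i b)) fun x y hxy => h _ _ fun j hj => by
        by_cases hji : j = i
        · simp [hji]
        · simp [hji, hxy j (by simpa [hji] using hj)]
    obtain ⟨t0, d0, e0⟩ := key false
    obtain ⟨t1, d1, e1⟩ := key true
    refine ⟨.node i t0 t1, by simp only [DTree.depth, List.length_cons]; omega, fun x => ?_⟩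
    simp only [DTree.eval, e0, e1]
    split_ifs with hx
    · rw [← hx, Function.update_eq_self]
    · rw [← Bool.eq_false_iff.2 hx, Function.update_eq_self]

lemma rcomputes_of_tree {n : ℕ} {f : (Fin n → Bool) → Bool} (t : DTree (Fin n))
    (h : ∀ x, t.eval x = f x) : RComputes f t.depth :=
  ⟨1, fun _ => 1, fun _ => t, by simp, by simp, by simp, fun x => by simp [h]; norm_num⟩

lemma rcomputes_R {n : ℕ} (f : (Fin n → Bool) → Bool) : RComputes f (R f) := by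
  obtain ⟨t, _, h⟩ := exists_tree (univ.toList) f fun x y hxy => by
    rw [show x = y from funext fun i => hxy i (by simp)]
  exact Nat.sInf_mem (s := {q | RComputes f q}) ⟨_, rcomputes_of_tree t h⟩

lemma qcomputes_Q {n : ℕ} (hn : 1 ≤ n) (f : (Fin n → Bool) → Bool) : QComputes f (Q f) := by
  have h := (Det.readAll (id : Fin n → Fin n)).map f
  exact Nat.sInf_mem (s := {T | QComputes f T}) ⟨_, Samp.qcomputes hn h f fun x => by
    simp only [id, if_true]; norm_num⟩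

lemma terr_le {δ : ℝ} {n r : ℕ} (h : n * ((2 * δ) ^ (2 * r) * mom (2 * r)) ≤ 1) :
    terr δ n r ≤ 6 * (n * ((2 * δ) ^ (2 * r) * mom (2 * r))) := by
  have h0 : 0 ≤ (2 * δ) ^ (2 * r) * mom (2 * r) :=
    mul_nonneg ((even_two_mul r).pow_nonneg _) (mom_even_nonneg r)
  unfold terr
  set η := (2 * δ) ^ (2 * r) * mom (2 * r)
  have h1 : (1 + η) ^ n ≤ Real.exp (n * η) := by
    rw [Real.exp_nat_mul]
    exact pow_le_pow_left₀ (by linarith) (by linarith [Real.add_one_le_exp η]) n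
  have h2 := Real.abs_exp_sub_one_le (x := n * η) (by rw [abs_of_nonneg (by positivity)]; exact h)
  rw [abs_of_nonneg (show 0 ≤ n * η by positivity)] at h2
  linarith [le_abs_self (Real.exp (n * η) - 1)]

lemma rho_pow (D : ℕ) : (127 / 128 : ℝ) ^ (128 * (D + 7)) * (2 * 2 ^ D + 32) ≤ 1 / 3 := by
  have h1 : (127 / 128 : ℝ) ^ 128 ≤ 1 / 2 := by norm_num
  have h2 : (127 / 128 : ℝ) ^ (128 * (D + 7)) ≤ (1 / 2) ^ (D + 7) := by
    rw [pow_mul]; exact pow_le_pow_left₀ (by positivity) h1 _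
  have h3 : (1 : ℝ) ≤ 2 ^ D := one_le_pow₀ (by norm_num)
  calc _ ≤ (1 / 2 : ℝ) ^ (D + 7) * (34 * 2 ^ D) :=
        mul_le_mul h2 (by linarith) (by positivity) (by positivity)
    _ = 34 / 128 := by rw [pow_add, one_div_pow]; field_simp; norm_num
    _ ≤ _ := by norm_num

lemma ver_pow (t : ℕ) : t * (3 / 4 : ℝ) ^ (9 * t) ≤ 1 / 3 := by
  have h := one_add_mul_le_pow (a := (1 / 3 : ℝ)) (by norm_num) (9 * t)
  have e : (3 / 4 : ℝ) ^ (9 * t) * (1 + 1 / 3) ^ (9 * t) = 1 := by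
    rw [← mul_pow]; norm_num
  have h0 : 0 < (3 / 4 : ℝ) ^ (9 * t) := by positivity
  push_cast at h
  nlinarith

lemma cost_le {k D g W1 W2 P : ℕ} (hk : k ≤ D) (hW : W1 ≤ W2) (hP : 1 ≤ P) (hW1 : 1 ≤ W2)
    (hg : 10 ^ 9 * (D + 7) ^ 6 ≤ g) :
    1 + 128 * (D + 7) * (2 * (2 * W1) * (D * (32 * D * P * k) + 128 * (D + 7) * (D + 1 + (D + 1))) +
      9 * (128 * (D + 7)) * (2 * W2 * (D + 2 + 3 * (k * D + 2) + 160 * D ^ 2 * P * (k * D + 2)))) ≤
      g * (W2 * P) := by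
  set M := D + 7 with hM
  have hD : D ≤ M := by omega
  have hk' : k ≤ M := by omega
  have hM1 : 1 ≤ M := by omega
  have h1 : k * D + 2 ≤ M ^ 2 := by nlinarith
  have h2 : D * (32 * D * P * k) ≤ 32 * M ^ 5 * P := by
    calc _ ≤ M * (32 * M * P * M) := by gcongr
      _ = 32 * M ^ 3 * P := by ring
      _ ≤ _ := by gcongr <;> omega
  have h3 : 128 * M * (D + 1 + (D + 1)) ≤ 256 * M ^ 5 * P := by
    calc _ ≤ 128 * M * (M + M) := by gcongr <;> omega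
      _ = 256 * M ^ 2 * 1 := by ring
      _ ≤ _ := by gcongr <;> omega
  have h4 : D + 2 + 3 * (k * D + 2) + 160 * D ^ 2 * P * (k * D + 2) ≤ 164 * M ^ 4 * P := by
    have a1 : D + 2 ≤ M ^ 4 * P := by
      calc _ ≤ M ^ 1 * 1 := by rw [pow_one]; omega
        _ ≤ _ := by gcongr <;> omega
    have a2 : k * D + 2 ≤ M ^ 4 * P := by
      calc _ ≤ M ^ 2 * 1 := by omega
        _ ≤ _ := by gcongr <;> omega
    have a3 : 160 * D ^ 2 * P * (k * D + 2) ≤ 160 * M ^ 2 * P * M ^ 2 := by gcongr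
    nlinarith
  have h5 : 1 ≤ M ^ 6 * (W2 * P) := Nat.one_le_iff_ne_zero.2 (by positivity)
  calc _ ≤ M ^ 6 * (W2 * P) + 128 * M * (2 * (2 * W2) * (32 * M ^ 5 * P + 256 * M ^ 5 * P) +
        9 * (128 * M) * (2 * W2 * (164 * M ^ 4 * P))) := by gcongr
    _ = 48513025 * M ^ 6 * (W2 * P) := by ring
    _ ≤ _ := Nat.mul_le_mul_right _ (by omega)

lemma con_le {k D g N P : ℕ} (hk : k ≤ D) (hN : 1 ≤ N) (hP : 1 ≤ P) (hg : 10 ^ 9 * (D + 7) ^ 6 ≤ g) :
    N + (N + (D * (160 * D ^ 2 * P) * (k * ((D + 1) * N)) + D)) ≤ N * P * g := by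
  set M := D + 7 with hM
  have hD : D ≤ M := by omega
  have hk' : k ≤ M := by omega
  have hM1 : 1 ≤ M := by omega
  have h1 : N ≤ N * P * M ^ 6 := by
    calc _ = N * 1 * 1 := by ring
      _ ≤ _ := by gcongr; exact Nat.one_le_pow _ _ hM1
  have h2 : D ≤ N * P * M ^ 6 := by
    calc _ ≤ 1 * 1 * M ^ 1 := by rw [pow_one]; omega
      _ ≤ _ := by gcongr <;> omega
  have h3 : D * (160 * D ^ 2 * P) * (k * ((D + 1) * N)) ≤ 160 * (N * P * M ^ 6) := by
    calc _ ≤ M * (160 * M ^ 2 * P) * (M * (M * N)) := by gcongr; omega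
      _ = 160 * (N * P * M ^ 5) := by ring
      _ ≤ _ := by gcongr <;> omega
  calc _ ≤ N * P * (163 * M ^ 6) := by nlinarith
    _ ≤ _ := Nat.mul_le_mul_left _ (by omega)

lemma G_ok {q k K a : ℕ} {g : ℝ} (hg : 1 ≤ g) (hq : q + 2 = 2 * k ^ 2) (hK : k = K + 1)
    (ha : a + k + 5 = k ^ 2) {d : ℕ} (hd : (d : ℝ) = (g ^ a) ^ 2) :
    (1 + KK q / (g ^ a) ^ 2) ^ d * ((g ^ (2 * k ^ 2)) ^ k *
      ((KK q * (g ^ a) ^ q * 2 ^ (q + 2)) ^ k * ((g ^ (k ^ 2))⁻¹ ^ K) ^ (q + 2))) ≤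
      (max 1 (Real.exp (KK q) * KK q ^ k) * 2 ^ k / g ^ (4 * k)) ^ (q + 2) := by
  have hK0 := KK_pos q
  have hg0 : 0 < g := by linarith
  set s := g ^ a with hs
  have hs1 : 1 ≤ s := one_le_pow₀ hg
  have h1 : (1 + KK q / s ^ 2) ^ d ≤ Real.exp (KK q) := by
    calc _ ≤ Real.exp (KK q / s ^ 2) ^ d :=
          pow_le_pow_left₀ (by positivity) (by linarith [Real.add_one_le_exp (KK q / s ^ 2)]) d
      _ = _ := by rw [← Real.exp_nat_mul, hd]; congr 1; field_simp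
  have h2 : s ^ q ≤ s ^ (q + 2) := pow_le_pow_right₀ hs1 (by omega)
  set C1 := max 1 (Real.exp (KK q) * KK q ^ k) with hC1
  have h3 : Real.exp (KK q) * KK q ^ k ≤ C1 ^ (q + 2) :=
    (le_max_right _ _).trans (le_self_pow₀ (le_max_left _ _) (by omega))
  have h4 : g ^ k * s ^ k * (g ^ (k ^ 2))⁻¹ ^ K = (g ^ (4 * k))⁻¹ := by
    rw [hs, inv_pow, ← pow_mul, ← pow_mul, ← pow_add]
    have : k ^ 2 * K = k + a * k + 4 * k := by subst hK; nlinarith
    rw [this, pow_add _ _ (4 * k)]; field_simp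
  have h5 : (g ^ (2 * k ^ 2)) ^ k = (g ^ k) ^ (q + 2) := by
    rw [hq, ← pow_mul, ← pow_mul, mul_comm]
  calc _ ≤ Real.exp (KK q) * ((g ^ (2 * k ^ 2)) ^ k *
        ((KK q * s ^ (q + 2) * 2 ^ (q + 2)) ^ k * ((g ^ (k ^ 2))⁻¹ ^ K) ^ (q + 2))) := by gcongr
    _ = Real.exp (KK q) * KK q ^ k * (2 ^ k * (g ^ k * s ^ k * (g ^ (k ^ 2))⁻¹ ^ K)) ^ (q + 2) := by
        rw [h5]; simp only [mul_pow, ← pow_mul, mul_comm k (q + 2)]; ring
    _ ≤ C1 ^ (q + 2) * (2 ^ k * (g ^ (4 * k))⁻¹) ^ (q + 2) := by rw [h4]; gcongr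
    _ = _ := by rw [← mul_pow]; congr 1; ring

/-- the constant that has to be beaten -/
noncomputable def Cst (k q r : ℕ) : ℝ :=
  230400 * k * (2 ^ (2 * r) * mom (2 * r)) + 12800 * (max 1 (Real.exp (KK q) * KK q ^ k) * 2 ^ k)

set_option maxHeartbeats 1600000 in
theorem sep_core (j e : ℕ) (he : 1 ≤ e) {k D : ℕ} (hk : k = j + 3) (hD : D = 2 * k ^ 2 * e)
    (h1 : 10 ^ 9 * (D + 7) ^ 6 ≤ 2 ^ e)
    (h2 : Cst k (2 * (j ^ 2 + 6 * j + 8)) (k ^ 3 + k ^ 2 + 2 * k + 1) * (D : ℝ) ^ 3 ≤ 2 ^ e) :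
    ∃ n, 1 ≤ n ∧ ∃ f : (Fin n → Bool) → Bool,
      (2 ^ e) ^ (2 * (j ^ 2 + 5 * j + 1) + 2 * k ^ 2) ≤ 5 * R f ∧
      1 + Q f ≤ (2 ^ e) ^ (k ^ 2 + 6 * k) := by
  classical
  obtain ⟨K, hK⟩ : ∃ K, K = j + 2 := ⟨_, rfl⟩
  obtain ⟨a, ha⟩ : ∃ a, a = j ^ 2 + 5 * j + 1 := ⟨_, rfl⟩
  obtain ⟨q, hq⟩ : ∃ q, q = 2 * (j ^ 2 + 6 * j + 8) := ⟨_, rfl⟩
  obtain ⟨r, hr⟩ : ∃ r, r = k ^ 3 + k ^ 2 + 2 * k + 1 := ⟨_, rfl⟩
  obtain ⟨g, hg⟩ : ∃ g : ℕ, g = 2 ^ e := ⟨_, rfl⟩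
  have hgR : (2 : ℝ) ^ e = g := by rw [hg]; push_cast; rfl
  rw [← ha, ← hg]
  rw [← hg] at h1
  rw [← hq, ← hr, hgR] at h2
  have hkK : k = K + 1 := by omega
  have hkD : k ≤ D := by rw [hD]; nlinarith
  have hD1 : 1 ≤ D := by omega
  have hg1 : 100 ≤ g := by
    have := Nat.one_le_pow 6 (D + 7) (by omega)
    omega
  have hg' : (100 : ℝ) ≤ g := by exact_mod_cast hg1
  have hg0 : (0 : ℝ) < g := by linarith
  have hg1' : (1 : ℝ) ≤ g := by linarith
  have hD' : (1 : ℝ) ≤ D := by exact_mod_cast hD1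
  have hN : 2 ^ D = g ^ (2 * k ^ 2) := by rw [hg, hD, ← pow_mul, mul_comm]
  have hN' : (2 : ℝ) ^ D = (g : ℝ) ^ (2 * k ^ 2) := by exact_mod_cast hN
  have hhN : Vale.Agent.P362.hN D = ((g : ℝ) ^ (k ^ 2))⁻¹ := by
    rw [Vale.Agent.P362.hN, hN', mul_comm, pow_mul, Real.sqrt_sq (by positivity)]
  have hcard : (Fintype.card (Idx D) : ℝ) = (g : ℝ) ^ (2 * k ^ 2) := by simp [hN']
  obtain ⟨Dd, hDd, hgap, hadv⟩ := forr_hard (K := K) (by omega) (Had D) Had_orth Had_col abs_Had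
    (hN_le_one D) abs_forr_le (δ := 1 / g) (by
      rw [one_div_pow, div_le_one (by positivity)]; nlinarith) (r := r) (by omega)
  set c2 : ℝ := 2 ^ (2 * r) * mom (2 * r) with hc2
  set C1 : ℝ := max 1 (Real.exp (KK q) * KK q ^ k) * 2 ^ k with hC1
  have hc20 : 0 ≤ c2 := mul_nonneg (by positivity) (mom_even_nonneg r)
  have hC10 : 0 ≤ C1 := by positivity
  have h2a : 230400 * k * c2 * (D : ℝ) ^ 3 ≤ g := by
    refine le_trans ?_ h2; unfold Cst; rw [← hc2, ← hC1]; gcongr; linarith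
  have h2b : 12800 * C1 * (D : ℝ) ^ 3 ≤ g := by
    refine le_trans ?_ h2; unfold Cst; rw [← hc2, ← hC1]; gcongr
    exact le_add_of_nonneg_left (by positivity)
  set P : ℝ := (g : ℝ) ^ (2 * K) with hP
  have hP1 : 1 ≤ P := one_le_pow₀ hg1'
  set Nk : ℝ := ((g : ℝ) ^ (2 * k ^ 2)) ^ k with hNk
  have hNk1 : 1 ≤ Nk := one_le_pow₀ (one_le_pow₀ hg1')
  set Y : ℝ := (K * Fintype.card (Idx D) : ℕ) * ((2 * (1 / g)) ^ (2 * r) * mom (2 * r)) with hY
  have hY0 : 0 ≤ Y := mul_nonneg (by positivity) (mul_nonneg (by positivity) (mom_even_nonneg r))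
  have hX : Nk * (160 * (D : ℝ) ^ 3 * P ^ 2) * Y ≤ 1 / 1440 := by
    have e1 : (g : ℝ) ^ (2 * r) = Nk * P ^ 2 * (g : ℝ) ^ (2 * k ^ 2) * g ^ 6 := by
      rw [hNk, hP, ← pow_mul, ← pow_mul, ← pow_add, ← pow_add, ← pow_add]
      congr 1; rw [hr, hkK]; ring
    have e2 : Nk * (160 * (D : ℝ) ^ 3 * P ^ 2) * Y = 160 * K * c2 * D ^ 3 / g ^ 6 := by
      rw [hY, mul_pow, one_div_pow, e1, hc2]; push_cast; rw [hcard]; field_simp
    rw [e2, div_le_iff₀ (by positivity)]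
    have h3 : (g : ℝ) ≤ g ^ 6 := le_self_pow₀ hg1' (by norm_num)
    have h4 : (K : ℝ) * c2 * D ^ 3 ≤ k * c2 * D ^ 3 := by
      gcongr; omega
    linarith
  have hD3 : (1 : ℝ) ≤ (D : ℝ) ^ 3 := one_le_pow₀ hD'
  have hPY : P * Y ≤ 1 / 1440 := by
    refine le_trans (mul_le_mul_of_nonneg_right ?_ hY0) hX
    calc P = 1 * (1 * 1 * P ^ 1) := by ring
      _ ≤ _ := by gcongr <;> norm_num
  have hY1 : Y ≤ 1 := by nlinarith
  have hE := terr_le hY1
  rw [← hY] at hE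
  obtain ⟨p1, p2, qq, op, o, tv, c, s1, s2, s3, s4⟩ := exists_slp K D
  obtain ⟨dec, enc, hde⟩ := exists_dec ((K + 1) * D)
  let S : Setup D (160 * D ^ 2 * g ^ (4 * K)) ((K + 1) * D + 2) (Fin (K + 1) × Idx D) (Node K D) :=
    { fo := forr (Had D), p1 := p1, p2 := p2, qq := qq, op := op, o := o, tv := tv, c := c,
      dec := dec, enc := enc,
      c0 := (∑ x, Dd true x * forr (Had D) x + ∑ x, Dd false x * forr (Had D) x) / 2,
      τ := 1 / (4 * P), htv := s1, huniq := s2, henc := fun x v => hde _ (s3 x v), hfo := s4,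
      hτ := by positivity }
  have hRr : 0 < 160 * D ^ 2 * g ^ (4 * K) := by positivity
  have hP2 : (g : ℝ) ^ (4 * K) = P ^ 2 := by rw [hP, ← pow_mul]; congr 1; ring
  let I := Idx D × Pos D (160 * D ^ 2 * g ^ (4 * K)) ((K + 1) * D + 2) (Fin (K + 1) × Idx D)
    (Node K D)
  let E : Fin (Fintype.card I) ≃ I := (Fintype.equivFin I).symm
  have hI : 0 < Fintype.card I := Fintype.card_pos
  refine ⟨Fintype.card I, hI, fun x => S.fn (x ∘ E.symm), ?_, ?_⟩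
  · obtain ⟨KK', p, t, hp0, hp1, hq', hf⟩ := rcomputes_R (fun x => S.fn (x ∘ E.symm))
    have hgap' : 4 * (1 / (4 * P)) ≤
        ∑ x, Dd true x * forr (Had D) x - ∑ x, Dd false x * forr (Had D) x := by
      refine le_trans ?_ hgap
      rw [one_div_pow, ← hP]
      have : 24 * Y ≤ 1 / P := by rw [le_div_iff₀ (by positivity)]; linarith
      have e : 4 * (1 / (4 * P)) = 1 / P := by field_simp
      linarith
    have h := S.classical hRr abs_forr_le hDd (by simp only [S]; linarith)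
      (by simp only [S]; linarith) (d := g ^ (2 * a)) (by positivity)
      (hadv q (g ^ a) (C1 / g ^ (4 * k)) _ ⟨_, by rw [hq, two_mul]⟩ (one_le_pow₀ hg1')
        (by positivity) (by
          rw [hcard, hhN, ← hkK]
          exact G_ok hg1' (by rw [hq, hk]; ring) hkK (by rw [ha, hk]; ring)
            (by push_cast; rw [← pow_mul, mul_comm])))
      p (fun i => (t i).map E) ⟨hp0, hp1⟩ (fun i => by rw [DTree.depth_map]; exact hq' i)
      (fun x => by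
        have := hf (x ∘ E)
        simpa only [DTree.eval_map, Function.comp_assoc, Equiv.self_comp_symm,
          Function.comp_id] using this)
    generalize R (fun x => S.fn (x ∘ E.symm)) = RR at h ⊢
    simp only [S] at h
    push_cast at h
    rw [hcard, ← hkK, ← hNk, hP2, hN'] at h
    have a1 : (D : ℝ) ^ 2 / (160 * D ^ 2 * P ^ 2 * (1 / (4 * P)) ^ 2) = 1 / 10 := by
      field_simp; norm_num
    have a2 : 2 * (g : ℝ) ^ (2 * a) / g ^ (2 * k ^ 2) ≤ 1 / 20 := by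
      have : 2 * k ^ 2 = 2 * a + (2 * k + 10) := by rw [ha, hk]; ring
      rw [this, pow_add, div_le_iff₀ (by positivity)]
      have h3 : (g : ℝ) ≤ g ^ (2 * k + 10) := le_self_pow₀ hg1' (by omega)
      have h4 : (0 : ℝ) < g ^ (2 * a) := by positivity
      nlinarith
    have a3 : (D : ℝ) * (160 * D ^ 2 * P ^ 2) * (2 * (C1 / g ^ (4 * k))) ≤ 1 / 40 := by
      have : (g : ℝ) ^ (4 * k) = P ^ 2 * g ^ 4 := by rw [← hP2, ← pow_add, hkK]; congr 1
      have e : (D : ℝ) * (160 * D ^ 2 * P ^ 2) * (2 * (C1 / g ^ (4 * k))) =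
          320 * C1 * D ^ 3 / g ^ 4 := by rw [this]; field_simp; ring
      rw [e, div_le_iff₀ (by positivity)]
      have h3 : (g : ℝ) ≤ g ^ 4 := le_self_pow₀ hg1' (by norm_num)
      linarith
    have a4 : (D : ℝ) * (160 * D ^ 2 * P ^ 2) *
        (6 * Nk * terr (1 / g) (K * Fintype.card (Idx D)) r) ≤ 1 / 40 := by
      calc _ ≤ (D : ℝ) * (160 * D ^ 2 * P ^ 2) * (6 * Nk * (6 * Y)) := by gcongr
        _ = 36 * (Nk * (160 * (D : ℝ) ^ 3 * P ^ 2) * Y) := by ring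
        _ ≤ _ := by linarith
    rw [a1, mul_add] at h
    have a5 : 1 / 5 ≤ RR / ((g : ℝ) ^ (2 * a) * g ^ (2 * k ^ 2)) := by linarith
    rw [le_div_iff₀ (by positivity), ← pow_add] at a5
    have : ((g : ℝ)) ^ (2 * a + 2 * k ^ 2) ≤ 5 * RR := by linarith
    exact_mod_cast this
  · obtain ⟨π, hπ, hs⟩ := S.quantum hRr (samp_forr K D) (reps := 32 * D * g ^ (4 * K))
      (J := 2 * g ^ (k ^ 2)) (J2 := g ^ (k ^ 2 + 2 * k)) (t0 := 128 * (D + 7))
      (r := 9 * (128 * (D + 7)))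
      (by simp only [S]; push_cast; rw [hP2]; refine le_of_eq ?_; field_simp; norm_num)
      (by positivity)
      (by rw [hN, mul_pow, ← pow_mul, mul_comm (k ^ 2)]; omega)
      (by
        simp only [Fintype.card_sum, Fintype.card_prod, Fintype.card_fin, Fintype.card_fun,
          Fintype.card_bool]
        refine (con_le (by omega) Nat.one_le_two_pow (Nat.one_le_pow _ _ (by omega)) h1).trans ?_
        rw [hN, ← pow_mul, ← pow_add, ← pow_succ]
        exact Nat.pow_le_pow_right (by omega) (by rw [hkK]; nlinarith))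
      (rho_pow D) (ver_pow _)
    have hQ : Q (fun x => S.fn (x ∘ E.symm)) ≤ _ :=
      Nat.sInf_le ((hπ.comap E.symm).qcomputes hI _ fun x => hs _)
    refine (Nat.add_le_add_left hQ 1).trans ((cost_le (by omega)
      (Nat.pow_le_pow_right (by omega) (by omega)) (Nat.one_le_pow _ _ (by omega))
      (Nat.one_le_pow _ _ (by omega)) h1).trans ?_)
    rw [← pow_add, ← pow_succ']
    exact Nat.pow_le_pow_right (by omega) (by omega)

theorem separation (j : ℕ) : ∀ᶠ e : ℕ in atTop, ∃ n, 1 ≤ n ∧ ∃ f : (Fin n → Bool) → Bool,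
    (2 ^ e) ^ (2 * (j ^ 2 + 5 * j + 1) + 2 * (j + 3) ^ 2) ≤ 5 * R f ∧
      1 + Q f ≤ (2 ^ e) ^ ((j + 3) ^ 2 + 6 * (j + 3)) := by
  have key : ∀ (C : ℝ) (m : ℕ), ∀ᶠ e : ℕ in atTop, C * (e : ℝ) ^ m ≤ 2 ^ e := by
    intro C m
    have h := (tendsto_pow_const_div_const_pow_of_one_lt m (r := 2) one_lt_two).const_mul C
    rw [mul_zero] at h
    filter_upwards [h.eventually (gt_mem_nhds one_pos)] with e he
    rw [← mul_div_assoc, div_lt_one (by positivity)] at he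
    exact he.le
  filter_upwards [eventually_ge_atTop 1, key (10 ^ 9 * (2 * (j + 3) ^ 2 + 7) ^ 6) 6,
    key (Cst (j + 3) (2 * (j ^ 2 + 6 * j + 8)) ((j + 3) ^ 3 + (j + 3) ^ 2 + 2 * (j + 3) + 1) *
      (2 * (j + 3) ^ 2) ^ 3) 3] with e he h1 h2
  refine sep_core j e he rfl rfl ?_ ?_
  · have h3 : 10 ^ 9 * (2 * (j + 3) ^ 2 + 7) ^ 6 * e ^ 6 ≤ 2 ^ e := by exact_mod_cast h1
    refine le_trans ?_ h3
    rw [mul_assoc (10 ^ 9), ← mul_pow]
    gcongr
    nlinarith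
  · refine le_trans (le_of_eq ?_) h2
    push_cast; ring

theorem four_le {α : ℝ} (h : α ∈ Exponents) : 4 ≤ α := by
  obtain ⟨hα, C, hC⟩ := h
  by_contra hlt
  push Not at hlt
  obtain ⟨j, hj⟩ := exists_nat_ge (40 / (4 - α))
  have hj' : 40 ≤ j * (4 - α) := by rwa [div_le_iff₀ (by linarith)] at hj
  have hev : ∀ᶠ e : ℕ in atTop, 5 * C < 2 ^ e :=
    (tendsto_pow_atTop_atTop_of_one_lt (one_lt_two (α := ℝ))).eventually_gt_atTop _
  obtain ⟨e, ⟨n, hn, f, h1, h2⟩, h3, h4⟩ :=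
    ((separation j).and (hev.and (eventually_ge_atTop 1))).exists
  have h5 := hC n hn f
  set g : ℝ := 2 ^ e with hg
  have hg1 : 1 ≤ g := one_le_pow₀ (by norm_num)
  have h1' : g ^ (2 * (j ^ 2 + 5 * j + 1) + 2 * (j + 3) ^ 2) ≤ 5 * (R f : ℝ) := by
    rw [hg]; exact_mod_cast h1
  have h2' : 1 + (Q f : ℝ) ≤ g ^ ((j + 3) ^ 2 + 6 * (j + 3)) := by
    rw [hg]; exact_mod_cast h2
  have h6 : (1 + (Q f : ℝ)) ^ α ≤ g ^ ((((j + 3) ^ 2 + 6 * (j + 3) : ℕ) : ℝ) * α) := by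
    rw [Real.rpow_natCast_mul (by linarith)]
    exact Real.rpow_le_rpow (by positivity) h2' hα
  have h7 : g * g ^ ((((j + 3) ^ 2 + 6 * (j + 3) : ℕ) : ℝ) * α) ≤
      g ^ (2 * (j ^ 2 + 5 * j + 1) + 2 * (j + 3) ^ 2) := by
    rw [← Real.rpow_natCast, ← Real.rpow_one_add' (by linarith) (by positivity)]
    refine Real.rpow_le_rpow_of_exponent_le hg1 ?_
    push_cast
    have hj0 : (0 : ℝ) ≤ j := Nat.cast_nonneg j
    have hj1 : (10 : ℝ) ≤ j := by nlinarith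
    nlinarith [mul_le_mul_of_nonneg_left hj' hj0]
  have h8 : 0 < (1 + (Q f : ℝ)) ^ α := by positivity
  have h9 := mul_lt_mul_of_pos_right h3 h8
  have h10 := mul_le_mul_of_nonneg_left h6 (show 0 ≤ g by linarith)
  linarith

end Vale.Agent.P362
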