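import Vale.Agent.P362.Prob

/-! Real orthogonal operator families with phase queries, and samplable distributions. -/

set_option linter.unusedSectionVars false
set_option linter.unnecessarySeqFocus false

namespace Vale.Agent.P362

open Finset Matrix

/-- the sign of a bit -/
def sg (b : Bool) : ℝ := if b = true then -1 else 1

@[simp] lemma sg_true : sg true = -1 := rfl
@[simp] lemma sg_false : sg false = 1 := rfl
lemma sg_mul_self (b : Bool) : sg b * sg b = 1 := by cases b <;> simp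
lemma abs_sg (b : Bool) : |sg b| = 1 := by cases b <;> simp

section
variable {I : Type}

/-- phase query -/
def phq {Ω : Type} [DecidableEq Ω] (pos : Ω → Option I) (x : I → Bool) : Matrix Ω Ω ℝ :=
  diagonal fun ω => (pos ω).elim 1 (fun i => sg (x i))

/-- operator families made of `T` phase queries and fixed orthogonal matrices -/
def Ops {Ω : Type} [Fintype Ω] [DecidableEq Ω] : ℕ → ((I → Bool) → Matrix Ω Ω ℝ) → Prop
  | 0, A => ∃ U : Matrix Ω Ω ℝ, Uᵀ * U = 1 ∧ ∀ x, A x = U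
  | T + 1, A => ∃ (U : Matrix Ω Ω ℝ) (pos : Ω → Option I) (B : (I → Bool) → Matrix Ω Ω ℝ),
      Uᵀ * U = 1 ∧ Ops T B ∧ ∀ x, A x = U * (phq pos x * B x)

section
variable {Ω : Type} [Fintype Ω] [DecidableEq Ω]

lemma phq_transpose (pos : Ω → Option I) (x : I → Bool) : (phq pos x)ᵀ = phq pos x := by
  simp [phq]

lemma phq_orth (pos : Ω → Option I) (x : I → Bool) : (phq pos x)ᵀ * phq pos x = 1 := by
  rw [phq_transpose, phq, diagonal_mul_diagonal, ← diagonal_one]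
  congr 1; funext ω
  cases pos ω <;> simp [sg_mul_self]

lemma orth_mul {U V : Matrix Ω Ω ℝ} (hU : Uᵀ * U = 1) (hV : Vᵀ * V = 1) :
    (U * V)ᵀ * (U * V) = 1 := by
  rw [transpose_mul, Matrix.mul_assoc, ← Matrix.mul_assoc Uᵀ, hU, Matrix.one_mul, hV]

lemma orth_symm {U : Matrix Ω Ω ℝ} (hU : Uᵀ * U = 1) : U * Uᵀ = 1 := mul_eq_one_comm.1 hU

lemma Ops.orth : ∀ {T : ℕ} {A : (I → Bool) → Matrix Ω Ω ℝ}, Ops T A → ∀ x, (A x)ᵀ * A x = 1
  | 0, _, ⟨_, hU, h⟩, x => by rw [h x]; exact hU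
  | _ + 1, _, ⟨_, pos, _, hU, hB, h⟩, x => by
    rw [h x]; exact orth_mul hU (orth_mul (phq_orth pos x) (hB.orth x))

lemma Ops.const {U : Matrix Ω Ω ℝ} (hU : Uᵀ * U = 1) : Ops (I := I) 0 (fun _ => U) :=
  ⟨U, hU, fun _ => rfl⟩

lemma Ops.mul_left {V : Matrix Ω Ω ℝ} (hV : Vᵀ * V = 1) :
    ∀ {T : ℕ} {A : (I → Bool) → Matrix Ω Ω ℝ}, Ops T A → Ops T (fun x => V * A x)
  | 0, _, ⟨U, hU, h⟩ => ⟨V * U, orth_mul hV hU, fun x => by simp only [h x]⟩
  | _ + 1, _, ⟨U, pos, B, hU, hB, h⟩ =>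
    ⟨V * U, pos, B, orth_mul hV hU, hB, fun x => by simp only [h x, Matrix.mul_assoc]⟩

lemma Ops.congr {T : ℕ} {A B : (I → Bool) → Matrix Ω Ω ℝ} (h : Ops T A) (e : ∀ x, B x = A x) :
    Ops T B := by rw [show B = A from funext e]; exact h

lemma Ops.mul {T : ℕ} {B : (I → Bool) → Matrix Ω Ω ℝ} :
    ∀ {S : ℕ} {A : (I → Bool) → Matrix Ω Ω ℝ}, Ops S A → Ops T B → Ops (S + T) (fun x => A x * B x)
  | 0, _, ⟨U, hU, h⟩, hB => by
    rw [Nat.zero_add]; exact (hB.mul_left hU).congr fun x => by rw [h x]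
  | S + 1, _, ⟨U, pos, C, hU, hC, h⟩, hB => by
    rw [Nat.add_right_comm]
    exact ⟨U, pos, fun x => C x * B x, hU, hC.mul hB, fun x => by
      simp only [h x, Matrix.mul_assoc]⟩

lemma Ops.query (pos : Ω → Option I) : Ops 1 (phq pos) :=
  ⟨1, pos, fun _ => 1, by simp, Ops.const (by simp), fun x => by simp⟩

lemma Ops.succ {T : ℕ} {A : (I → Bool) → Matrix Ω Ω ℝ} (h : Ops T A) : Ops (T + 1) A :=
  ⟨1, fun _ => none, A, by simp, h, fun x => by simp [phq]⟩

lemma Ops.mono {S T : ℕ} {A : (I → Bool) → Matrix Ω Ω ℝ} (h : Ops S A) (hST : S ≤ T) :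
    Ops T A := by
  induction hST with
  | refl => exact h
  | step _ ih => exact ih.succ

lemma Ops.transpose : ∀ {T : ℕ} {A : (I → Bool) → Matrix Ω Ω ℝ}, Ops T A →
    Ops T (fun x => (A x)ᵀ)
  | 0, _, ⟨U, hU, h⟩ => ⟨Uᵀ, by simpa using orth_symm hU, fun x => by simp only [h x]⟩
  | T + 1, _, ⟨U, pos, B, hU, hB, h⟩ => by
    have h1 : Ops (I := I) 0 (fun _ => Uᵀ) := Ops.const (by simpa using orth_symm hU)
    exact (hB.transpose.mul ((Ops.query pos).mul h1)).congr fun x => by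
      simp only [h x, transpose_mul, phq_transpose, Matrix.mul_assoc]

lemma Ops.reindex {Ω' : Type} [Fintype Ω'] [DecidableEq Ω'] (e : Ω' ≃ Ω) :
    ∀ {T : ℕ} {A : (I → Bool) → Matrix Ω Ω ℝ}, Ops T A → Ops T (fun x => (A x).submatrix e e)
  | 0, _, ⟨U, hU, h⟩ => ⟨U.submatrix e e, by
      rw [transpose_submatrix, submatrix_mul_equiv, hU, submatrix_one_equiv],
      fun x => by simp only [h x]⟩
  | _ + 1, _, ⟨U, pos, B, hU, hB, h⟩ =>
    ⟨U.submatrix e e, pos ∘ e, fun x => (B x).submatrix e e, by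
      rw [transpose_submatrix, submatrix_mul_equiv, hU, submatrix_one_equiv], hB.reindex e,
      fun x => by
        have : phq (pos ∘ e) x = (phq pos x).submatrix e e := by
          simp only [phq, submatrix_diagonal_equiv]; rfl
        rw [this, submatrix_mul_equiv, submatrix_mul_equiv]; simp only [h x]⟩

lemma dot_orth {U : Matrix Ω Ω ℝ} (hU : Uᵀ * U = 1) (u v : Ω → ℝ) :
    (U *ᵥ u) ⬝ᵥ (U *ᵥ v) = u ⬝ᵥ v := by
  rw [dotProduct_mulVec, ← mulVec_transpose, mulVec_mulVec, hU, one_mulVec]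

lemma refl_orth (w : Ω → ℝ) (c : ℝ) (hc : c * c * (w ⬝ᵥ w) = 2 * c) :
    (1 - c • vecMulVec w w)ᵀ * (1 - c • vecMulVec w w) = 1 := by
  rw [transpose_sub, transpose_one, transpose_smul, transpose_vecMulVec, Matrix.sub_mul,
    Matrix.mul_sub, Matrix.mul_sub, Matrix.one_mul, Matrix.one_mul, Matrix.mul_one,
    Matrix.smul_mul, Matrix.mul_smul, vecMulVec_mul_vecMulVec]
  ext i j
  simp only [Matrix.sub_apply, Matrix.smul_apply, vecMulVec_apply, smul_eq_mul, Pi.smul_apply]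
  linear_combination (w i * w j) * hc

lemma refl_mulVec (w : Ω → ℝ) (c : ℝ) (u : Ω → ℝ) :
    (1 - c • vecMulVec w w) *ᵥ u = u - (c * (w ⬝ᵥ u)) • w := by
  rw [sub_mulVec, one_mulVec, smul_mulVec, vecMulVec_mulVec]
  ext i; simp; ring

lemma exists_orth (u v : Ω → ℝ) (hu : u ⬝ᵥ u = 1) (hv : v ⬝ᵥ v = 1) :
    ∃ H : Matrix Ω Ω ℝ, Hᵀ * H = 1 ∧ H *ᵥ u = v := by
  by_cases h : (u - v) ⬝ᵥ (u - v) = 0
  · refine ⟨1, by simp, ?_⟩
    rw [one_mulVec]; exact sub_eq_zero.1 (dotProduct_self_eq_zero.1 h)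
  · refine ⟨1 - (2 / ((u - v) ⬝ᵥ (u - v))) • vecMulVec (u - v) (u - v),
      refl_orth _ _ (by field_simp), ?_⟩
    rw [refl_mulVec]
    have : 2 / ((u - v) ⬝ᵥ (u - v)) * ((u - v) ⬝ᵥ u) = 1 := by
      rw [div_mul_eq_mul_div, div_eq_one_iff_eq h]
      simp only [sub_dotProduct, dotProduct_sub, hu, hv, dotProduct_comm v u]; ring
    rw [this]; simp

end

lemma Ops.blockDiag {o : Type} [Fintype o] [DecidableEq o] {Ω : o → Type} [∀ k, Fintype (Ω k)]
    [∀ k, DecidableEq (Ω k)] : ∀ {T : ℕ} {A : ∀ k, (I → Bool) → Matrix (Ω k) (Ω k) ℝ},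
    (∀ k, Ops T (A k)) → Ops T (fun x => blockDiagonal' fun k => A k x)
  | 0, A, h => by
    choose U hU hA using h
    refine ⟨blockDiagonal' U, ?_, fun x => by simp only [hA]⟩
    rw [blockDiagonal'_transpose, ← blockDiagonal'_mul]
    simp only [hU]; exact blockDiagonal'_one
  | T + 1, A, h => by
    choose U pos B hU hB hA using h
    refine ⟨blockDiagonal' U, fun p => pos p.1 p.2, fun x => blockDiagonal' fun k => B k x, ?_,
      Ops.blockDiag hB, fun x => ?_⟩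
    · rw [blockDiagonal'_transpose, ← blockDiagonal'_mul]
      simp only [hU]; exact blockDiagonal'_one
    · have : phq (fun p : Σ k, Ω k => pos p.1 p.2) x = blockDiagonal' fun k => phq (pos k) x := by
        simp only [phq, blockDiagonal'_diagonal]
      rw [this, ← blockDiagonal'_mul, ← blockDiagonal'_mul]
      simp only [hA]

lemma blockDiag_mulVec {o : Type} [Fintype o] [DecidableEq o] {Ω : o → Type} [∀ k, Fintype (Ω k)]
    (M : ∀ k, Matrix (Ω k) (Ω k) ℝ) (ψ : (Σ k, Ω k) → ℝ) (k : o) (i : Ω k) :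
    (blockDiagonal' M *ᵥ ψ) ⟨k, i⟩ = (M k *ᵥ fun j => ψ ⟨k, j⟩) i := by
  simp only [mulVec, dotProduct, Fintype.sum_sigma]
  rw [sum_eq_single k]
  · simp
  · intro k' _ hk
    simp [blockDiagonal'_apply_ne _ _ _ hk.symm]
  · simp

section
variable {Ω1 Ω2 : Type} [Fintype Ω1] [DecidableEq Ω1] [Fintype Ω2] [DecidableEq Ω2]

lemma Ops.exists_right {T : ℕ} {C : Ω1 → (I → Bool) → Matrix Ω2 Ω2 ℝ} (h : ∀ a, Ops T (C a)) :
    ∃ M : (I → Bool) → Matrix (Ω1 × Ω2) (Ω1 × Ω2) ℝ, Ops T M ∧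
      ∀ x ψ a b, (M x *ᵥ ψ) (a, b) = (C a x *ᵥ fun j => ψ (a, j)) b := by
  refine ⟨_, (Ops.blockDiag (Ω := fun _ => Ω2) h).reindex (Equiv.sigmaEquivProd Ω1 Ω2).symm, ?_⟩
  intro x ψ a b
  rw [submatrix_mulVec_equiv]
  exact blockDiag_mulVec (Ω := fun _ => Ω2) (fun k => C k x) _ a b

lemma Ops.exists_left {T : ℕ} {C : (I → Bool) → Matrix Ω1 Ω1 ℝ} (h : Ops T C) :
    ∃ M : (I → Bool) → Matrix (Ω1 × Ω2) (Ω1 × Ω2) ℝ, Ops T M ∧
      ∀ x ψ a b, (M x *ᵥ ψ) (a, b) = (C x *ᵥ fun j => ψ (j, b)) a := by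
  obtain ⟨M, hM, e⟩ := Ops.exists_right (Ω1 := Ω2) (C := fun _ => C) fun _ => h
  refine ⟨_, hM.reindex (Equiv.prodComm Ω1 Ω2), ?_⟩
  intro x ψ a b
  rw [submatrix_mulVec_equiv]
  exact e x _ b a

end

/-- `μ x` is the output distribution of a `T`-query algorithm on input `x` -/
def Samp {Y : Type} [Fintype Y] (T : ℕ) (μ : (I → Bool) → Y → ℝ) : Prop :=
  ∃ (Ω : Type) (_ : Fintype Ω) (_ : DecidableEq Ω) (A : (I → Bool) → Matrix Ω Ω ℝ) (v : Ω → ℝ)
    (out : Ω → Y), Ops T A ∧ v ⬝ᵥ v = 1 ∧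
      ∀ x (g : Y → ℝ), ∑ y, μ x y * g y = ∑ ω, (A x *ᵥ v) ω ^ 2 * g (out ω)

section
variable {Y Z : Type} [Fintype Y] [Fintype Z]

lemma Samp.isDist {T : ℕ} {μ : (I → Bool) → Y → ℝ} (h : Samp T μ) (x : I → Bool) :
    IsDist (μ x) := by
  classical
  obtain ⟨Ω, _, _, A, v, out, hA, hv, h⟩ := h
  constructor
  · intro y
    have := h x (fun y' => if y' = y then 1 else 0)
    simp only [mul_ite, mul_one, mul_zero, sum_ite_eq', mem_univ, if_true] at this
    rw [this]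
    exact sum_nonneg fun ω _ => by split_ifs <;> positivity
  · have := h x (fun _ => 1)
    simp only [mul_one] at this
    rw [this, ← hv, ← dot_orth (hA.orth x) v v]
    simp [dotProduct, sq]

lemma Samp.mono {S T : ℕ} {μ : (I → Bool) → Y → ℝ} (h : Samp S μ) (hST : S ≤ T) : Samp T μ := by
  obtain ⟨Ω, _, _, A, v, out, hA, hv, h⟩ := h
  exact ⟨Ω, _, _, A, v, out, hA.mono hST, hv, h⟩

lemma Samp.congr {T : ℕ} {μ ν : (I → Bool) → Y → ℝ} (h : Samp T μ) (e : ∀ x y, ν x y = μ x y) :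
    Samp T ν := by
  rw [show ν = μ from funext fun x => funext (e x)]; exact h

lemma Samp.map' {T : ℕ} {μ : (I → Bool) → Y → ℝ} (h : Samp T μ) (φ : Y → Z)
    {ν : (I → Bool) → Z → ℝ} (e : ∀ x (g : Z → ℝ), ∑ z, ν x z * g z = ∑ y, μ x y * g (φ y)) :
    Samp T ν := by
  obtain ⟨Ω, _, _, A, v, out, hA, hv, h⟩ := h
  exact ⟨Ω, _, _, A, v, φ ∘ out, hA, hv, fun x g => by rw [e, h x (fun y => g (φ y))]; rfl⟩

lemma Samp.map [DecidableEq Z] {T : ℕ} {μ : (I → Bool) → Y → ℝ} (h : Samp T μ) (φ : Y → Z) :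
    Samp T (fun x z => ∑ y, if φ y = z then μ x y else 0) :=
  h.map' φ fun x g => by
    simp only [sum_mul]
    rw [sum_comm]
    simp

lemma Samp.pure {w : Y → ℝ} (hw : IsDist w) : Samp (I := I) 0 (fun _ => w) := by
  classical
  refine ⟨Y, inferInstance, inferInstance, fun _ => 1, fun y => √(w y), id, Ops.const (by simp), ?_,
    fun x g => ?_⟩
  · simp [dotProduct, Real.mul_self_sqrt (hw.nn _), hw.sum]
  · simp [Real.sq_sqrt (hw.nn _)]

lemma Samp.bind {S T : ℕ} {μ : (I → Bool) → Y → ℝ} {ν : Y → (I → Bool) → Z → ℝ} (h : Samp S μ)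
    (hν : ∀ y, Samp T (ν y)) : Samp (S + T) (fun x z => ∑ y, μ x y * ν y x z) := by
  classical
  obtain ⟨Ω, _, _, A, v, out, hA, hv, h⟩ := h
  choose Ω2 i1 i2 A2 v2 out2 hA2 hv2 h2 using hν
  have hne : Nonempty Ω := by
    by_contra hc
    rw [not_nonempty_iff] at hc
    simp [dotProduct] at hv
  obtain ⟨ω0⟩ := hne
  let e : Y → (Σ y, Ω2 y) → ℝ := fun y p => if p.1 = y then v2 p.1 p.2 else 0
  have he : ∀ y, e y ⬝ᵥ e y = 1 := by
    intro y
    simp only [dotProduct, Fintype.sum_sigma, e]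
    rw [sum_eq_single y]
    · simpa [dotProduct] using hv2 y
    · intro y' _ hy; simp [hy]
    · simp
  choose H hH hHe using fun y => exists_orth (e (out ω0)) (e y) (he _) (he y)
  have hB := Ops.blockDiag hA2
  obtain ⟨M2, hM2, e2⟩ := Ops.exists_right (Ω1 := Ω)
    (C := fun a x => (blockDiagonal' fun k => A2 k x) * H (out a))
    fun a => hB.mul (Ops.const (hH (out a)))
  obtain ⟨M1, hM1, e1⟩ := Ops.exists_left (Ω2 := Σ y, Ω2 y) hA
  refine ⟨Ω × (Σ y, Ω2 y), inferInstance, inferInstance, fun x => M2 x * M1 x,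
    fun p => v p.1 * e (out ω0) p.2, fun p => out2 p.2.1 p.2.2, ?_, ?_, fun x g => ?_⟩
  · exact (hM2.mul hM1).mono (by omega)
  · have := he (out ω0)
    simp only [dotProduct] at hv this ⊢
    rw [Fintype.sum_prod_type, ← hv]
    refine sum_congr rfl fun a _ => ?_
    rw [← mul_one (v a * v a), ← this, mul_sum]
    exact sum_congr rfl fun b _ => by ring
  · have key : ∀ a y b, ((M2 x * M1 x) *ᵥ fun p => v p.1 * e (out ω0) p.2) (a, ⟨y, b⟩) =
        (A x *ᵥ v) a * if y = out a then (A2 y x *ᵥ v2 y) b else 0 := by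
      intro a y b
      rw [← mulVec_mulVec, e2]
      have : (fun j => (M1 x *ᵥ fun p => v p.1 * e (out ω0) p.2) (a, j)) =
          (A x *ᵥ v) a • e (out ω0) := by
        funext j
        rw [e1]
        simp only [mulVec, dotProduct, Pi.smul_apply, smul_eq_mul, sum_mul, mul_assoc]
      rw [this, mulVec_smul, ← mulVec_mulVec, hHe, Pi.smul_apply, smul_eq_mul, blockDiag_mulVec]
      congr 1
      simp only [e]
      split_ifs
      · rfl
      · simp [mulVec]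
    have : ∑ z, (∑ y, μ x y * ν y x z) * g z = ∑ y, μ x y * ∑ z, ν y x z * g z := by
      simp only [sum_mul, mul_sum, mul_assoc]; exact sum_comm
    rw [this, h x (fun y => ∑ z, ν y x z * g z), Fintype.sum_prod_type]
    refine sum_congr rfl fun a _ => ?_
    rw [h2, Fintype.sum_sigma, sum_eq_single (out a), mul_sum]
    · refine sum_congr rfl fun b _ => ?_
      rw [key]; simp; ring
    · intro y _ hy
      exact sum_eq_zero fun b _ => by rw [key]; simp [hy]
    · simp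

lemma Samp.test {Ω : Type} [Fintype Ω] [DecidableEq Ω] {T : ℕ} {A : (I → Bool) → Matrix Ω Ω ℝ}
    (hA : Ops T A) {v : Ω → ℝ} (hv : v ⬝ᵥ v = 1) :
    Samp T (fun x b => (1 + sg b * (v ⬝ᵥ A x *ᵥ v)) / 2) := by
  obtain ⟨M1, hM1, e1⟩ := Ops.exists_right (Ω1 := Bool) (T := T)
    (C := fun b x => if b = true then A x else 1) fun b => by
      cases b
      · simpa using (Ops.const (I := I) (U := (1 : Matrix Ω Ω ℝ)) (by simp)).mono (Nat.zero_le T)
      · simpa using hA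
  set r : ℝ := √(1 / 2) with hr
  have hr2 : r * r = 1 / 2 := Real.mul_self_sqrt (by norm_num)
  let Hd : Matrix Bool Bool ℝ := Matrix.of fun a b => if a = true ∧ b = true then -r else r
  have hHd : Hdᵀ * Hd = 1 := by
    ext a b
    cases a <;> cases b <;> simp [Hd, Matrix.mul_apply, hr2] <;> norm_num
  obtain ⟨M2, hM2, e2⟩ := Ops.exists_left (I := I) (Ω2 := Ω) (Ops.const hHd)
  refine ⟨Bool × Ω, inferInstance, inferInstance, fun x => M2 x * M1 x, fun p => r * v p.2,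
    Prod.fst, (hM2.mul hM1).mono (by omega), ?_, fun x g => ?_⟩
  · simp only [dotProduct] at hv ⊢
    rw [Fintype.sum_prod_type]
    have : ∑ y, r * v y * (r * v y) = 1 / 2 := by
      rw [← hr2, ← mul_one (r * r), ← hv, mul_sum]
      exact sum_congr rfl fun b _ => by ring
    simp only [this]; simp
  · have key : ∀ b ω, ((M2 x * M1 x) *ᵥ fun p => r * v p.2) (b, ω) =
        (v ω + sg b * (A x *ᵥ v) ω) / 2 := by
      intro b ω
      have h1 : ∀ b, (M1 x *ᵥ fun p => r * v p.2) (b, ω) =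
          r * (if b = true then (A x *ᵥ v) ω else v ω) := by
        intro b
        rw [e1, show (fun j => r * v j) = r • v from rfl, mulVec_smul]
        cases b <;> simp
      rw [← mulVec_mulVec, e2]
      simp only [h1]
      cases b <;> simp [Hd, mulVec, dotProduct]
      · linear_combination (∑ x_1, A x ω x_1 * v x_1 + v ω) * hr2
      · linear_combination (- ∑ x_1, A x ω x_1 * v x_1 + v ω) * hr2
    rw [Fintype.sum_prod_type]
    refine sum_congr rfl fun b _ => ?_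
    simp only [key]
    rw [← sum_mul]
    congr 1
    have h1 := dot_orth (hA.orth x) v v
    rw [hv] at h1
    have h2 := sg_mul_self b
    have : ∀ ω, ((v ω + sg b * (A x *ᵥ v) ω) / 2) ^ 2 = (v ω * v ω) / 4 +
        ((A x *ᵥ v) ω * (A x *ᵥ v) ω) / 4 + sg b * (v ω * (A x *ᵥ v) ω) / 2 := fun ω => by
      linear_combination ((A x *ᵥ v) ω ^ 2 / 4) * h2
    simp only [this, sum_add_distrib, ← sum_div, ← mul_sum]
    simp only [dotProduct] at hv h1 ⊢
    rw [hv, h1]; ring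

end

end

end Vale.Agent.P362
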