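import Mathlib

/-! Finite product distributions: resampling, hybrid argument, Chebyshev. -/

namespace Vale.Agent.P362

open Finset

/-- a probability vector -/
structure IsDist {Y : Type} [Fintype Y] (w : Y → ℝ) : Prop where
  nn : ∀ y, 0 ≤ w y
  sum : ∑ y, w y = 1

section
variable {κ Y : Type} [Fintype κ] [DecidableEq κ] [Fintype Y]

/-- expectation under a product weight -/
noncomputable def Ex (w : κ → Y → ℝ) (G : (κ → Y) → ℝ) : ℝ := ∑ f, (∏ j, w j (f j)) * G f

lemma sum_prod_eq (w : κ → Y → ℝ) : ∑ f : κ → Y, ∏ j, w j (f j) = ∏ j, ∑ y, w j y := by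
  rw [Finset.prod_univ_sum, Fintype.piFinset_univ]

lemma isDist_pi {w : κ → Y → ℝ} (hw : ∀ j, IsDist (w j)) :
    IsDist (fun f : κ → Y => ∏ j, w j (f j)) :=
  ⟨fun f => prod_nonneg fun j _ => (hw j).nn _, by
    rw [sum_prod_eq]; exact prod_eq_one fun j _ => (hw j).sum⟩

lemma Ex_const {w : κ → Y → ℝ} (hw : ∀ j, IsDist (w j)) (c : ℝ) : Ex w (fun _ => c) = c := by
  unfold Ex; rw [← sum_mul, (isDist_pi hw).sum, one_mul]

lemma Ex_mono {w : κ → Y → ℝ} (hw : ∀ j, IsDist (w j)) {F G : (κ → Y) → ℝ} (h : ∀ f, F f ≤ G f) :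
    Ex w F ≤ Ex w G :=
  sum_le_sum fun f _ => mul_le_mul_of_nonneg_left (h f) ((isDist_pi hw).nn f)

lemma Ex_add (w : κ → Y → ℝ) (F G : (κ → Y) → ℝ) :
    Ex w (fun f => F f + G f) = Ex w F + Ex w G := by
  simp [Ex, mul_add, sum_add_distrib]

lemma Ex_sub (w : κ → Y → ℝ) (F G : (κ → Y) → ℝ) :
    Ex w (fun f => F f - G f) = Ex w F - Ex w G := by
  simp [Ex, mul_sub, sum_sub_distrib]

lemma Ex_mul (w : κ → Y → ℝ) (c : ℝ) (F : (κ → Y) → ℝ) :
    Ex w (fun f => c * F f) = c * Ex w F := by
  simp only [Ex, mul_sum]; exact sum_congr rfl fun f _ => by ring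

lemma Ex_sum {α : Type} (s : Finset α) (w : κ → Y → ℝ) (F : α → (κ → Y) → ℝ) :
    Ex w (fun f => ∑ a ∈ s, F a f) = ∑ a ∈ s, Ex w (F a) := by
  simp only [Ex, mul_sum]; exact sum_comm

lemma abs_Ex_le {w : κ → Y → ℝ} (hw : ∀ j, IsDist (w j)) {F : (κ → Y) → ℝ} {c : ℝ}
    (h : ∀ f, |F f| ≤ c) : |Ex w F| ≤ c := by
  rw [abs_le]
  constructor
  · rw [← Ex_const hw (-c)]; exact Ex_mono hw fun f => (abs_le.1 (h f)).1
  · rw [← Ex_const hw c]; exact Ex_mono hw fun f => (abs_le.1 (h f)).2

/-- swapping a coordinate with a fresh sample -/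
def swapE (j : κ) : ((κ → Y) × Y) ≃ ((κ → Y) × Y) where
  toFun p := (Function.update p.1 j p.2, p.1 j)
  invFun p := (Function.update p.1 j p.2, p.1 j)
  left_inv p := by simp
  right_inv p := by simp

lemma sum_update (j : κ) (G : (κ → Y) → ℝ) :
    ∑ f : κ → Y, ∑ y, G (Function.update f j y) = Fintype.card Y * ∑ f, G f := by
  rw [← Fintype.sum_prod_type', ← (swapE j).sum_comp, Fintype.sum_prod_type]
  simp [swapE, mul_sum]

lemma resample (w : κ → Y → ℝ) (j : κ) (hj : ∑ y, w j y = 1) (u : Y → ℝ) (G : (κ → Y) → ℝ) :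
    Ex (Function.update w j u) G = Ex w (fun f => ∑ y, u y * G (Function.update f j y)) := by
  unfold Ex
  simp only [mul_sum]
  rw [← Fintype.sum_prod_type', ← (swapE j).sum_comp, Fintype.sum_prod_type]
  refine sum_congr rfl fun f _ => ?_
  simp only [swapE, Equiv.coe_fn_mk, Function.update_idem, Function.update_eq_self]
  have h1 : ∀ y, ∏ i, w i (Function.update f j y i) = w j y * ∏ i ∈ univ.erase j, w i (f i) := by
    intro y
    rw [← mul_prod_erase univ _ (mem_univ j), Function.update_self]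
    congr 1
    exact prod_congr rfl fun i hi => by rw [Function.update_of_ne (ne_of_mem_erase hi)]
  have h2 : ∏ i, Function.update w j u i (f i) = u (f j) * ∏ i ∈ univ.erase j, w i (f i) := by
    rw [← mul_prod_erase univ _ (mem_univ j), Function.update_self]
    congr 1
    exact prod_congr rfl fun i hi => by rw [Function.update_of_ne (ne_of_mem_erase hi)]
  simp only [h1, h2]
  rw [← sum_mul, ← sum_mul, hj]; ring

lemma resample' (w : κ → Y → ℝ) (j : κ) (hj : ∑ y, w j y = 1) (G : (κ → Y) → ℝ) :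
    Ex w G = Ex w (fun f => ∑ y, w j y * G (Function.update f j y)) := by
  rw [← resample w j hj, Function.update_eq_self]

/-- hybrid argument -/
lemma hybrid {w0 w1 : κ → Y → ℝ} (h0 : ∀ j, IsDist (w0 j)) (h1 : ∀ j, IsDist (w1 j))
    (G : (κ → Y) → ℝ) {a : ℝ}
    (h : ∀ j f, |∑ y, w1 j y * G (Function.update f j y) -
      ∑ y, w0 j y * G (Function.update f j y)| ≤ a) :
    |Ex w1 G - Ex w0 G| ≤ Fintype.card κ * a := by
  have key : ∀ S : Finset κ,
      |Ex (fun j => if j ∈ S then w1 j else w0 j) G - Ex w0 G| ≤ S.card * a := by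
    intro S
    induction S using Finset.induction_on with
    | empty => simp
    | insert j S hj ih =>
      set wS : κ → Y → ℝ := fun j => if j ∈ S then w1 j else w0 j with hwS
      have hd : ∀ i, IsDist (wS i) := fun i => by
        simp only [hwS]; split_ifs; exacts [h1 i, h0 i]
      have e1 : (fun i => if i ∈ insert j S then w1 i else w0 i) = Function.update wS j (w1 j) := by
        funext i
        by_cases hi : i = j
        · subst hi; simp
        · simp [hwS, hi]
      have e0 : wS = Function.update wS j (w0 j) := by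
        funext i
        by_cases hi : i = j
        · subst hi; simp [hwS, hj]
        · simp [hi]
      have step : |Ex (Function.update wS j (w1 j)) G - Ex wS G| ≤ a := by
        conv_lhs => rw [e0]
        rw [Function.update_idem, resample wS j (hd j).sum, resample wS j (hd j).sum, ← Ex_sub]
        exact abs_Ex_le hd fun f => h j f
      rw [e1, card_insert_of_notMem hj]
      push_cast
      have := abs_sub_le (Ex (Function.update wS j (w1 j)) G) (Ex wS G) (Ex w0 G)
      linarith
  simpa using key univ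

/-- second moment of a centred independent sum -/
lemma Ex_sq_sum_le {w : κ → Y → ℝ} (hw : ∀ j, IsDist (w j)) (g : κ → Y → ℝ)
    (hg : ∀ j, ∑ y, w j y * g j y = 0) {V : ℝ} (hV : ∀ j, ∑ y, w j y * g j y ^ 2 ≤ V) :
    Ex w (fun f => (∑ j, g j (f j)) ^ 2) ≤ Fintype.card κ * V := by
  have e : (fun f : κ → Y => (∑ j, g j (f j)) ^ 2) =
      fun f => ∑ i, ∑ j, g i (f i) * g j (f j) := by
    funext f; rw [sq, sum_mul_sum]
  rw [e, Ex_sum]
  have : ∀ i, Ex w (fun f => ∑ j, g i (f i) * g j (f j)) ≤ V := by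
    intro i
    rw [Ex_sum, ← add_sum_erase univ _ (mem_univ i), sum_eq_zero, add_zero]
    · rw [resample' w i (hw i).sum, ← Ex_const hw V]
      refine Ex_mono hw fun f => ?_
      simpa [sq] using hV i
    · intro j hj
      rw [resample' w i (hw i).sum, ← Ex_const hw 0]
      congr 1; funext f
      simp only [Function.update_self, Function.update_of_ne (ne_of_mem_erase hj)]
      simp only [← mul_assoc]
      rw [← sum_mul, hg, zero_mul]
  calc _ ≤ ∑ _i : κ, V := sum_le_sum fun i _ => this i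
    _ = _ := by simp

/-- Chebyshev for averages of independent bounded variables -/
lemma cheb {w : κ → Y → ℝ} (hw : ∀ j, IsDist (w j)) (g : Y → ℝ) (hg : ∀ y, |g y| ≤ 1) (m : ℝ)
    (hm : ∀ j, ∑ y, w j y * g y = m) {η : ℝ} (hη : 0 < η) (hκ : 0 < Fintype.card κ)
    (P : (κ → Y) → Prop) [DecidablePred P]
    (hP : ∀ f, P f → Fintype.card κ * η ≤ |∑ j, g (f j) - Fintype.card κ * m|) :
    Ex w (fun f => if P f then 1 else 0) ≤ 1 / (Fintype.card κ * η ^ 2) := by
  have hc : (0 : ℝ) < Fintype.card κ := by exact_mod_cast hκ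
  have h1 := Ex_sq_sum_le hw (fun _ y => g y - m) (V := 1) (fun j => by
    simp only [mul_sub, sum_sub_distrib]
    rw [hm, ← sum_mul, (hw j).sum]; ring) (fun j => by
    have e : ∑ y, w j y * (g y - m) ^ 2 = ∑ y, w j y * g y ^ 2 - m ^ 2 := by
      have : ∀ y, w j y * (g y - m) ^ 2 = w j y * g y ^ 2 - 2 * m * (w j y * g y) + m ^ 2 * w j y :=
        fun y => by ring
      simp only [this, sum_add_distrib, sum_sub_distrib, ← mul_sum, hm, (hw j).sum]; ring
    have : ∑ y, w j y * g y ^ 2 ≤ ∑ y, w j y := sum_le_sum fun y _ => by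
      have := (hw j).nn y
      have h2 : g y ^ 2 ≤ 1 := by have := abs_le.1 (hg y); nlinarith
      nlinarith
    rw [e, (hw j).sum] at *; nlinarith [sq_nonneg m])
  have h2 : Ex w (fun f => if P f then 1 else 0) ≤
      Ex w (fun f => (1 / (Fintype.card κ * η) ^ 2) * (∑ j, (g (f j) - m)) ^ 2) := by
    refine Ex_mono hw fun f => ?_
    split_ifs with h
    · have := hP f h
      rw [sum_sub_distrib]
      simp only [sum_const, card_univ, nsmul_eq_mul]
      rw [one_div, inv_mul_eq_div, le_div_iff₀ (by positivity), one_mul, ← sq_abs (_ - _)]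
      exact pow_le_pow_left₀ (by positivity) this 2
    · positivity
  rw [Ex_mul] at h2
  refine h2.trans ?_
  calc _ ≤ (1 / (Fintype.card κ * η) ^ 2) * (Fintype.card κ * 1) :=
        mul_le_mul_of_nonneg_left h1 (by positivity)
    _ = _ := by field_simp

end

end Vale.Agent.P362
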