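import Mathlib

/-! Gaussian expectation of polynomials: Stein identity and rotation invariance. -/

set_option linter.unusedSectionVars false

namespace Vale.Agent.P362

open Finset MeasureTheory ProbabilityTheory MvPolynomial Filter

/-- standard normal density -/
noncomputable def gph (t : ℝ) : ℝ := (√(2 * Real.pi))⁻¹ * Real.exp (-t ^ 2 / 2)

lemma gph_eq (t : ℝ) : gaussianPDFReal 0 1 t = gph t := by simp [gaussianPDFReal, gph]

lemma hasDerivAt_gph (t : ℝ) : HasDerivAt gph (-t * gph t) t := by
  have h1 : HasDerivAt (fun t : ℝ => -t ^ 2 / 2) (-t) t := by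
    have := ((hasDerivAt_pow 2 t).neg).div_const 2
    refine this.congr_deriv ?_
    simp; ring
  have := (h1.exp).const_mul (√(2 * Real.pi))⁻¹
  refine this.congr_deriv ?_
  unfold gph; ring

lemma integral_g1 (F : ℝ → ℝ) : ∫ t, F t ∂(gaussianReal 0 1) = ∫ t, gph t * F t := by
  rw [integral_gaussianReal_eq_integral_smul (by simp)]
  simp [gph_eq]

lemma integrable_g1_pow (n : ℕ) : Integrable (fun x : ℝ => x ^ n) (gaussianReal 0 1) := by
  have h := memLp_id_gaussianReal' (μ := 0) (v := 1) n (by simp)
  rcases Nat.eq_zero_or_pos n with rfl | hn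
  · simp
  have := h.integrable_norm_pow (by omega)
  refine this.mono' (by fun_prop) (Eventually.of_forall fun x => by simp)

lemma integrable_gph_mul {F : ℝ → ℝ} (hF : Integrable F (gaussianReal 0 1)) :
    Integrable (fun t => gph t * F t) := by
  rw [gaussianReal_of_var_ne_zero _ (by simp),
    integrable_withDensity_iff_integrable_smul' (measurable_gaussianPDF _ _)
      (Eventually.of_forall fun _ => gaussianPDF_lt_top)] at hF
  simpa [gph_eq] using hF

/-- Gaussian moments -/
noncomputable def mom (n : ℕ) : ℝ := ∫ t, t ^ n ∂(gaussianReal 0 1)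

lemma mom_zero : mom 0 = 1 := by simp [mom]

lemma mom_succ (n : ℕ) : mom (n + 1) = n * mom (n - 1) := by
  have h := integral_mul_deriv_eq_deriv_mul_of_integrable (u := fun t : ℝ => t ^ n)
    (u' := fun t => n * t ^ (n - 1)) (v := gph) (v' := fun t => -t * gph t)
    (fun x _ => hasDerivAt_pow n x) (fun x _ => hasDerivAt_gph x)
    ((integrable_gph_mul (integrable_g1_pow (n + 1))).neg.congr
      (Eventually.of_forall fun t => by simp; ring))
    (((integrable_gph_mul (integrable_g1_pow (n - 1))).const_mul n).congr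
      (Eventually.of_forall fun t => by simp; ring))
    ((integrable_gph_mul (integrable_g1_pow n)).congr
      (Eventually.of_forall fun t => by simp; ring))
  unfold mom
  rw [integral_g1, integral_g1, ← integral_const_mul]
  have e1 : ∫ t, gph t * t ^ (n + 1) = - ∫ t, t ^ n * (-t * gph t) := by
    rw [← integral_neg]; congr 1; funext t; ring
  rw [e1, h, neg_neg]
  congr 1; funext t; ring

lemma mom_even_nonneg (r : ℕ) : 0 ≤ mom (2 * r) :=
  integral_nonneg fun t => (even_two_mul r).pow_nonneg t

section
variable {κ : Type} [Fintype κ] [DecidableEq κ]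

/-- standard Gaussian measure on `κ → ℝ` -/
noncomputable abbrev gam (κ : Type) [Fintype κ] : Measure (κ → ℝ) :=
  Measure.pi fun _ => gaussianReal 0 1

lemma eval_monomial' (g : κ → ℝ) (u : κ →₀ ℕ) (a : ℝ) :
    eval g (monomial u a) = a * ∏ i, g i ^ u i := by
  rw [eval_monomial, Finsupp.prod_fintype _ _ (by simp)]

lemma integrable_eval (p : MvPolynomial κ ℝ) : Integrable (fun g => eval g p) (gam κ) := by
  induction p using MvPolynomial.induction_on' with
  | monomial u a =>
    simp only [eval_monomial']
    exact (Integrable.fintype_prod (f := fun i (t : ℝ) => t ^ u i)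
      fun i => integrable_g1_pow (u i)).const_mul a
  | add p q hp hq => simp only [map_add]; exact hp.add hq

/-- Gaussian expectation of a polynomial -/
noncomputable def Lam : MvPolynomial κ ℝ →ₗ[ℝ] ℝ where
  toFun p := ∫ g, eval g p ∂(gam κ)
  map_add' p q := by
    simp only [map_add]; exact integral_add (integrable_eval p) (integrable_eval q)
  map_smul' c p := by simp [integral_const_mul]

lemma Lam_apply (p : MvPolynomial κ ℝ) : Lam p = ∫ g, eval g p ∂(gam κ) := rfl

lemma Lam_monomial (u : κ →₀ ℕ) (a : ℝ) : Lam (monomial u a) = a * ∏ i, mom (u i) := by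
  simp only [Lam_apply, eval_monomial']
  rw [integral_const_mul, integral_fintype_prod_eq_prod (fun i (t : ℝ) => t ^ u i)]
  rfl

lemma Lam_one : Lam (1 : MvPolynomial κ ℝ) = 1 := by simp [Lam_apply]

lemma Lam_C_mul (c : ℝ) (p : MvPolynomial κ ℝ) : Lam (C c * p) = c * Lam p := by
  rw [← smul_eq_C_mul, map_smul, smul_eq_mul]

lemma X_mul_monomial' (j : κ) (u : κ →₀ ℕ) (a : ℝ) :
    X j * monomial u a = monomial (u + Finsupp.single j 1) a := by
  rw [X, monomial_mul, one_mul, add_comm]

/-- Stein identity -/
lemma stein (j : κ) (p : MvPolynomial κ ℝ) : Lam (X j * p) = Lam (pderiv j p) := by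
  induction p using MvPolynomial.induction_on' with
  | monomial u a =>
    rw [X_mul_monomial', pderiv_monomial, Lam_monomial, Lam_monomial,
      ← mul_prod_erase univ _ (mem_univ j), ← mul_prod_erase univ _ (mem_univ j)]
    have e1 : ∏ i ∈ univ.erase j, mom ((u + Finsupp.single j 1 : κ →₀ ℕ) i) =
        ∏ i ∈ univ.erase j, mom (u i) :=
      prod_congr rfl fun i hi => by simp [Finsupp.single_eq_of_ne (ne_of_mem_erase hi)]
    have e2 : ∏ i ∈ univ.erase j, mom ((u - Finsupp.single j 1 : κ →₀ ℕ) i) =
        ∏ i ∈ univ.erase j, mom (u i) :=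
      prod_congr rfl fun i hi => by simp [Finsupp.single_eq_of_ne (ne_of_mem_erase hi)]
    rw [e1, e2]
    simp only [Finsupp.add_apply, Finsupp.single_eq_same, Finsupp.tsub_apply, mom_succ]
    ring
  | add p q hp hq => simp only [mul_add, map_add, hp, hq]

lemma Lam_unique (Φ : MvPolynomial κ ℝ →ₗ[ℝ] ℝ) (h1 : Φ 1 = 1)
    (h : ∀ j p, Φ (X j * p) = Φ (pderiv j p)) (p : MvPolynomial κ ℝ) : Φ p = Lam p := by
  have key : ∀ n : ℕ, ∀ (u : κ →₀ ℕ) (a : ℝ), ∑ i, u i ≤ n →
      Φ (monomial u a) = Lam (monomial u a) := by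
    intro n
    induction n using Nat.strong_induction_on with
    | _ n ih =>
      intro u a hu
      by_cases h0 : u = 0
      · subst h0
        rw [monomial_zero', ← mul_one (C a), ← smul_eq_C_mul, map_smul, map_smul, h1, Lam_one]
      · obtain ⟨j, hj⟩ := DFunLike.ne_iff.1 h0
        simp only [Finsupp.coe_zero, Pi.zero_apply] at hj
        have e : u = (u - Finsupp.single j 1) + Finsupp.single j 1 := by
          ext i
          by_cases hi : i = j
          · subst hi; simp; omega
          · simp [Finsupp.single_eq_of_ne hi]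
        rw [e, ← X_mul_monomial', h, stein, pderiv_monomial]
        have hlt : ∑ i, (u - Finsupp.single j 1 - Finsupp.single j 1 : κ →₀ ℕ) i < ∑ i, u i := by
          refine sum_lt_sum (fun i _ => by simp only [Finsupp.tsub_apply]; omega)
            ⟨j, mem_univ j, by simp only [Finsupp.tsub_apply, Finsupp.single_eq_same]; omega⟩
        exact ih _ (hlt.trans_le hu) _ _ le_rfl
  induction p using MvPolynomial.induction_on' with
  | monomial u a => exact key _ u a le_rfl
  | add p q hp hq => simp only [map_add, hp, hq]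

lemma pderiv_aeval' (σ : κ → MvPolynomial κ ℝ) (j : κ) (q : MvPolynomial κ ℝ) :
    pderiv j (aeval σ q) = ∑ l, pderiv j (σ l) * aeval σ (pderiv l q) := by
  induction q using MvPolynomial.induction_on with
  | C a => simp
  | add p q hp hq => simp only [map_add, hp, hq, mul_add, sum_add_distrib]
  | mul_X p n hp =>
    simp only [map_mul, aeval_X, Derivation.leibniz, hp, smul_eq_mul, map_add, mul_add,
      sum_add_distrib, mul_sum, pderiv_X]
    congr 1
    · rw [sum_eq_single n]
      · simp [mul_comm]
      · intro b _ hb; simp [Pi.single_eq_of_ne hb.symm]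
      · simp
    · exact sum_congr rfl fun l _ => by ring

/-- rotation invariance -/
lemma Lam_rot (M : κ → κ → ℝ) (hM : ∀ i l, ∑ j, M i j * M l j = if i = l then 1 else 0)
    (p : MvPolynomial κ ℝ) : Lam (aeval (fun i => ∑ j, C (M i j) * X j) p) = Lam p := by
  obtain ⟨σ, hσ⟩ : ∃ σ : κ → MvPolynomial κ ℝ, σ = fun i => ∑ j, C (M i j) * X j := ⟨_, rfl⟩
  rw [← hσ]
  refine Lam_unique (Lam ∘ₗ (aeval σ).toLinearMap) ?_ ?_ p
  · simp [Lam_one]
  · intro i q
    have hd : ∀ j l, pderiv j (σ l) = C (M l j) := by
      intro j l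
      simp only [hσ, map_sum, Derivation.leibniz, pderiv_C, pderiv_X, smul_eq_mul, mul_zero,
        add_zero]
      rw [sum_eq_single j]
      · simp
      · intro b _ hb; simp [Pi.single_eq_of_ne hb]
      · simp
    simp only [LinearMap.comp_apply, AlgHom.toLinearMap_apply, map_mul, aeval_X]
    rw [show σ i = ∑ j, C (M i j) * X j by rw [hσ]]
    simp only [sum_mul, map_sum, mul_assoc, Lam_C_mul, stein, pderiv_aeval', hd, mul_sum]
    rw [sum_comm]
    simp only [← mul_assoc, ← sum_mul, hM]
    simp

lemma Lam_prod_pow (c : ℝ) (n : ℕ) :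
    Lam (∏ j : κ, (1 + (C c * X j) ^ n) : MvPolynomial κ ℝ) = (1 + c ^ n * mom n) ^ Fintype.card κ := by
  simp only [Lam_apply, map_prod, map_add, map_one, map_pow, map_mul, eval_C, eval_X]
  rw [integral_fintype_prod_eq_prod (fun _ (t : ℝ) => 1 + (c * t) ^ n), prod_const, card_univ]
  congr 1
  simp only [mul_pow]
  rw [integral_add (by simp) ((integrable_g1_pow n).const_mul _), integral_const_mul]
  simp [mom]

lemma hasDerivAt_Lam (P : Polynomial (MvPolynomial κ ℝ)) (s : ℝ) :
    HasDerivAt (fun s : ℝ => Lam (P.eval (C s))) (Lam ((Polynomial.derivative P).eval (C s))) s := by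
  induction P using Polynomial.induction_on' with
  | monomial n a =>
    simp only [Polynomial.eval_monomial, Polynomial.derivative_monomial]
    have e : ∀ (s : ℝ) (n : ℕ) (a : MvPolynomial κ ℝ), Lam (a * C s ^ n) = s ^ n * Lam a := by
      intro s n a; rw [← map_pow, mul_comm, Lam_C_mul]
    simp only [e]
    refine ((hasDerivAt_pow n s).mul_const (Lam a)).congr_deriv ?_
    rw [show (a * (n : MvPolynomial κ ℝ)) = C (n : ℝ) * a by simp [mul_comm], Lam_C_mul]
    ring
  | add p q hp hq =>
    simp only [Polynomial.eval_add, map_add]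
    exact hp.add hq

end

end Vale.Agent.P362
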