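import Vale.Agent.P362.Deg
import Vale.Agent.P362.Main

/-! The known upper bound: decision tree depth is at most a constant times the fourth power of the
quantum query complexity. -/

set_option linter.unusedSectionVars false

namespace Vale.Agent.P362

open Finset Matrix

section
variable {n w : ℕ}

/-- real part of the inner product -/
noncomputable def rip (ψ φ : Reg n w → ℂ) : ℝ := ∑ r, (star (ψ r) * φ r).re

/-- mass on the query indices in `B` -/
noncomputable def mass (B : Finset (Fin n)) (ψ : Reg n w → ℂ) : ℝ :=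
  ∑ r, if r.1 ∈ B then ‖ψ r‖ ^ 2 else 0

/-- action of the query on basis states -/
def sig (x : Fin n → Bool) : Reg n w ≃ Reg n w where
  toFun r := (r.1, xor r.2.1 (x r.1), r.2.2)
  invFun r := (r.1, xor r.2.1 (x r.1), r.2.2)
  left_inv r := by simp
  right_inv r := by simp

lemma oracle_mulVec (x : Fin n → Bool) (ψ : Reg n w → ℂ) :
    oracle w x *ᵥ ψ = fun r => ψ (sig x r) := by
  funext r
  simp only [oracle, mulVec, dotProduct, of_apply]
  rw [sum_eq_single (r.1, xor r.2.1 (x r.1), r.2.2)]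
  · simp [sig]
  · rintro ⟨a, b, c⟩ _ hq
    rw [if_neg, zero_mul]
    intro hc; apply hq; rw [hc]; simp
  · simp

lemma rip_unitary {U : Matrix (Reg n w) (Reg n w) ℂ} (hU : U ∈ Matrix.unitaryGroup (Reg n w) ℂ)
    (ψ φ : Reg n w → ℂ) : rip (U *ᵥ ψ) (U *ᵥ φ) = rip ψ φ := by
  have h : star (U *ᵥ ψ) ⬝ᵥ (U *ᵥ φ) = star ψ ⬝ᵥ φ := by
    rw [star_mulVec, dotProduct_mulVec, vecMul_vecMul, ← star_eq_conjTranspose,
      Matrix.mem_unitaryGroup_iff'.1 hU, vecMul_one]
  have := congrArg Complex.re h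
  simpa only [rip, dotProduct, Complex.re_sum, Pi.star_apply] using this

lemma rip_self (ψ : Reg n w → ℂ) : rip ψ ψ = ∑ r, ‖ψ r‖ ^ 2 :=
  sum_congr rfl fun r _ => by
    rw [Complex.star_def, Complex.conj_mul']; norm_cast

lemma re_le (a b : ℂ) (α β : ℝ) :
    |α * β * (star a * b).re| ≤ (α ^ 2 * ‖a‖ ^ 2 + β ^ 2 * ‖b‖ ^ 2) / 2 := by
  have h1 : |(star a * b).re| ≤ ‖a‖ * ‖b‖ := by
    refine (Complex.abs_re_le_norm _).trans (le_of_eq ?_)
    rw [norm_mul, norm_star]
  rw [abs_mul, abs_mul, ← sq_abs α, ← sq_abs β]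
  have h2 := mul_le_mul_of_nonneg_left h1 (mul_nonneg (abs_nonneg α) (abs_nonneg β))
  nlinarith [sq_nonneg (|α| * ‖a‖ - |β| * ‖b‖)]

lemma mass_sig (B : Finset (Fin n)) (ψ : Reg n w → ℂ) (x : Fin n → Bool) :
    ∑ r, (if r.1 ∈ B then ‖ψ (sig x r)‖ ^ 2 else 0) = mass B ψ :=
  (sig x).sum_comp (fun r => if r.1 ∈ B then ‖ψ r‖ ^ 2 else 0)

lemma rip_query {x x' : Fin n → Bool} {B : Finset (Fin n)} (h : ∀ i, i ∉ B → x' i = x i)
    (ψ φ : Reg n w → ℂ) (α β : ℝ) :
    α * β * rip ψ φ - α * β * rip (oracle w x *ᵥ ψ) (oracle w x' *ᵥ φ) ≤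
      α ^ 2 * mass B ψ + β ^ 2 * mass B φ := by
  rw [oracle_mulVec, oracle_mulVec, rip, rip, ← (sig x).sum_comp, mul_sum, mul_sum,
    ← sum_sub_distrib]
  have e : α ^ 2 * mass B ψ + β ^ 2 * mass B φ = ∑ r,
      (α ^ 2 * (if r.1 ∈ B then ‖ψ (sig x r)‖ ^ 2 else 0) +
        (β ^ 2 * (if r.1 ∈ B then ‖φ (sig x r)‖ ^ 2 else 0) +
          β ^ 2 * (if r.1 ∈ B then ‖φ (sig x' r)‖ ^ 2 else 0)) / 2) := by
    simp only [sum_add_distrib, ← sum_div, ← mul_sum, mass_sig]; ring
  rw [e]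
  refine sum_le_sum fun r _ => ?_
  split_ifs with hr
  · have h1 := abs_le.1 (re_le (ψ (sig x r)) (φ (sig x r)) α β)
    have h2 := abs_le.1 (re_le (ψ (sig x r)) (φ (sig x' r)) α β)
    linarith
  · have : sig x' r = sig x r := by simp [sig, h _ hr]
    rw [this]; simp

variable {U : ℕ → Matrix (Reg n w) (Reg n w) ℂ} (hU : ∀ t, U t ∈ Matrix.unitaryGroup (Reg n w) ℂ)
  (s : Reg n w)
include hU

lemma rip_zero (x x' : Fin n → Bool) : rip (qstate U s x 0) (qstate U s x' 0) = 1 := by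
  simp only [qstate]
  rw [rip_unitary (hU 0), rip, sum_eq_single s]
  · simp
  · intro b _ hb; simp [hb]
  · simp

lemma norm_qstate (x : Fin n → Bool) : ∀ t, ∑ r, ‖qstate U s x t r‖ ^ 2 = 1
  | 0 => by rw [← rip_self, rip_zero hU]
  | t + 1 => by
    rw [← rip_self, qstate, rip_unitary (hU _), rip_self, oracle_mulVec,
      (sig x).sum_comp (fun r => ‖qstate U s x t r‖ ^ 2), norm_qstate x t]

lemma progress {x x' : Fin n → Bool} {B : Finset (Fin n)} (h : ∀ i, i ∉ B → x' i = x i) (α β : ℝ) :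
    ∀ T, α * β - α * β * rip (qstate U s x T) (qstate U s x' T) ≤
      ∑ t ∈ range T, (α ^ 2 * mass B (qstate U s x t) + β ^ 2 * mass B (qstate U s x' t))
  | 0 => by simp [rip_zero hU]
  | T + 1 => by
    have h1 := progress h α β T
    have h2 := rip_query h (qstate U s x T) (qstate U s x' T) α β
    rw [sum_range_succ, qstate, qstate, rip_unitary (hU _)]
    linarith

omit hU in
lemma rip_final {ψ φ : Reg n w → ℂ} (hψ : ∑ r, ‖ψ r‖ ^ 2 = 1) (hφ : ∑ r, ‖φ r‖ ^ 2 = 1)
    (out : Reg n w → Bool) {a b : Bool} (hab : b ≠ a)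
    (h1 : (2 / 3 : ℝ) ≤ ∑ r with out r = a, ‖ψ r‖ ^ 2)
    (h2 : (2 / 3 : ℝ) ≤ ∑ r with out r = b, ‖φ r‖ ^ 2) : rip ψ φ ≤ 17 / 18 := by
  rw [sum_filter] at h1 h2
  have : rip ψ φ ≤ ∑ r, (3 / 4 * ‖ψ r‖ ^ 2 + 3 / 4 * ‖φ r‖ ^ 2 -
      5 / 12 * (if out r = a then ‖ψ r‖ ^ 2 else 0) -
      5 / 12 * (if out r = b then ‖φ r‖ ^ 2 else 0)) := by
    refine sum_le_sum fun r _ => ?_
    by_cases ha : out r = a
    · have := (abs_le.1 (re_le (ψ r) (φ r) 2 3)).2
      rw [if_pos ha, if_neg (fun e => hab (e.symm.trans ha))]; linarith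
    · have := (abs_le.1 (re_le (ψ r) (φ r) 3 2)).2
      have hb : out r = b := by revert ha hab; cases out r <;> cases a <;> cases b <;> simp
      rw [if_neg ha, if_pos hb]; linarith
  simp only [sum_sub_distrib, sum_add_distrib, ← mul_sum, hψ, hφ] at this
  linarith

omit hU in
lemma sum_mass_le {κ : Type} (S : Finset κ) (B : κ → Finset (Fin n))
    (hB : ∀ j j', j ≠ j' → Disjoint (B j) (B j')) (ψ : Reg n w → ℂ) :
    ∑ j ∈ S, mass (B j) ψ ≤ ∑ r, ‖ψ r‖ ^ 2 := by
  unfold mass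
  rw [sum_comm]
  refine sum_le_sum fun r _ => ?_
  by_cases h : ∃ j ∈ S, r.1 ∈ B j
  · obtain ⟨j, hj, hr⟩ := h
    rw [sum_eq_single j, if_pos hr]
    · intro j' _ hne
      exact if_neg fun hr' => disjoint_left.1 (hB j' j hne) hr' hr
    · exact fun h => absurd hj h
  · rw [sum_eq_zero fun j hj => if_neg fun hr => h ⟨j, hj, hr⟩]; positivity

end

theorem bs_deg_of_qcomputes {n : ℕ} {f : (Fin n → Bool) → Bool} {T : ℕ} (h : QComputes f T) :
    BsLe f ((36 * T) ^ 2) ∧ DegLe f ((36 * T) ^ 2) := by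
  obtain ⟨w, U, s, out, hU, hf⟩ := h
  have key : ∀ {x x' : Fin n → Bool} {B : Finset (Fin n)}, (∀ i, i ∉ B → x' i = x i) →
      f x' ≠ f x → ∀ α β : ℝ, 0 ≤ α * β → α * β / 18 ≤
      ∑ t ∈ range T, (α ^ 2 * mass B (qstate U s x t) + β ^ 2 * mass B (qstate U s x' t)) := by
    intro x x' B h1 h2 α β h3
    have h4 := progress hU s h1 α β T
    have h5 := rip_final (norm_qstate hU s x T) (norm_qstate hU s x' T) out h2 (hf x) (hf x')
    nlinarith
  have hm1 : ∀ B x t, mass B (qstate U s x t) ≤ 1 := fun B x t => by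
    have := sum_mass_le {()} (fun _ => B) (by simp) (qstate U s x t)
    rwa [norm_qstate hU, sum_singleton] at this
  constructor
  · intro κ _ x B y h1 h2 h3
    have h4 : ∀ α : ℝ, 0 ≤ α → Fintype.card κ * (α / 18) ≤ T * (α ^ 2 + Fintype.card κ) := by
      intro α hα
      have h5 := sum_le_sum fun j (_ : j ∈ univ) => key (h2 j) (h3 j) α 1 (by linarith)
      rw [sum_comm] at h5
      simp only [mul_one, one_pow, one_mul, sum_const, card_univ, nsmul_eq_mul] at h5
      refine h5.trans ?_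
      calc _ ≤ ∑ _t ∈ range T, (α ^ 2 + Fintype.card κ) := by
            refine sum_le_sum fun t _ => ?_
            rw [sum_add_distrib, ← mul_sum]
            have a1 := sum_mass_le univ B h1 (qstate U s x t)
            rw [norm_qstate hU] at a1
            have a2 := sum_le_sum fun j (_ : j ∈ univ) => hm1 (B j) (y j) t
            simp only [sum_const, card_univ, nsmul_eq_mul, mul_one] at a2
            nlinarith [sq_nonneg α]
        _ = _ := by simp; ring
    have h6 : (Fintype.card κ : ℝ) ≤ (36 * T) ^ 2 := by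
      rcases Nat.eq_zero_or_pos T with h0 | h0
      · have := h4 1 zero_le_one
        rw [h0] at this ⊢
        simp only [Nat.cast_zero] at this ⊢
        linarith
      · have := h4 (36 * T) (by positivity)
        have hT : (0 : ℝ) < T := by exact_mod_cast h0
        nlinarith
    exact_mod_cast h6
  · intro M x h
    obtain ⟨v, h1, h2, h3, h4⟩ := huang_deg h
    have h5 : ∀ z, ∀ i ∈ M, v z * v (fl z i) / 18 ≤ ∑ t ∈ range T,
        (v z ^ 2 * mass {i} (qstate U s (M.piecewise z x) t) +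
          v (fl z i) ^ 2 * mass {i} (qstate U s (M.piecewise (fl z i) x) t)) := by
      intro z i hi
      by_cases hv : v z * v (fl z i) = 0
      · rw [hv, zero_div]
        refine sum_nonneg fun t _ => add_nonneg (mul_nonneg (sq_nonneg _) ?_)
          (mul_nonneg (sq_nonneg _) ?_) <;>
        exact sum_nonneg fun r _ => by split_ifs <;> positivity
      · refine key (fun l hl => ?_) (h3 z i hi hv).symm _ _ (mul_nonneg (h2 _) (h2 _))
        have : l ≠ i := by simpa using hl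
        by_cases hM : l ∈ M <;> simp [hM, fl, this]
    have h6 := sum_le_sum fun z (_ : z ∈ univ) => sum_le_sum (h5 z)
    set W := ∑ z, v z ^ 2 with hW
    have hW0 : 0 < W := by
      obtain ⟨z, hz⟩ := Function.ne_iff.1 h1
      exact sum_pos' (fun _ _ => sq_nonneg _) ⟨z, mem_univ z, sq_pos_of_ne_zero hz⟩
    have h7 : √M.card * W / 18 ≤ ∑ z, ∑ i ∈ M, v z * v (fl z i) / 18 := by
      rw [hW, mul_sum, sum_div]
      refine sum_le_sum fun z _ => ?_
      rw [← sum_div, ← mul_sum]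
      have := mul_le_mul_of_nonneg_left (h4 z) (h2 z)
      nlinarith
    have h8 : ∀ t, ∑ z, ∑ i ∈ M, v z ^ 2 * mass {i} (qstate U s (M.piecewise z x) t) ≤ W := by
      intro t
      refine sum_le_sum fun z _ => ?_
      rw [← mul_sum]
      have := sum_mass_le M (fun i => {i}) (by simp) (qstate U s (M.piecewise z x) t)
      rw [norm_qstate hU] at this
      exact mul_le_of_le_one_right (sq_nonneg _) this
    have h9 : ∀ t, ∑ z, ∑ i ∈ M,
        v (fl z i) ^ 2 * mass {i} (qstate U s (M.piecewise (fl z i) x) t) ≤ W := by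
      intro t
      refine le_trans (le_of_eq ?_) (h8 t)
      rw [sum_comm, sum_comm (s := univ)]
      refine sum_congr rfl fun i _ => ?_
      exact Equiv.sum_comp (Function.Involutive.toPerm (fun z => fl z i) (fun z => fl_fl z i))
        (fun z => v z ^ 2 * mass {i} (qstate U s (M.piecewise z x) t))
    have h10 : ∑ z, ∑ i ∈ M, ∑ t ∈ range T,
        (v z ^ 2 * mass {i} (qstate U s (M.piecewise z x) t) +
          v (fl z i) ^ 2 * mass {i} (qstate U s (M.piecewise (fl z i) x) t)) ≤ T * (2 * W) := by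
      simp only [sum_comm (t := range T)]
      calc _ ≤ ∑ _t ∈ range T, 2 * W := by
            refine sum_le_sum fun t _ => ?_
            simp only [sum_add_distrib]
            linarith [h8 t, h9 t]
        _ = _ := by simp
    have h11 : √M.card ≤ 36 * T := by
      have := h7.trans (h6.trans h10)
      nlinarith
    have h12 : (M.card : ℝ) ≤ (36 * T) ^ 2 := by
      rw [← Real.sq_sqrt (Nat.cast_nonneg M.card)]
      exact pow_le_pow_left₀ (Real.sqrt_nonneg _) h11 2
    exact_mod_cast h12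

theorem R_le {n : ℕ} (hn : 1 ≤ n) (f : (Fin n → Bool) → Bool) : R f ≤ (36 * Q f) ^ 4 := by
  obtain ⟨h1, h2⟩ := bs_deg_of_qcomputes (qcomputes_Q hn f)
  obtain ⟨t, ht, e⟩ := tree_of_bs_deg _ f h1 h2
  exact (Nat.sInf_le (rcomputes_of_tree t e)).trans (ht.trans (le_of_eq (by ring)))

theorem four_mem : (4 : ℝ) ∈ Exponents := by
  refine ⟨by norm_num, 36 ^ 4, fun n hn f => ?_⟩
  have h : (R f : ℝ) ≤ (36 * Q f) ^ 4 := by exact_mod_cast R_le hn f
  rw [show (4 : ℝ) = (4 : ℕ) by norm_num, Real.rpow_natCast, ← mul_pow]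
  exact h.trans (pow_le_pow_left₀ (by positivity) (by linarith) 4)

theorem isLeast_four : IsLeast Exponents 4 := ⟨four_mem, fun _ h => four_le h⟩

end Vale.Agent.P362
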